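import Mathlib
import Vale.Agent.P309.Pi

/-!
Density of the standard Gaussian measure and change of variables.
-/

namespace P226

open MeasureTheory ProbabilityTheory Set
open scoped RealInnerProductSpace ENNReal

variable {E : Type*} [NormedAddCommGroup E] [InnerProductSpace ℝ E] [FiniteDimensional ℝ E]
  [MeasurableSpace E] [BorelSpace E]

/-- Gaussian density. -/
noncomputable def gdens (x : E) : ℝ :=
  (Real.sqrt (2 * Real.pi))⁻¹ ^ (Module.finrank ℝ E) * Real.exp (-‖x‖ ^ 2 / 2)

lemma gdens_pos (x : E) : 0 < gdens x := by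
  unfold gdens; positivity

lemma continuous_gdens : Continuous (gdens : E → ℝ) := by
  unfold gdens; fun_prop

lemma stdGaussian_eucl (N : ℕ) : stdGaussian (EuclideanSpace ℝ (Fin N)) =
    (volume : Measure (EuclideanSpace ℝ (Fin N))).withDensity
      (fun x => ENNReal.ofReal (gdens x)) := by
  rw [← map_pi_eq_stdGaussian]
  have h1 : gaussianReal 0 1 = (volume : Measure ℝ).withDensity (gaussianPDF 0 1) :=
    gaussianReal_of_var_ne_zero _ one_ne_zero
  have h2 : (Measure.pi fun _ : Fin N => gaussianReal 0 1) =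
      (volume : Measure (Fin N → ℝ)).withDensity fun x => ∏ i, gaussianPDF 0 1 (x i) := by
    have : IsProbabilityMeasure ((volume : Measure ℝ).withDensity (gaussianPDF 0 1)) := by
      rw [← h1]; infer_instance
    rw [h1, Vale.Agent.P309.pi_withDensity _ _ (measurable_gaussianPDF 0 1)]
    rfl
  have hmp := (EuclideanSpace.volume_preserving_symm_measurableEquiv_toLp (Fin N))
  ext s hs
  rw [Measure.map_apply (by fun_prop) hs, h2,
    withDensity_apply _ ((by fun_prop : Measurable (WithLp.toLp 2 : (Fin N → ℝ) → _)) hs),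
    withDensity_apply _ hs]
  have hmp2 : MeasurePreserving (MeasurableEquiv.toLp 2 (Fin N → ℝ)) volume volume :=
    hmp.symm _
  rw [← hmp2.setLIntegral_comp_preimage hs (by unfold gdens; fun_prop)]
  refine setLIntegral_congr_fun ((by fun_prop : Measurable (WithLp.toLp 2 : (Fin N → ℝ) → _)) hs)
    fun x _ => ?_
  have e1 : ∀ i, gaussianPDF 0 1 (x i) = ENNReal.ofReal (gaussianPDFReal 0 1 (x i)) :=
    fun i => rfl
  simp only [e1]
  rw [← ENNReal.ofReal_prod_of_nonneg (fun i _ => gaussianPDFReal_nonneg _ _ _)]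
  congr 1
  simp only [gaussianPDFReal, gdens]
  rw [Finset.prod_mul_distrib, Finset.prod_const, ← Real.exp_sum]
  simp only [NNReal.coe_one, mul_one, sub_zero, Finset.card_univ, Fintype.card_fin,
    finrank_euclideanSpace]
  congr 2
  rw [EuclideanSpace.real_norm_sq_eq]
  simp [Finset.sum_div, neg_div]

theorem stdGaussian_eq : stdGaussian E =
    (volume : Measure E).withDensity (fun x => ENNReal.ofReal (gdens x)) := by
  set N := Module.finrank ℝ E with hN
  let f : E ≃ₗᵢ[ℝ] EuclideanSpace ℝ (Fin N) := (stdOrthonormalBasis ℝ E).repr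
  have h1 : stdGaussian E = (stdGaussian (EuclideanSpace ℝ (Fin N))).map f.symm := by
    have := stdGaussian_map f.symm
    rw [← this]
  have hmp : MeasurePreserving f volume volume := f.measurePreserving
  ext s hs
  rw [h1, Measure.map_apply f.symm.continuous.measurable hs, stdGaussian_eucl,
    withDensity_apply _ (f.symm.continuous.measurable hs), withDensity_apply _ hs,
    ← hmp.setLIntegral_comp_preimage (f.symm.continuous.measurable hs)
      (by unfold gdens; fun_prop)]
  have e1 : f ⁻¹' (f.symm ⁻¹' s) = s := by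
    ext x; simp
  rw [e1]
  refine setLIntegral_congr_fun hs fun x _ => ?_
  simp only [gdens, finrank_euclideanSpace, Fintype.card_fin, LinearIsometryEquiv.norm_map]
  rfl

theorem integral_stdGaussian (f : E → ℝ) :
    ∫ x, f x ∂(stdGaussian E) = ∫ x, gdens x * f x := by
  rw [stdGaussian_eq, integral_withDensity_eq_integral_toReal_smul
    (by unfold gdens; fun_prop) (by simp)]
  refine integral_congr_ae (Filter.Eventually.of_forall fun x => ?_)
  simp [ENNReal.toReal_ofReal (gdens_pos x).le]

theorem gauss_linear (S : E →ₗ[ℝ] E) (hS : LinearMap.det S ≠ 0) (f : E → ℝ) :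
    ∫ x, f x ∂(stdGaussian E) =
      |LinearMap.det S| * ∫ y, f (S y) * Real.exp ((‖y‖ ^ 2 - ‖S y‖ ^ 2) / 2)
        ∂(stdGaussian E) := by
  rw [integral_stdGaussian, integral_stdGaussian]
  have h1 : Measure.map S (volume : Measure E) = ENNReal.ofReal |(LinearMap.det S)⁻¹| • volume :=
    Measure.map_linearMap_addHaar_eq_smul_addHaar _ hS
  let e : E ≃L[ℝ] E := (LinearMap.equivOfDetNeZero S hS).toContinuousLinearEquiv
  have he : (e : E → E) = S := by
    ext x; rfl
  have hemb : MeasurableEmbedding S := by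
    rw [← he]; exact e.toHomeomorph.measurableEmbedding
  have h2 : ∫ y, gdens (S y) * f (S y) = |(LinearMap.det S)⁻¹| * ∫ x, gdens x * f x := by
    rw [← hemb.integral_map (fun x => gdens x * f x), h1, integral_smul_measure,
      ENNReal.toReal_ofReal (abs_nonneg _)]
    rfl
  have h3 : ∀ y : E, gdens y * (f (S y) * Real.exp ((‖y‖ ^ 2 - ‖S y‖ ^ 2) / 2)) =
      gdens (S y) * f (S y) := by
    intro y
    unfold gdens
    have : Real.exp (-‖S y‖ ^ 2 / 2) =
        Real.exp (-‖y‖ ^ 2 / 2) * Real.exp ((‖y‖ ^ 2 - ‖S y‖ ^ 2) / 2) := by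
      rw [← Real.exp_add]; congr 1; ring
    rw [this]; ring
  simp_rw [h3]
  rw [h2, ← mul_assoc, ← abs_mul, mul_inv_cancel₀ hS, abs_one, one_mul]

/-- Cameron-Martin. -/
theorem cameron_martin (v : E) (f : E → ℝ) :
    ∫ x, f (x + v) ∂(stdGaussian E) =
      ∫ y, f y * Real.exp (⟪y, v⟫ - ‖v‖ ^ 2 / 2) ∂(stdGaussian E) := by
  rw [integral_stdGaussian, integral_stdGaussian]
  have h1 : ∀ y : E, gdens y * (f y * Real.exp (⟪y, v⟫ - ‖v‖ ^ 2 / 2)) =
      gdens (y - v) * f y := by
    intro y
    unfold gdens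
    have : Real.exp (-‖y - v‖ ^ 2 / 2) =
        Real.exp (-‖y‖ ^ 2 / 2) * Real.exp (⟪y, v⟫ - ‖v‖ ^ 2 / 2) := by
      rw [← Real.exp_add, norm_sub_sq_real]; congr 1; ring
    rw [this]; ring
  simp_rw [h1]
  rw [← integral_add_right_eq_self (fun y => gdens (y - v) * f y) v]
  simp

end P226
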