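import Vale.Agent.P226.Defs
import Vale.Agent.P226.Density

/-!
GT (helper5): Gaussian tools: one-dimensional marginals, moments.
-/

namespace P226

open MeasureTheory ProbabilityTheory Set
open scoped RealInnerProductSpace

variable {E : Type*} [NormedAddCommGroup E] [InnerProductSpace ℝ E] [FiniteDimensional ℝ E]
  [MeasurableSpace E] [BorelSpace E]

/-- the law of `⟪x, u⟫`. -/
theorem map_inner (u : E) : (stdGaussian E).map (fun x => ⟪x, u⟫) =
    gaussianReal 0 ⟨‖u‖ ^ 2, by positivity⟩ := by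
  have h := IsGaussian.map_eq_gaussianReal (μ := stdGaussian E) (innerSL ℝ u)
  rw [integral_strongDual_stdGaussian, variance_dual_stdGaussian] at h
  have e : (fun x : E => ⟪x, u⟫) = innerSL ℝ u := by
    ext x; simp [real_inner_comm]
  rw [e, h]
  congr 1
  ext
  simp [innerSL_apply_norm]
  rfl

theorem map_inner' (u : E) : (stdGaussian E).map (fun x => ⟪x, u⟫) =
    (gaussianReal 0 1).map (fun z => ‖u‖ * z) := by
  rw [map_inner, gaussianReal_map_const_mul]
  congr 1
  · simp
  · ext; simp; rfl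

/-- integrals of functions of `⟪x, u⟫`. -/
theorem integral_comp_inner (u : E) {f : ℝ → ℝ} (hf : Measurable f) :
    ∫ x, f ⟪x, u⟫ ∂(stdGaussian E) = ∫ z, f (‖u‖ * z) ∂(gaussianReal 0 1) := by
  rw [← integral_map (φ := fun z : ℝ => ‖u‖ * z) (by fun_prop) hf.aestronglyMeasurable,
    ← map_inner', integral_map (by fun_prop) hf.aestronglyMeasurable]

theorem integral_inner_gauss (u : E) : ∫ x, ⟪x, u⟫ ∂(stdGaussian E) = 0 := by
  have := integral_strongDual_stdGaussian (innerSL ℝ u)
  rw [← this]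
  refine integral_congr_ae (Filter.Eventually.of_forall fun x => ?_)
  simp [real_inner_comm]

theorem integrable_norm_pow (m : ℕ) : Integrable (fun x : E => ‖x‖ ^ m) (stdGaussian E) := by
  rcases Nat.eq_zero_or_pos m with rfl | hm
  · simp
  · have h := IsGaussian.memLp_id (stdGaussian E) m (by simp)
    exact h.integrable_norm_pow (by omega)

theorem integrable_inner_gauss (u : E) : Integrable (fun x : E => ⟪x, u⟫) (stdGaussian E) := by
  refine Integrable.mono' ((integrable_norm_pow (E := E) 1).mul_const ‖u‖)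
    (by fun_prop) (Filter.Eventually.of_forall fun x => ?_)
  simpa using abs_real_inner_le_norm x u

theorem gauss_hyperplane {u : E} (hu : u ≠ 0) : stdGaussian E {x | ⟪x, u⟫ = 0} = 0 := by
  have h : {x : E | ⟪x, u⟫ = 0} = (fun x => ⟪x, u⟫) ⁻¹' {0} := by ext; simp
  rw [h, ← Measure.map_apply (by fun_prop) (measurableSet_singleton 0), map_inner]
  have hv : (⟨‖u‖ ^ 2, by positivity⟩ : NNReal) ≠ 0 := by
    intro h0
    have h1 : ‖u‖ ^ 2 = 0 := congrArg NNReal.toReal h0
    exact hu (norm_eq_zero.1 (pow_eq_zero_iff two_ne_zero |>.1 h1))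
  have := nullSingletonClass_gaussianReal (μ := 0) hv
  exact measure_singleton 0

/-! ### one-dimensional integrals -/

lemma pdf_eq (z : ℝ) : gaussianPDFReal 0 1 z =
    (Real.sqrt (2 * Real.pi))⁻¹ * Real.exp (-z ^ 2 / 2) := by
  simp [gaussianPDFReal]

lemma integral_gauss01 (f : ℝ → ℝ) : ∫ z, f z ∂(gaussianReal 0 1) =
    (Real.sqrt (2 * Real.pi))⁻¹ * ∫ z, Real.exp (-z ^ 2 / 2) * f z := by
  rw [integral_gaussianReal_eq_integral_smul one_ne_zero, ← integral_const_mul]
  refine integral_congr_ae (Filter.Eventually.of_forall fun z => ?_)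
  simp only [pdf_eq, smul_eq_mul]
  ring

lemma integrable_mul_exp_sq : Integrable (fun z : ℝ => z * Real.exp (-z ^ 2 / 2)) := by
  have := integrable_mul_exp_neg_mul_sq (b := 1 / 2) (by norm_num)
  refine this.congr (Filter.Eventually.of_forall fun z => ?_)
  simp only
  congr 2; ring

lemma integral_Ioi_mul_exp (a : ℝ) :
    ∫ z in Ioi a, z * Real.exp (-z ^ 2 / 2) = Real.exp (-a ^ 2 / 2) := by
  have hd : ∀ x ∈ Ici a, HasDerivAt (fun z : ℝ => -Real.exp (-z ^ 2 / 2))
      (x * Real.exp (-x ^ 2 / 2)) x := by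
    intro x _
    have h1 : HasDerivAt (fun z : ℝ => -z ^ 2 / 2) (-x) x := by
      have := ((hasDerivAt_pow 2 x).neg).div_const 2
      refine this.congr_deriv ?_
      simp; ring
    have := h1.exp.neg
    refine this.congr_deriv ?_
    ring
  have ht : Filter.Tendsto (fun z : ℝ => -Real.exp (-z ^ 2 / 2)) Filter.atTop (nhds 0) := by
    rw [← neg_zero]
    apply Filter.Tendsto.neg
    apply Real.tendsto_exp_atBot.comp
    have : Filter.Tendsto (fun z : ℝ => z ^ 2 / 2) Filter.atTop Filter.atTop :=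
      (Filter.tendsto_pow_atTop two_ne_zero).atTop_div_const (by norm_num)
    refine (Filter.tendsto_neg_atTop_atBot.comp this).congr fun z => ?_
    simp; ring
  rw [integral_Ioi_of_hasDerivAt_of_tendsto' hd integrable_mul_exp_sq.integrableOn ht]
  simp

lemma sqrt_two_pi_pos : 0 < Real.sqrt (2 * Real.pi) := Real.sqrt_pos.2 (by positivity)

/-- `E Z_+ = 1/√(2π)`. -/
lemma integral_pos01 : ∫ z, max z 0 ∂(gaussianReal 0 1) = (Real.sqrt (2 * Real.pi))⁻¹ := by
  rw [integral_gauss01]
  have : (fun z : ℝ => Real.exp (-z ^ 2 / 2) * max z 0) =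
      (Ioi (0:ℝ)).indicator (fun z => z * Real.exp (-z ^ 2 / 2)) := by
    ext z
    by_cases hz : 0 < z
    · rw [indicator_of_mem (by exact hz), max_eq_left hz.le]; ring
    · rw [indicator_of_notMem (by exact hz), max_eq_right (not_lt.1 hz)]; simp
  rw [this, integral_indicator measurableSet_Ioi, integral_Ioi_mul_exp]
  simp

theorem integral_pos_inner_gauss (u : E) :
    ∫ x, max ⟪x, u⟫ 0 ∂(stdGaussian E) = ‖u‖ / Real.sqrt (2 * Real.pi) := by
  rw [integral_comp_inner u (f := fun z => max z 0) (by fun_prop)]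
  have : ∀ z : ℝ, max (‖u‖ * z) 0 = ‖u‖ * max z 0 := by
    intro z
    rw [mul_max_of_nonneg _ _ (norm_nonneg u), mul_zero]
  simp_rw [this]
  rw [integral_const_mul, integral_pos01, div_eq_mul_inv]

theorem integral_abs_inner_gauss (u : E) :
    ∫ x, |⟪x, u⟫| ∂(stdGaussian E) = 2 * (‖u‖ / Real.sqrt (2 * Real.pi)) := by
  have h1 : ∀ x : E, |⟪x, u⟫| = 2 * max ⟪x, u⟫ 0 - ⟪x, u⟫ := by
    intro x
    rcases le_total 0 ⟪x, u⟫ with h | h
    · rw [abs_of_nonneg h, max_eq_left h]; ring
    · rw [abs_of_nonpos h, max_eq_right h]; ring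
  have hmax : Integrable (fun x : E => max ⟪x, u⟫ 0) (stdGaussian E) :=
    (integrable_inner_gauss u).pos_part
  simp_rw [h1]
  rw [integral_sub (hmax.const_mul 2) (integrable_inner_gauss u), integral_const_mul,
    integral_pos_inner_gauss, integral_inner_gauss, sub_zero]

end P226
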