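import Vale.Agent.P226.Defs
import Vale.Agent.P226.GaussTools

/-!
CAPH (helper5): half-space (bathtub) bound, all dimensions.
-/

namespace P226

open MeasureTheory ProbabilityTheory Set
open scoped RealInnerProductSpace

variable {E : Type*} [NormedAddCommGroup E] [InnerProductSpace ℝ E] [FiniteDimensional ℝ E]
  [MeasurableSpace E] [BorelSpace E]

lemma integrable_exp_sq : Integrable (fun z : ℝ => Real.exp (-z ^ 2 / 2)) := by
  have := integrable_exp_neg_mul_sq (b := 1 / 2) (by norm_num)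
  refine this.congr (Filter.Eventually.of_forall fun z => ?_)
  simp only
  congr 1; ring

lemma integral_Ioi_exp_sq : ∫ z in Ioi (0:ℝ), Real.exp (-z ^ 2 / 2) = Real.sqrt (2 * Real.pi) / 2 := by
  have := integral_gaussian_Ioi (1 / 2)
  rw [show Real.pi / (1 / 2) = 2 * Real.pi by ring] at this
  rw [← this]
  refine integral_congr_ae (Filter.Eventually.of_forall fun z => ?_)
  simp only
  congr 1; ring

lemma exp_neg_le_quad {y : ℝ} (hy : 0 ≤ y) : Real.exp (-y) ≤ 1 - y + y ^ 2 / 2 := by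
  have h1 : ∀ x ∈ Ici (0:ℝ), HasDerivAt (fun x : ℝ => 1 - x + x ^ 2 / 2 - Real.exp (-x))
      (-1 + x + Real.exp (-x)) x := by
    intro x _
    have e1 : HasDerivAt (fun x : ℝ => Real.exp (-x)) (-Real.exp (-x)) x := by
      have := (hasDerivAt_neg x).exp
      refine this.congr_deriv ?_
      ring
    have e2 : HasDerivAt (fun x : ℝ => x ^ 2 / 2) x x := by
      have := (hasDerivAt_pow 2 x).div_const 2
      refine this.congr_deriv ?_
      simp
    have := (((hasDerivAt_id x).const_sub 1).add e2).sub e1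
    refine this.congr_deriv ?_
    ring
  have hmono : MonotoneOn (fun x : ℝ => 1 - x + x ^ 2 / 2 - Real.exp (-x)) (Ici 0) := by
    apply monotoneOn_of_deriv_nonneg (convex_Ici 0)
    · exact fun x hx => (h1 x hx).continuousAt.continuousWithinAt
    · intro x hx
      rw [interior_Ici] at hx
      exact (h1 x (mem_Ici.2 (le_of_lt hx))).differentiableAt.differentiableWithinAt
    · intro x hx
      rw [interior_Ici] at hx
      rw [(h1 x (mem_Ici.2 (le_of_lt hx))).deriv]
      have := Real.add_one_le_exp (-x)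
      linarith
  have := hmono (self_mem_Ici) hy hy
  simp at this
  linarith

/-- `√(2π) E (Z - t)_+ ≤ 1 + t²/2 - t⁴/24 + t⁶/240 - √(2π) t / 2`. -/
lemma gL_le {t : ℝ} (ht : 0 ≤ t) :
    Real.sqrt (2 * Real.pi) * ∫ z, max (z - t) 0 ∂(gaussianReal 0 1) ≤
      1 + t ^ 2 / 2 - t ^ 4 / 24 + t ^ 6 / 240 - Real.sqrt (2 * Real.pi) * t / 2 := by
  rw [integral_gauss01, ← mul_assoc, mul_inv_cancel₀ sqrt_two_pi_pos.ne', one_mul]
  have h1 : (fun z : ℝ => Real.exp (-z ^ 2 / 2) * max (z - t) 0) =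
      (Ioi t).indicator (fun z => z * Real.exp (-z ^ 2 / 2) - t * Real.exp (-z ^ 2 / 2)) := by
    ext z
    by_cases hz : t < z
    · rw [indicator_of_mem (by exact hz), max_eq_left (by linarith)]; ring
    · rw [indicator_of_notMem (by exact hz), max_eq_right (by linarith [not_lt.1 hz])]; simp
  rw [h1, integral_indicator measurableSet_Ioi,
    integral_sub integrable_mul_exp_sq.integrableOn (integrable_exp_sq.integrableOn.const_mul t),
    integral_Ioi_mul_exp, integral_const_mul]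
  have h2 : (∫ z in (0:ℝ)..t, Real.exp (-z ^ 2 / 2)) + ∫ z in Ioi t, Real.exp (-z ^ 2 / 2) =
      Real.sqrt (2 * Real.pi) / 2 := by
    rw [← integral_Ioi_exp_sq]
    exact intervalIntegral.integral_interval_add_Ioi integrable_exp_sq.integrableOn
      integrable_exp_sq.integrableOn
  have h3 : (∫ z in (0:ℝ)..t, z * Real.exp (-z ^ 2 / 2)) + ∫ z in Ioi t, z * Real.exp (-z ^ 2 / 2) =
      ∫ z in Ioi 0, z * Real.exp (-z ^ 2 / 2) :=
    intervalIntegral.integral_interval_add_Ioi integrable_mul_exp_sq.integrableOn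
      integrable_mul_exp_sq.integrableOn
  rw [integral_Ioi_mul_exp, integral_Ioi_mul_exp] at h3
  have h4 : Real.exp (-t ^ 2 / 2) - t * (∫ z in Ioi t, Real.exp (-z ^ 2 / 2)) =
      1 + (∫ z in (0:ℝ)..t, (t - z) * Real.exp (-z ^ 2 / 2)) - Real.sqrt (2 * Real.pi) * t / 2 := by
    have h5 : (∫ z in (0:ℝ)..t, (t - z) * Real.exp (-z ^ 2 / 2)) =
        t * (∫ z in (0:ℝ)..t, Real.exp (-z ^ 2 / 2)) -
          ∫ z in (0:ℝ)..t, z * Real.exp (-z ^ 2 / 2) := by
      rw [← intervalIntegral.integral_const_mul, ← intervalIntegral.integral_sub]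
      · congr 1; ext z; ring
      · exact (by fun_prop : Continuous fun z : ℝ => t * Real.exp (-z ^ 2 / 2)).intervalIntegrable _ _
      · exact (by fun_prop : Continuous fun z : ℝ => z * Real.exp (-z ^ 2 / 2)).intervalIntegrable _ _
    rw [h5]
    have h6 : (∫ z in Ioi t, Real.exp (-z ^ 2 / 2)) =
        Real.sqrt (2 * Real.pi) / 2 - ∫ z in (0:ℝ)..t, Real.exp (-z ^ 2 / 2) := by linarith
    rw [h6]
    norm_num at h3
    linarith
  rw [h4]
  have h7 : (∫ z in (0:ℝ)..t, (t - z) * Real.exp (-z ^ 2 / 2)) ≤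
      ∫ z in (0:ℝ)..t, (t - z) * (1 - z ^ 2 / 2 + z ^ 4 / 8) := by
    apply intervalIntegral.integral_mono_on ht
    · exact (by fun_prop : Continuous fun z : ℝ => (t - z) * Real.exp (-z ^ 2 / 2)).intervalIntegrable
        _ _
    · exact (by fun_prop : Continuous fun z : ℝ =>
        (t - z) * (1 - z ^ 2 / 2 + z ^ 4 / 8)).intervalIntegrable _ _
    · intro z hz
      apply mul_le_mul_of_nonneg_left _ (by linarith [hz.2])
      have := exp_neg_le_quad (y := z ^ 2 / 2) (by positivity)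
      rw [show -z ^ 2 / 2 = -(z ^ 2 / 2) by ring]
      refine this.trans (le_of_eq ?_)
      ring
  have h8 : (∫ z in (0:ℝ)..t, (t - z) * (1 - z ^ 2 / 2 + z ^ 4 / 8)) =
      t ^ 2 / 2 - t ^ 4 / 24 + t ^ 6 / 240 := by
    have hd : ∀ x ∈ uIcc 0 t, HasDerivAt (fun z : ℝ => t * z - z ^ 2 / 2 - t * z ^ 3 / 6 + z ^ 4 / 8
        + t * z ^ 5 / 40 - z ^ 6 / 48) ((t - x) * (1 - x ^ 2 / 2 + x ^ 4 / 8)) x := by
      intro x _
      have e1 : HasDerivAt (fun z : ℝ => t * z) t x := by
        simpa using (hasDerivAt_id x).const_mul t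
      have e2 := (hasDerivAt_pow 2 x).div_const 2
      have e3 := ((hasDerivAt_pow 3 x).const_mul t).div_const 6
      have e4 := (hasDerivAt_pow 4 x).div_const 8
      have e5 := ((hasDerivAt_pow 5 x).const_mul t).div_const 40
      have e6 := (hasDerivAt_pow 6 x).div_const 48
      have := ((((e1.sub e2).sub e3).add e4).add e5).sub e6
      refine this.congr_deriv ?_
      push_cast
      ring
    rw [intervalIntegral.integral_eq_sub_of_hasDerivAt hd]
    · ring
    · exact (by fun_prop : Continuous fun z : ℝ =>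
        (t - z) * (1 - z ^ 2 / 2 + z ^ 4 / 8)).intervalIntegrable _ _
  linarith

/-- half space bound. -/
theorem moment_half {S : Set E} (_hS : MeasurableSet S) {e : E} (he : ‖e‖ = 1) {t : ℝ}
    (ht : 0 ≤ t) :
    Real.sqrt (2 * Real.pi) * ∫ x in S, ⟪x, e⟫ ∂(stdGaussian E) ≤
      1 + t ^ 2 / 2 - t ^ 4 / 24 + t ^ 6 / 240 - Real.sqrt (2 * Real.pi) * t *
        (1 / 2 - (stdGaussian E).real S) := by
  have hi := integrable_inner_gauss (E := E) e
  have hmax : Integrable (fun x : E => max (⟪x, e⟫ - t) 0) (stdGaussian E) :=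
    (hi.sub (integrable_const t)).pos_part
  have h1 : ∫ x in S, ⟪x, e⟫ ∂(stdGaussian E) ≤
      t * (stdGaussian E).real S + ∫ x, max (⟪x, e⟫ - t) 0 ∂(stdGaussian E) := by
    have e1 : ∫ x in S, ⟪x, e⟫ ∂(stdGaussian E) ≤
        ∫ x in S, (t + max (⟪x, e⟫ - t) 0) ∂(stdGaussian E) := by
      apply integral_mono hi.integrableOn ((integrable_const t).add hmax).integrableOn
      intro x
      have := le_max_left (⟪x, e⟫ - t) 0
      simp only [Pi.add_apply]
      linarith
    refine e1.trans ?_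
    rw [integral_add (integrable_const t).integrableOn hmax.integrableOn]
    have e2 : ∫ x in S, max (⟪x, e⟫ - t) 0 ∂(stdGaussian E) ≤
        ∫ x, max (⟪x, e⟫ - t) 0 ∂(stdGaussian E) :=
      setIntegral_le_integral hmax (Filter.Eventually.of_forall fun x => le_max_right _ _)
    have e3 : ∫ x in S, t ∂(stdGaussian E) = t * (stdGaussian E).real S := by
      rw [setIntegral_const, smul_eq_mul, mul_comm]
    rw [e3]
    linarith
  have h2 : ∫ x, max (⟪x, e⟫ - t) 0 ∂(stdGaussian E) =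
      ∫ z, max (z - t) 0 ∂(gaussianReal 0 1) := by
    rw [integral_comp_inner e (f := fun z => max (z - t) 0) (by fun_prop), he]
    simp
  have h3 := gL_le ht
  rw [h2] at h1
  have h4 := mul_le_mul_of_nonneg_left h1 sqrt_two_pi_pos.le
  linarith

lemma measurableSet_cell {k : ℕ} (w : Fin k → E) (l : Fin k) : MeasurableSet (cell w l) := by
  have : cell w l = ⋂ j, ⋂ (_ : j ≠ l), {x : E | ⟪x, w j⟫ < ⟪x, w l⟫} := by
    ext x; simp [cell]
  rw [this]
  refine MeasurableSet.iInter fun j => MeasurableSet.iInter fun _ => ?_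
  exact measurableSet_lt (by fun_prop) (by fun_prop)

lemma cap_of_moment {k : ℕ} {w : Fin k → E} (hw : Crit w) (l : Fin k) {R : ℝ} (hR : 0 ≤ R)
    (h : ∀ e : E, ‖e‖ = 1 →
      Real.sqrt (2 * Real.pi) * ∫ x in cell w l, ⟪x, e⟫ ∂(stdGaussian E) ≤ R) :
    Real.sqrt (2 * Real.pi) * ‖w l‖ ≤ R := by
  by_cases h0 : w l = 0
  · simpa [h0] using hR
  have hn : 0 < ‖w l‖ := norm_pos_iff.2 h0
  have he : ‖(‖w l‖⁻¹ • w l)‖ = 1 := by
    rw [norm_smul, norm_inv, norm_norm, inv_mul_cancel₀ hn.ne']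
  have h1 := h _ he
  have h2 : ∫ x in cell w l, ⟪x, ‖w l‖⁻¹ • w l⟫ ∂(stdGaussian E) = ‖w l‖ := by
    have hid : Integrable (fun x : E => x) ((stdGaussian E).restrict (cell w l)) :=
      (IsGaussian.integrable_id (μ := stdGaussian E)).integrableOn
    have e1 : ∫ x in cell w l, ⟪x, ‖w l‖⁻¹ • w l⟫ ∂(stdGaussian E) =
        ⟪∫ x in cell w l, x ∂(stdGaussian E), ‖w l‖⁻¹ • w l⟫ := by
      rw [real_inner_comm, ← integral_inner hid]
      refine integral_congr_ae (Filter.Eventually.of_forall fun x => ?_)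
      exact real_inner_comm _ _
    rw [e1, ← hw.moment l, real_inner_smul_right, real_inner_self_eq_norm_sq]
    field_simp
  rwa [h2] at h1

lemma sqrt_two_pi_le : Real.sqrt (2 * Real.pi) ≤ 2.5067 := by
  apply Real.sqrt_le_iff.2
  constructor
  · norm_num
  · have := Real.pi_lt_d4
    norm_num
    linarith

theorem capH {k : ℕ} {w : Fin k → E} (hw : Crit w) (l : Fin k) {t : ℝ}
    (h0 : 0 ≤ t) (h1 : t ≤ 1) :
    Real.sqrt (2 * Real.pi) * ‖w l‖ ≤
      1 + t ^ 2 / 2 - t ^ 4 / 24 + t ^ 6 / 240 - Real.sqrt (2 * Real.pi) * t *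
        (1 / 2 - (stdGaussian E).real (cell w l)) := by
  apply cap_of_moment hw l
  · have hp : 0 ≤ (stdGaussian E).real (cell w l) := measureReal_nonneg
    have h2 := sqrt_two_pi_le
    have h3 : Real.sqrt (2 * Real.pi) * t * (1 / 2 - (stdGaussian E).real (cell w l)) ≤
        2.5067 * t * (1 / 2) := by
      have e1 : Real.sqrt (2 * Real.pi) * t ≤ 2.5067 * t := mul_le_mul_of_nonneg_right h2 h0
      have e2 : 0 ≤ Real.sqrt (2 * Real.pi) * t := by positivity
      nlinarith
    have h4 : t ^ 4 ≤ t ^ 2 := by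
      apply pow_le_pow_of_le_one h0 h1 (by norm_num)
    have h5 : 0 ≤ t ^ 6 := by positivity
    nlinarith [sq_nonneg (t - 1)]
  · intro e he
    exact moment_half (measurableSet_cell w l) he h0

end P226
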