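import Vale.Agent.P226.CapCone
import Vale.Agent.P226.CapHalf

/-!
CAP3, CAP4, CAP5 (helper14): cap facts in the form used by the end game.
-/

namespace P226

open MeasureTheory ProbabilityTheory Set
open scoped RealInnerProductSpace

section
variable {E : Type*} [NormedAddCommGroup E] [InnerProductSpace ℝ E]

lemma cell_cone {k : ℕ} (w : Fin k → E) (l : Fin k) : ∀ x ∈ cell w l, ∀ c : ℝ, 0 < c →
    c • x ∈ cell w l := by
  intro x hx c hc j hj
  rw [real_inner_smul_left, real_inner_smul_left]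
  exact mul_lt_mul_of_pos_left (hx j hj) hc

end

theorem cap3 {w : Fin 4 → EuclideanSpace ℝ (Fin 3)} (hw : Crit w) (l : Fin 4) {c : ℝ}
    (h0 : 0 ≤ c) (h1 : c ≤ 1) :
    Real.sqrt (2 * Real.pi) * ‖w l‖ ≤
      1 + c ^ 2 - 4 * c * (1 / 2 - (stdGaussian (EuclideanSpace ℝ (Fin 3))).real (cell w l)) := by
  have hp : 0 ≤ (stdGaussian (EuclideanSpace ℝ (Fin 3))).real (cell w l) := measureReal_nonneg
  apply cap_of_moment hw l
  · have : 0 ≤ c * (stdGaussian (EuclideanSpace ℝ (Fin 3))).real (cell w l) := by positivity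
    nlinarith [sq_nonneg (1 - c)]
  · intro e he
    have h := cap_cone3 (by simp) (measurableSet_cell w l) (cell_cone w l) e he h0 h1
    linarith

theorem cap4 {w : Fin 5 → EuclideanSpace ℝ (Fin 4)} (hw : Crit w) (l : Fin 5) {c : ℝ}
    (h0 : 0 ≤ c) (h1 : c ≤ 1) :
    Real.sqrt (2 * Real.pi) * ‖w l‖ ≤
      1 + 3 / 2 * c ^ 2 - c ^ 4 / 8 - c ^ 6 / 80 - 3 * Real.pi / 2 * c *
        (1 / 2 - (stdGaussian (EuclideanSpace ℝ (Fin 4))).real (cell w l)) := by
  have hp : 0 ≤ (stdGaussian (EuclideanSpace ℝ (Fin 4))).real (cell w l) := measureReal_nonneg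
  have key : ∀ e : EuclideanSpace ℝ (Fin 4), ‖e‖ = 1 →
      Real.sqrt (2 * Real.pi) * ∫ x in cell w l, ⟪x, e⟫ ∂(stdGaussian (EuclideanSpace ℝ (Fin 4))) ≤
      1 + 3 / 2 * c ^ 2 - c ^ 4 / 8 - c ^ 6 / 80 - 3 * Real.pi / 2 * c *
        (1 / 2 - (stdGaussian (EuclideanSpace ℝ (Fin 4))).real (cell w l)) := by
    intro e he
    have h := cap_cone4' (by simp) (measurableSet_cell w l) (cell_cone w l) e he h0 h1
    have h2 := arcsin_poly h0 h1
    linarith
  apply cap_of_moment hw l _ key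
  have h := cap_cone4' (E := EuclideanSpace ℝ (Fin 4)) (by simp) MeasurableSet.empty
    (fun x hx => absurd hx (notMem_empty x)) (EuclideanSpace.single 0 1) (by simp) h0 h1
  simp only [Measure.restrict_empty, integral_zero_measure, mul_zero, measureReal_empty,
    sub_zero] at h
  have h2 := arcsin_poly h0 h1
  have h3 : 0 ≤ 3 * Real.pi / 2 * c * (stdGaussian (EuclideanSpace ℝ (Fin 4))).real
      (cell w l) := by positivity
  linarith

theorem cap5 {w : Fin 6 → EuclideanSpace ℝ (Fin 5)} (hw : Crit w) (l : Fin 6) {c : ℝ}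
    (h0 : 0 ≤ c) (h1 : c ≤ 1) :
    Real.sqrt (2 * Real.pi) * ‖w l‖ ≤
      1 + 2 * c ^ 2 - c ^ 4 / 3 - 16 / 3 * c *
        (1 / 2 - (stdGaussian (EuclideanSpace ℝ (Fin 5))).real (cell w l)) := by
  have hp : 0 ≤ (stdGaussian (EuclideanSpace ℝ (Fin 5))).real (cell w l) := measureReal_nonneg
  apply cap_of_moment hw l
  · have : 0 ≤ c * (stdGaussian (EuclideanSpace ℝ (Fin 5))).real (cell w l) := by positivity
    have h2 : 0 ≤ (1 - c) ^ 3 * (3 + c) := by
      have : 0 ≤ 1 - c := by linarith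
      positivity
    nlinarith
  · intro e he
    have h := cap_cone5 (by simp) (measurableSet_cell w l) (cell_cone w l) e he h0 h1
    linarith

end P226
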