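import Vale.Agent.P226.Defs

/-!
M5: linear algebra for vectors with pairwise negative inner products and sum zero.
-/

namespace P226

open MeasureTheory ProbabilityTheory Set
open scoped RealInnerProductSpace

variable {E : Type*} [NormedAddCommGroup E] [InnerProductSpace ℝ E]

/-- the only linear relations are the multiples of `∑ w i = 0`. -/
theorem relation_const {k : ℕ} (w : Fin k → E) (hneg : ∀ i l, i ≠ l → ⟪w i, w l⟫ < 0)
    (hsum : ∑ i, w i = 0) (c : Fin k → ℝ) (hc : ∑ i, c i • w i = 0) (i j : Fin k) :
    c i = c j := by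
  -- pick the index of the minimum
  obtain ⟨m, -, hm⟩ := Finset.exists_min_image Finset.univ c ⟨i, Finset.mem_univ i⟩
  have key : ∀ l, c l = c m := by
    have h0 : ∑ l, (c l - c m) • w l = 0 := by
      simp_rw [sub_smul]
      rw [Finset.sum_sub_distrib, hc, ← Finset.smul_sum, hsum]
      simp
    have h1 : ∑ l, (c l - c m) * ⟪w m, w l⟫ = 0 := by
      have := congrArg (fun x => ⟪w m, x⟫) h0
      simp only [inner_sum, inner_smul_right, inner_zero_right] at this
      exact this
    have h2 : ∀ l ∈ Finset.univ, (c l - c m) * ⟪w m, w l⟫ ≤ 0 := by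
      intro l _
      by_cases hl : l = m
      · subst hl; simp
      · exact mul_nonpos_of_nonneg_of_nonpos (by linarith [hm l (Finset.mem_univ l)])
          (hneg m l (Ne.symm hl)).le
    have h3 := (Finset.sum_eq_zero_iff_of_nonpos h2).1 h1
    intro l
    by_cases hl : l = m
    · subst hl; rfl
    · have h4 := h3 l (Finset.mem_univ l)
      rcases mul_eq_zero.1 h4 with h5 | h5
      · linarith
      · exact absurd h5 (hneg m l (Ne.symm hl)).ne
  rw [key i, key j]

/-- the coefficients in `w i = ∑ α (w i - w l)` are `1/k`. -/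
theorem coeff_eq {k : ℕ} (w : Fin k → E) (hneg : ∀ i l, i ≠ l → ⟪w i, w l⟫ < 0)
    (hsum : ∑ i, w i = 0) (i : Fin k) (α : Fin k → ℝ)
    (h : w i = ∑ l ∈ Finset.univ.erase i, α l • (w i - w l)) (l : Fin k) (hl : l ≠ i) :
    α l = 1 / k := by
  classical
  set S := ∑ l ∈ Finset.univ.erase i, α l with hS
  set c : Fin k → ℝ := fun m => if m = i then 1 - S else α m with hcdef
  have hc : ∑ m, c m • w m = 0 := by
    rw [← Finset.add_sum_erase _ _ (Finset.mem_univ i)]
    have e1 : ∑ m ∈ Finset.univ.erase i, c m • w m = ∑ m ∈ Finset.univ.erase i, α m • w m := by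
      refine Finset.sum_congr rfl fun m hm => ?_
      simp [hcdef, (Finset.mem_erase.1 hm).1]
    rw [e1]
    have e2 : ∑ m ∈ Finset.univ.erase i, α m • (w i - w m) =
        S • w i - ∑ m ∈ Finset.univ.erase i, α m • w m := by
      simp_rw [smul_sub]
      rw [Finset.sum_sub_distrib, ← Finset.sum_smul]
    rw [e2] at h
    have : c i = 1 - S := by simp [hcdef]
    rw [this, sub_smul, one_smul]
    nth_rewrite 1 [h]
    abel
  have hconst := relation_const w hneg hsum c hc
  have hall : ∀ m, m ≠ i → α m = 1 - S := by
    intro m hm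
    have := hconst m i
    simpa [hcdef, hm] using this
  have hS2 : S = (k - 1 : ℝ) * (1 - S) := by
    have e3 : S = ∑ l ∈ Finset.univ.erase i, (1 - S) :=
      Finset.sum_congr rfl (fun m hm => hall m (Finset.mem_erase.1 hm).1)
    rw [Finset.sum_const, Finset.card_erase_of_mem (Finset.mem_univ i), Finset.card_univ,
      Fintype.card_fin, nsmul_eq_mul] at e3
    have : 1 ≤ k := Nat.one_le_iff_ne_zero.2 (by rintro rfl; exact i.elim0)
    rw [Nat.cast_sub this, Nat.cast_one] at e3
    exact e3
  have hk : (0:ℝ) < k := by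
    have : 1 ≤ k := Nat.one_le_iff_ne_zero.2 (by rintro rfl; exact i.elim0)
    exact_mod_cast this
  rw [hall l hl]
  field_simp
  nlinarith

/-- distinct differences are not parallel. -/
theorem diff_not_parallel {k : ℕ} (w : Fin k → E)
    (hneg : ∀ i l, i ≠ l → ⟪w i, w l⟫ < 0)
    (hsum : ∑ i, w i = 0) (i l m : Fin k) (hil : i ≠ l) (him : i ≠ m) (hlm : l ≠ m) (c : ℝ) :
    w i - w m ≠ c • (w i - w l) := by
  intro h
  classical
  set d : Fin k → ℝ := fun j => if j = i then 1 - c else if j = l then c else
    if j = m then -1 else 0 with hd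
  have hsum0 : ∑ j, d j • w j = 0 := by
    have e : ∀ j, d j • w j = (if j = i then (1 - c) • w i else 0) +
        (if j = l then c • w l else 0) + (if j = m then -w m else 0) := by
      intro j
      by_cases h1 : j = i
      · subst h1; simp [hd, hil, him]
      · by_cases h2 : j = l
        · subst h2; simp [hd, h1, hlm]
        · by_cases h3 : j = m
          · subst h3; simp [hd, h1, h2]
          · simp [hd, h1, h2, h3]
    rw [Finset.sum_congr rfl fun j _ => e j, Finset.sum_add_distrib, Finset.sum_add_distrib]
    simp only [Finset.sum_ite_eq', Finset.mem_univ, if_true]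
    have : w i - w m - c • (w i - w l) = 0 := by rw [h]; simp
    rw [← this, smul_sub, sub_smul, one_smul]
    abel
  have hconst := relation_const w hneg hsum d hsum0
  have h1 := hconst i m
  have h2 := hconst l m
  have h3 : d m = -1 := by simp [hd, Ne.symm him, Ne.symm hlm]
  have h4 : d i = 1 - c := by simp [hd]
  have h5 : d l = c := by simp [hd, Ne.symm hil]
  rw [h3, h4] at h1
  rw [h3, h5] at h2
  linarith

end P226
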