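import Vale.Agent.P226.Basic
import Vale.Agent.P226.LinAlg
import Vale.Agent.P226.Density
import Vale.Agent.P074.PL

/-!
DEL: deletion + log-concavity.  `V = ∑|w_i|²`, `κ = (k-1)/k`, dual vectors `v_l` with
`⟨v_l, w_i⟩ = δ_il - 1/k` (exist because the only relation among the `w_i` is `∑ w_i = 0`).
(a) deletion: with `h = gmax w`, `h_{-l} = max over j≠l`: `h - h_{-l} = (X_l - h_{-l})_+`,
 `{X_l - h_{-l} > t} = cell w l + t v_l`, layer cake: `δ := Psi w - E h_{-l} = ∫_0^∞ γ(cell + t v) dt`.
 `E h_{-l} = Psi (w_j + w_l/(k-1))_{j≠l}`, sum of squares `V - |w_l|² k/(k-1) =: V - ν`.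
 PK(k-1): `(V-δ)² ≤ C (V-ν) ≤ V (V-ν) ≤ (V-ν/2)²`, so `δ ≥ ν/2`.
(b) log-concavity: `P(t) = γ(cell + t v)` is log-concave on `ℝ` (Prékopa–Leindler, the cell is convex),
 `P(0) = p`, `P(u) ≤ ∫_cell exp(-u⟨x,v⟩)`, whose derivative at `0` is `-D`,
 `D = ∫_cell ⟨x,v⟩ = ⟨w_l, v_l⟩ = κ`, so `P(t) ≤ p exp(-D t/p)`, `∫ P ≤ p²/D`.
(c) `k/(k-1) |w_l|²/2 ≤ δ ≤ p² k/(k-1)`, i.e. `|w_l|² ≤ 2 p²`.
-/

namespace P226

namespace Del

open MeasureTheory ProbabilityTheory Set Filter Topology
open scoped RealInnerProductSpace ENNReal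

variable {E : Type*} [NormedAddCommGroup E] [InnerProductSpace ℝ E] [FiniteDimensional ℝ E]
  [MeasurableSpace E] [BorelSpace E]

variable (E) in
/-- Prékopa–Leindler on `E`. -/
theorem plp_E : Vale.Agent.P074.PL.PLP E := by
  have h1 : Vale.Agent.P074.PL.PLP (EuclideanSpace ℝ (Fin (Module.finrank ℝ E))) := by
    intro lam h0 h1 F G H hF hG hH h
    exact Vale.Agent.P074.prekopa_leindler h0 h1 F G H hF hG hH h
  let f : E ≃ₗᵢ[ℝ] EuclideanSpace ℝ (Fin (Module.finrank ℝ E)) := (stdOrthonormalBasis ℝ E).repr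
  refine h1.of_equiv f.toMeasurableEquiv f.measurePreserving ?_
  intro a b x y
  show f.symm (a • x + b • y) = a • f.symm x + b • f.symm y
  simp

omit [FiniteDimensional ℝ E] [MeasurableSpace E] [BorelSpace E] in
/-- log-concavity of the Gaussian density. -/
lemma gdens_logconcave {lam : ℝ} (h0 : 0 < lam) (h1 : lam < 1) (x y : E) :
    gdens x ^ (1 - lam) * gdens y ^ lam ≤ gdens ((1 - lam) • x + lam • y) := by
  set c : ℝ := (Real.sqrt (2 * Real.pi))⁻¹ ^ (Module.finrank ℝ E) with hc
  have hc0 : 0 < c := by rw [hc]; positivity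
  have e : ∀ z : E, gdens z = c * Real.exp (-‖z‖ ^ 2 / 2) := fun z => rfl
  rw [e, e, e, Real.mul_rpow hc0.le (Real.exp_pos _).le, Real.mul_rpow hc0.le (Real.exp_pos _).le,
    ← Real.exp_mul, ← Real.exp_mul]
  have h2 : c ^ (1 - lam) * c ^ lam = c := by
    rw [← Real.rpow_add hc0]; simp
  calc c ^ (1 - lam) * Real.exp (-‖x‖ ^ 2 / 2 * (1 - lam)) * (c ^ lam * Real.exp (-‖y‖ ^ 2 / 2 * lam))
      = (c ^ (1 - lam) * c ^ lam) *
        (Real.exp (-‖x‖ ^ 2 / 2 * (1 - lam)) * Real.exp (-‖y‖ ^ 2 / 2 * lam)) := by ring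
    _ = c * Real.exp (-‖x‖ ^ 2 / 2 * (1 - lam) + -‖y‖ ^ 2 / 2 * lam) := by
        rw [h2, Real.exp_add]
    _ ≤ c * Real.exp (-‖(1 - lam) • x + lam • y‖ ^ 2 / 2) := by
        refine mul_le_mul_of_nonneg_left (Real.exp_le_exp.2 ?_) hc0.le
        have h3 : ‖(1 - lam) • x + lam • y‖ ≤ (1 - lam) * ‖x‖ + lam * ‖y‖ := by
          refine (norm_add_le _ _).trans ?_
          rw [norm_smul, norm_smul, Real.norm_eq_abs, Real.norm_eq_abs, abs_of_pos h0,
            abs_of_pos (by linarith : 0 < 1 - lam)]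
        have h4 : ‖(1 - lam) • x + lam • y‖ ^ 2 ≤ ((1 - lam) * ‖x‖ + lam * ‖y‖) ^ 2 :=
          pow_le_pow_left₀ (norm_nonneg _) h3 2
        nlinarith [mul_nonneg (mul_pos h0 (by linarith : 0 < 1 - lam)).le (sq_nonneg (‖x‖ - ‖y‖))]

lemma stdGaussian_apply_lintegral {S : Set E} (hS : MeasurableSet S) :
    stdGaussian E S = ∫⁻ x, S.indicator (fun x => ENNReal.ofReal (gdens x)) x := by
  rw [stdGaussian_eq, withDensity_apply _ hS, lintegral_indicator hS]

/-- log-concavity of `t ↦ γ(A + t v)`. -/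
theorem shift_logconcave {A : Set E} (hA : MeasurableSet A) (hconv : Convex ℝ A) (v : E)
    {lam : ℝ} (h0 : 0 < lam) (h1 : lam < 1) (s t : ℝ) :
    (stdGaussian E).real {x | x - s • v ∈ A} ^ (1 - lam) *
      (stdGaussian E).real {x | x - t • v ∈ A} ^ lam ≤
      (stdGaussian E).real {x | x - ((1 - lam) * s + lam * t) • v ∈ A} := by
  have hm : ∀ r : ℝ, MeasurableSet {x | x - r • v ∈ A} := fun r =>
    (by fun_prop : Measurable fun x : E => x - r • v) hA
  have key := plp_E E lam h0 h1
    ({x | x - s • v ∈ A}.indicator (fun x => ENNReal.ofReal (gdens x)))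
    ({x | x - t • v ∈ A}.indicator (fun x => ENNReal.ofReal (gdens x)))
    ({x | x - ((1 - lam) * s + lam * t) • v ∈ A}.indicator (fun x => ENNReal.ofReal (gdens x)))
    ((continuous_gdens.measurable.ennreal_ofReal).indicator (hm _))
    ((continuous_gdens.measurable.ennreal_ofReal).indicator (hm _))
    ((continuous_gdens.measurable.ennreal_ofReal).indicator (hm _)) ?_
  · rw [← stdGaussian_apply_lintegral (hm _), ← stdGaussian_apply_lintegral (hm _),
      ← stdGaussian_apply_lintegral (hm _)] at key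
    simp only [measureReal_def]
    rw [ENNReal.toReal_rpow, ENNReal.toReal_rpow, ← ENNReal.toReal_mul]
    exact ENNReal.toReal_mono (measure_ne_top _ _) key
  · intro x y
    have h1' : 0 < 1 - lam := by linarith
    by_cases hx : x - s • v ∈ A
    · by_cases hy : y - t • v ∈ A
      · have hz : (1 - lam) • x + lam • y - ((1 - lam) * s + lam * t) • v ∈ A := by
          have := hconv hx hy h1'.le h0.le (by ring)
          convert this using 1
          module
        rw [indicator_of_mem (s := {x | x - s • v ∈ A}) hx,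
          indicator_of_mem (s := {x | x - t • v ∈ A}) hy,
          indicator_of_mem (s := {x | x - ((1 - lam) * s + lam * t) • v ∈ A}) hz,
          ENNReal.ofReal_rpow_of_pos (gdens_pos _), ENNReal.ofReal_rpow_of_pos (gdens_pos _),
          ← ENNReal.ofReal_mul (Real.rpow_nonneg (gdens_pos _).le _)]
        exact ENNReal.ofReal_le_ofReal (gdens_logconcave h0 h1 x y)
      · rw [indicator_of_notMem (s := {x | x - t • v ∈ A}) hy, ENNReal.zero_rpow_of_pos h0]
        simp
    · rw [indicator_of_notMem (s := {x | x - s • v ∈ A}) hx, ENNReal.zero_rpow_of_pos h1']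
      simp

lemma integrable_exp_inner (v : E) : Integrable (fun x => Real.exp ⟪x, v⟫) (stdGaussian E) := by
  have h1 := cameron_martin v (fun _ : E => (1:ℝ))
  simp only [one_mul, integral_const, probReal_univ, smul_eq_mul, mul_one] at h1
  have h2 : Integrable (fun x => Real.exp (⟪x, v⟫ - ‖v‖ ^ 2 / 2)) (stdGaussian E) := by
    by_contra h
    rw [integral_undef h] at h1
    norm_num at h1
  have h3 := h2.const_mul (Real.exp (‖v‖ ^ 2 / 2))
  refine h3.congr (Eventually.of_forall fun x => ?_)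
  simp only
  rw [← Real.exp_add]
  congr 1; ring

/-- the measure of the translate. -/
lemma shift_eq {A : Set E} (hA : MeasurableSet A) (v : E) (t : ℝ) :
    (stdGaussian E).real {x | x - t • v ∈ A} =
      ∫ y in A, Real.exp (⟪y, (-t) • v⟫ - ‖(-t) • v‖ ^ 2 / 2) ∂(stdGaussian E) := by
  have hm : MeasurableSet {x | x - t • v ∈ A} :=
    (by fun_prop : Measurable fun x : E => x - t • v) hA
  have h1 := cameron_martin ((-t) • v) (A.indicator (fun _ : E => (1:ℝ)))
  have h2 : (fun x : E => A.indicator (fun _ : E => (1:ℝ)) (x + (-t) • v)) =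
      {x | x - t • v ∈ A}.indicator (fun _ => (1:ℝ)) := by
    ext x
    by_cases hx : x - t • v ∈ A
    · rw [indicator_of_mem (s := {x | x - t • v ∈ A}) hx, indicator_of_mem]
      rw [neg_smul, ← sub_eq_add_neg]; exact hx
    · rw [indicator_of_notMem (s := {x | x - t • v ∈ A}) hx, indicator_of_notMem]
      rw [neg_smul, ← sub_eq_add_neg]; exact hx
  rw [h2, integral_indicator hm, setIntegral_const, smul_eq_mul, mul_one] at h1
  rw [h1, ← integral_indicator hA]
  refine integral_congr_ae (Eventually.of_forall fun x => ?_)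
  by_cases hx : x ∈ A
  · simp [hx]
  · simp [hx]

/-- exponential decay. -/
lemma shift_le_exp {A : Set E} (hA : MeasurableSet A) (hconv : Convex ℝ A) (v : E)
    (hp : 0 < (stdGaussian E).real A) (t : ℝ) :
    (stdGaussian E).real {x | x - t • v ∈ A} ≤ (stdGaussian E).real A *
      Real.exp (-(∫ x in A, ⟪x, v⟫ ∂(stdGaussian E)) / (stdGaussian E).real A * t) := by
  set μ := stdGaussian E with hμ
  set p := μ.real A with hpdef
  set D := ∫ x in A, ⟪x, v⟫ ∂μ with hD
  set P : ℝ → ℝ := fun t => μ.real {x | x - t • v ∈ A} with hP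
  change P t ≤ _
  have hPt : 0 ≤ P t := measureReal_nonneg
  rcases hPt.eq_or_lt with h | h
  · rw [← h]; positivity
  -- the bound for each lam
  set X : E → ℝ := fun x => ⟪x, v⟫ with hX
  have hexp : ∀ s : ℝ, Integrable (fun x => Real.exp (s * X x)) (μ.restrict A) := by
    intro s
    have := (integrable_exp_inner (s • v)).integrableOn (s := A) (μ := μ)
    refine this.congr (Eventually.of_forall fun x => ?_)
    simp [hX, inner_smul_right]
  have hset : integrableExpSet X (μ.restrict A) = univ := by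
    ext s; simp only [integrableExpSet, mem_univ, iff_true]; exact hexp s
  have hder : HasDerivAt (mgf X (μ.restrict A)) D 0 := by
    have := hasDerivAt_mgf (X := X) (μ := μ.restrict A) (t := 0) (by rw [hset]; simp)
    simpa using this
  have hm0 : mgf X (μ.restrict A) 0 = p := by
    simp [mgf, hpdef]
  have hPle : ∀ u : ℝ, P u ≤ mgf X (μ.restrict A) (-u) := by
    intro u
    rw [hP]
    simp only
    rw [hμ, shift_eq hA]
    unfold mgf
    refine integral_mono_of_nonneg (Eventually.of_forall fun x => (Real.exp_pos _).le)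
      (hexp (-u)) (Eventually.of_forall fun x => ?_)
    simp only
    refine Real.exp_le_exp.2 ?_
    rw [inner_smul_right]
    simp only [hX]
    have : 0 ≤ ‖(-u) • v‖ ^ 2 / 2 := by positivity
    linarith
  have hP0 : P 0 = p := by simp [hP, hpdef]
  have hlam : ∀ lam : ℝ, 0 < lam → lam < 1 →
      p * (1 + lam * Real.log (P t / p)) ≤ mgf X (μ.restrict A) (-(lam * t)) := by
    intro lam h0 h1
    have h2 := shift_logconcave hA hconv v h0 h1 0 t
    have h3 : (1 - lam) * 0 + lam * t = lam * t := by ring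
    rw [h3] at h2
    change P 0 ^ (1 - lam) * P t ^ lam ≤ P (lam * t) at h2
    rw [hP0] at h2
    refine le_trans ?_ (h2.trans (hPle _))
    have h4 : p ^ (1 - lam) * P t ^ lam = p * Real.exp (lam * Real.log (P t / p)) := by
      have : Real.exp (lam * Real.log (P t / p)) = (P t / p) ^ lam := by
        rw [Real.rpow_def_of_pos (by positivity)]; ring_nf
      rw [this, Real.div_rpow h.le hp.le, Real.rpow_sub hp, Real.rpow_one]
      have : p ^ lam ≠ 0 := (Real.rpow_pos_of_pos hp _).ne'
      field_simp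
    rw [h4]
    refine mul_le_mul_of_nonneg_left ?_ hp.le
    have := Real.add_one_le_exp (lam * Real.log (P t / p))
    linarith
  -- limit
  have hder2 : HasDerivAt (fun lam : ℝ => mgf X (μ.restrict A) (-(lam * t))) (D * (-t)) 0 := by
    have hin : HasDerivAt (fun lam : ℝ => -(lam * t)) (-t) 0 := by
      have h := ((hasDerivAt_id (0:ℝ)).mul_const t).neg
      rw [one_mul] at h
      exact h
    have : HasDerivAt (mgf X (μ.restrict A)) D (-((0:ℝ) * t)) := by simpa using hder
    exact this.comp (0:ℝ) hin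
  have htend := hder2.tendsto_slope_zero_right
  simp only [zero_add, zero_mul, neg_zero, hm0, smul_eq_mul] at htend
  have hge : p * Real.log (P t / p) ≤ D * (-t) := by
    refine ge_of_tendsto htend ?_
    filter_upwards [Ioo_mem_nhdsGT (show (0:ℝ) < 1 by norm_num)] with lam hl
    have := hlam lam hl.1 hl.2
    rw [inv_mul_eq_div, le_div_iff₀ hl.1]
    nlinarith
  have hlog : Real.log (P t / p) ≤ -D / p * t := by
    rw [div_mul_eq_mul_div, le_div_iff₀ hp]
    linarith
  have h5 : P t / p ≤ Real.exp (-D / p * t) := by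
    rw [← Real.exp_log (show 0 < P t / p by positivity)]
    exact Real.exp_le_exp.2 hlog
  rw [div_le_iff₀ hp] at h5
  linarith

end Del

open MeasureTheory ProbabilityTheory Set Filter Topology
open scoped RealInnerProductSpace ENNReal

variable {E : Type*} [NormedAddCommGroup E] [InnerProductSpace ℝ E] [FiniteDimensional ℝ E]
  [MeasurableSpace E] [BorelSpace E]

/-- `∫_0^∞ γ(A + t v) dt ≤ γ(A)² / ∫_A ⟨x,v⟩`. -/
theorem logc {A : Set E} (hA : MeasurableSet A) (hconv : Convex ℝ A) (v : E)
    (hp : 0 < (stdGaussian E).real A) (hD : 0 < ∫ x in A, ⟪x, v⟫ ∂(stdGaussian E)) :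
    ∫ t in Ioi (0 : ℝ), (stdGaussian E).real {x | x - t • v ∈ A}
      ≤ (stdGaussian E).real A ^ 2 / ∫ x in A, ⟪x, v⟫ ∂(stdGaussian E) := by
  set p := (stdGaussian E).real A with hpdef
  set D := ∫ x in A, ⟪x, v⟫ ∂(stdGaussian E) with hDdef
  have ha : -D / p < 0 := div_neg_of_neg_of_pos (by linarith) hp
  have h1 : IntegrableOn (fun t => p * Real.exp (-D / p * t)) (Ioi (0:ℝ)) :=
    (integrableOn_exp_mul_Ioi ha 0).const_mul p
  calc ∫ t in Ioi (0 : ℝ), (stdGaussian E).real {x | x - t • v ∈ A}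
      ≤ ∫ t in Ioi (0:ℝ), p * Real.exp (-D / p * t) := by
        refine integral_mono_of_nonneg (Eventually.of_forall fun x => measureReal_nonneg) h1 ?_
        refine Eventually.of_forall fun t => ?_
        exact Del.shift_le_exp hA hconv v hp t
    _ = p * ∫ t in Ioi (0:ℝ), Real.exp (-D / p * t) := integral_const_mul _ _
    _ = p ^ 2 / D := by
        rw [integral_exp_mul_Ioi ha]
        simp only [mul_zero, Real.exp_zero]
        field_simp


namespace Del

/-! ### The dual vector -/

omit [MeasurableSpace E] [BorelSpace E] in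
/-- the dual vector. -/
theorem exists_dual {k : ℕ} {w : Fin k → E} (hneg : ∀ i l, i ≠ l → ⟪w i, w l⟫ < 0)
    (hsum : ∑ i, w i = 0) (l : Fin k) :
    ∃ v : E, ∀ i, ⟪v, w i⟫ = (if i = l then 1 else 0) - 1 / (k : ℝ) := by
  classical
  have hk : 0 < k := l.pos
  have hli : LinearIndependent ℝ (fun j : {j : Fin k // j ≠ l} => w j) := by
    rw [Fintype.linearIndependent_iff]
    intro g hg j
    set c : Fin k → ℝ := fun i => if h : i ≠ l then g ⟨i, h⟩ else 0 with hc
    have h1 : ∑ i, c i • w i = 0 := by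
      have e := Fintype.sum_subtype_add_sum_subtype (fun i => i ≠ l) (fun i => c i • w i)
      rw [← e]
      have e1 : ∑ i : {x // ¬ x ≠ l}, c i • w i = 0 := by
        refine Finset.sum_eq_zero fun i _ => ?_
        have : c i = 0 := by
          simp only [hc]
          rw [dif_neg i.2]
        rw [this, zero_smul]
      rw [e1, add_zero, ← hg]
      refine Finset.sum_congr rfl fun i _ => ?_
      have : c i = g i := by
        simp only [hc]
        rw [dif_pos i.2]
      rw [this]
    have h2 := relation_const w hneg hsum c h1 j l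
    simpa [hc, j.2] using h2
  obtain ⟨g, hg⟩ := LinearMap.exists_leftInverse_of_injective _
    (LinearMap.ker_eq_bot.2 (by
      have := hli
      rw [LinearIndependent] at this
      exact this))
  set φ : E →ₗ[ℝ] ℝ := (Finsupp.linearCombination ℝ
    (fun _ : {j : Fin k // j ≠ l} => (-(1 / (k:ℝ))))) ∘ₗ g with hφ
  have hφj : ∀ j, j ≠ l → φ (w j) = -(1 / (k:ℝ)) := by
    intro j hj
    have h1 : w j = Finsupp.linearCombination ℝ (fun j : {j : Fin k // j ≠ l} => w j)
        (Finsupp.single ⟨j, hj⟩ 1) := by simp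
    have h2 : g (w j) = Finsupp.single ⟨j, hj⟩ 1 := by
      rw [h1]
      exact LinearMap.congr_fun hg _
    rw [hφ, LinearMap.comp_apply, h2]
    simp
  refine ⟨(InnerProductSpace.toDual ℝ E).symm (LinearMap.toContinuousLinearMap φ), fun i => ?_⟩
  rw [InnerProductSpace.toDual_symm_apply]
  show φ (w i) = _
  by_cases hi : i = l
  · subst hi
    have h1 : φ (∑ j, w j) = 0 := by rw [hsum, map_zero]
    rw [map_sum, ← Finset.add_sum_erase _ _ (Finset.mem_univ i),
      Finset.sum_congr rfl (fun j hj => hφj j (Finset.mem_erase.1 hj).1), Finset.sum_const,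
      Finset.card_erase_of_mem (Finset.mem_univ i), Finset.card_univ, Fintype.card_fin,
      nsmul_eq_mul, Nat.cast_sub (by omega : 1 ≤ k), Nat.cast_one] at h1
    have hk' : (k:ℝ) ≠ 0 := by positivity
    simp only [if_true]
    field_simp
    field_simp at h1
    linarith
  · rw [hφj i hi]; simp [hi]

/-! ### Cells -/

omit [FiniteDimensional ℝ E] [MeasurableSpace E] [BorelSpace E] in
lemma isOpen_cell' {k : ℕ} (w : Fin k → E) (i : Fin k) : IsOpen (cell w i) := by
  have : cell w i = ⋂ l, ⋂ (_ : l ≠ i), {x | ⟪x, w l⟫ < ⟪x, w i⟫} := by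
    ext x; simp [cell]
  rw [this]
  exact isOpen_iInter_of_finite fun l => isOpen_iInter_of_finite fun _ =>
    isOpen_lt (by fun_prop) (by fun_prop)

omit [FiniteDimensional ℝ E] [MeasurableSpace E] [BorelSpace E] in
lemma convex_cell' {k : ℕ} (w : Fin k → E) (i : Fin k) : Convex ℝ (cell w i) := by
  intro x hx y hy a b ha hb hab l hl
  have h1 := hx l hl
  have h2 := hy l hl
  rw [inner_add_left, inner_add_left, real_inner_smul_left, real_inner_smul_left,
    real_inner_smul_left, real_inner_smul_left]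
  rcases ha.eq_or_lt with h | h
  · subst h
    have hb1 : b = 1 := by linarith
    subst hb1; linarith
  · nlinarith [mul_lt_mul_of_pos_left h1 h, mul_le_mul_of_nonneg_left h2.le hb]

lemma integrable_inner' (a : E) : Integrable (fun x : E => ⟪x, a⟫) (stdGaussian E) := by
  have h : Integrable (fun x : E => x) (stdGaussian E) := IsGaussian.integrable_fun_id
  exact h.inner_const a

lemma integral_inner' (a : E) : ∫ x, ⟪x, a⟫ ∂(stdGaussian E) = 0 := by
  have h : Integrable (fun x : E => x) (stdGaussian E) := IsGaussian.integrable_fun_id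
  have := integral_inner (𝕜 := ℝ) h a
  simp_rw [real_inner_comm a] at *
  rw [this, integral_id_stdGaussian, inner_zero_right]

end Del

/-! ### Deletion -/

/-- `ν / 2 ≤ δ`. -/
theorem deletion_aux {k : ℕ} (hP : PK (k - 1)) (hk : 3 ≤ k) {w : Fin k → E}
    (hw : Crit w) (l : Fin k) (v : E) (hv : ∀ i, ⟪v, w i⟫ = (if i = l then 1 else 0) - 1 / (k : ℝ)) :
    (k : ℝ) / (k - 1) * ‖w l‖ ^ 2 / 2
      ≤ ∫ t in Ioi (0 : ℝ), (stdGaussian E).real {x | x - t • v ∈ cell w l} := by
  obtain ⟨n, rfl⟩ : ∃ n, k = n + 1 := ⟨k - 1, by omega⟩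
  rw [Nat.add_sub_cancel] at hP
  have hn : 2 ≤ n := by omega
  have hn0 : (0:ℝ) < n := by positivity
  have : Nonempty (Fin n) := ⟨⟨0, by omega⟩⟩
  have : Nonempty (Fin (n+1)) := ⟨l⟩
  set u : Fin n → E := fun i => w (l.succAbove i) with hu
  set w' : Fin n → E := fun i => u i + (1 / (n:ℝ)) • w l with hw'
  set V := ∑ i, ‖w i‖ ^ 2 with hV
  set U := ∑ i, ‖w' i‖ ^ 2 with hU
  have hUV : U = V - ((n:ℝ) + 1) / n * ‖w l‖ ^ 2 := by
    have h1 : V = ‖w l‖ ^ 2 + ∑ i, ‖u i‖ ^ 2 := Fin.sum_univ_succAbove (fun i => ‖w i‖ ^ 2) l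
    have h2 : w l + ∑ i, u i = 0 := by
      rw [← hw.sum_zero]; exact (Fin.sum_univ_succAbove (fun i => w i) l).symm
    have h3 : ∀ i, ‖w' i‖ ^ 2 = ‖u i‖ ^ 2 + 2 * (1 / (n:ℝ)) * ⟪u i, w l⟫ +
        (1 / (n:ℝ)) ^ 2 * ‖w l‖ ^ 2 := by
      intro i
      rw [hw', norm_add_sq_real, real_inner_smul_right, norm_smul, Real.norm_eq_abs,
        abs_of_pos (by positivity)]
      ring
    have h4 : ∑ i, ⟪u i, w l⟫ = -‖w l‖ ^ 2 := by
      rw [← sum_inner, show ∑ i, u i = - w l from by
        rw [eq_neg_iff_add_eq_zero, add_comm]; exact h2, inner_neg_left,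
        real_inner_self_eq_norm_sq]
    rw [hU]
    simp_rw [h3]
    rw [Finset.sum_add_distrib, Finset.sum_add_distrib, ← Finset.mul_sum, h4,
      Finset.sum_const, Finset.card_univ, Fintype.card_fin, nsmul_eq_mul, h1]
    field_simp
    ring
  have hU0 : 0 ≤ U := Finset.sum_nonneg fun i _ => by positivity
  -- Psi w'
  have hbdd : ∀ (m : ℕ) (y : Fin m → ℝ), BddAbove (range y) := fun m y => (finite_range y).bddAbove
  have hpsi' : Psi w' = Psi u := by
    have h1 : ∀ x, gmax w' x = gmax u x + ⟪x, (1 / (n:ℝ)) • w l⟫ := by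
      intro x
      simp only [gmax, hw', inner_add_right]
      rw [ciSup_add (hbdd _ _)]
    unfold Psi
    simp_rw [h1]
    rw [integral_add (integrable_gmax u) (Del.integrable_inner' _), Del.integral_inner', add_zero]
  have hPKE : Psi w' ^ 2 ≤ CC * U := by
    let f : E ≃ₗᵢ[ℝ] EuclideanSpace ℝ (Fin (Module.finrank ℝ E)) := (stdOrthonormalBasis ℝ E).repr
    have h1 := hP (Module.finrank ℝ E) (fun i => f (w' i))
    rw [← Psi_gram w' (fun i => f (w' i)) (fun i j => (f.inner_map_map _ _).symm)] at h1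
    simpa [hU] using h1
  have hCC : 0 < CC := by unfold CC; positivity
  have hVbig := hw.big
  have hpsiw := hw.psi
  rw [← hV] at hVbig hpsiw
  have hle : Psi w' ≤ (V + U) / 2 := by
    have h1 : Psi w' ^ 2 ≤ ((V + U) / 2) ^ 2 := by
      refine hPKE.trans ?_
      nlinarith [sq_nonneg (V - U), mul_le_mul_of_nonneg_right hVbig.le hU0]
    exact (abs_le_of_sq_le_sq' h1 (by linarith)).2
  -- layer cake
  have hmono : ∀ x, gmax u x ≤ gmax w x := by
    intro x
    exact ciSup_le fun i => inner_le_gmax w x _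
  have hgmax : ∀ x, gmax w x = max ⟪x, w l⟫ (gmax u x) := by
    intro x
    refine le_antisymm (ciSup_le fun i => ?_) (max_le (inner_le_gmax w x l) (hmono x))
    by_cases hi : i = l
    · subst hi; exact le_max_left _ _
    · obtain ⟨j, hj⟩ := Fin.exists_succAbove_eq hi
      refine le_trans ?_ (le_max_right _ _)
      rw [← hj]; exact inner_le_gmax u x j
  have hint : Integrable (fun x => gmax w x - gmax u x) (stdGaussian E) :=
    (integrable_gmax w).sub (integrable_gmax u)
  have hlc := hint.integral_eq_integral_meas_lt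
    (Eventually.of_forall fun x => sub_nonneg.2 (hmono x))
  rw [integral_sub (integrable_gmax w) (integrable_gmax u)] at hlc
  have hset : ∀ t ∈ Ioi (0:ℝ), (stdGaussian E).real {x | t < gmax w x - gmax u x} =
      (stdGaussian E).real {x | x - t • v ∈ cell w l} := by
    intro t ht
    have ht' : 0 < t := ht
    congr 1
    ext x
    simp only [mem_ofPred_eq, cell, inner_sub_left, real_inner_smul_left, hv, if_true]
    have h1 : t < gmax w x - gmax u x ↔ gmax u x < ⟪x, w l⟫ - t := by
      rw [hgmax x]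
      rcases le_total ⟪x, w l⟫ (gmax u x) with h | h
      · rw [max_eq_right h]; constructor <;> intro h' <;> linarith
      · rw [max_eq_left h]; constructor <;> intro h' <;> linarith
    rw [h1]
    constructor
    · intro h j hj
      obtain ⟨i, hi⟩ := Fin.exists_succAbove_eq hj
      have h2 : ⟪x, w j⟫ ≤ gmax u x := by rw [← hi]; exact inner_le_gmax u x i
      rw [if_neg hj]
      linarith
    · intro h
      obtain ⟨i, hi⟩ := exists_eq_ciSup_of_finite (f := fun i => ⟪x, u i⟫)
      have h2 : gmax u x = ⟪x, u i⟫ := hi.symm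
      have h3 := h (l.succAbove i) (Fin.succAbove_ne l i)
      rw [if_neg (Fin.succAbove_ne l i)] at h3
      rw [h2]
      change ⟪x, w (l.succAbove i)⟫ < _
      linarith
  have hset2 : ∫ t in Ioi (0:ℝ), (stdGaussian E).real {x | t < gmax w x - gmax u x} =
      ∫ t in Ioi (0:ℝ), (stdGaussian E).real {x | x - t • v ∈ cell w l} :=
    setIntegral_congr_fun measurableSet_Ioi hset
  rw [← hset2, ← hlc]
  change _ ≤ Psi w - Psi u
  rw [hpsiw, ← hpsi']
  push_cast
  have : ((n:ℝ) + 1) / ((n:ℝ) + 1 - 1) * ‖w l‖ ^ 2 = V - U := by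
    rw [hUV]; ring_nf
  rw [this]
  linarith

/-- (1): deletion and log-concavity: `|w_l|^2 ≤ 2 p_l^2`. -/
theorem deletion {k : ℕ} (hP : PK (k - 1)) (hk : 3 ≤ k) {w : Fin k → E}
    (hw : Crit w) (l : Fin k) :
    ‖w l‖ ^ 2 ≤ 2 * (stdGaussian E).real (cell w l) ^ 2 := by
  obtain ⟨v, hv⟩ := Del.exists_dual hw.neg hw.sum_zero l
  have hA : MeasurableSet (cell w l) := (Del.isOpen_cell' w l).measurableSet
  have hk1 : (1:ℝ) < k := by exact_mod_cast (by omega : 1 < k)
  have hint : Integrable (fun x : E => x) (stdGaussian E) := IsGaussian.integrable_fun_id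
  have hwl : w l ≠ 0 := by
    intro h
    obtain ⟨j, hj⟩ : ∃ j : Fin k, j ≠ l := by
      have : Nontrivial (Fin k) := Fin.nontrivial_iff_two_le.2 (by omega)
      exact exists_ne l
    have := hw.neg j l hj
    rw [h, inner_zero_right] at this
    exact lt_irrefl _ this
  have hp : 0 < (stdGaussian E).real (cell w l) := by
    rcases (measureReal_nonneg : 0 ≤ (stdGaussian E).real (cell w l)).eq_or_lt with h | h
    · exfalso
      apply hwl
      rw [hw.moment l]
      refine setIntegral_measure_zero _ ?_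
      rw [← measureReal_eq_zero_iff]; exact h.symm
    · exact h
  have hD : ∫ x in cell w l, ⟪x, v⟫ ∂(stdGaussian E) = 1 - 1 / (k:ℝ) := by
    have h1 := integral_inner (𝕜 := ℝ) (hint.integrableOn (s := cell w l)) v
    have h2 : ∀ x : E, ⟪x, v⟫ = ⟪v, x⟫ := fun x => real_inner_comm _ _
    simp_rw [h2]
    rw [h1, ← hw.moment l, hv l]
    simp
  have hDpos : 0 < 1 - 1 / (k:ℝ) := by
    rw [sub_pos, div_lt_one (by linarith)]; exact hk1
  have h1 := logc hA (Del.convex_cell' w l) v hp (by rw [hD]; exact hDpos)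
  have h2 := deletion_aux hP hk hw l v hv
  rw [hD] at h1
  have h3 := h2.trans h1
  have h4 : (stdGaussian E).real (cell w l) ^ 2 / (1 - 1 / (k:ℝ)) =
      (k:ℝ) / (k - 1) * (stdGaussian E).real (cell w l) ^ 2 := by
    have : (k:ℝ) - 1 ≠ 0 := by linarith
    have : (k:ℝ) ≠ 0 := by linarith
    field_simp
  rw [h4] at h3
  have h5 : 0 < (k:ℝ) / (k - 1) := div_pos (by linarith) (by linarith)
  have h6 : (k:ℝ) / (k - 1) * (‖w l‖ ^ 2 / 2) ≤
      (k:ℝ) / (k - 1) * (stdGaussian E).real (cell w l) ^ 2 := by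
    calc _ = (k : ℝ) / (k - 1) * ‖w l‖ ^ 2 / 2 := by ring
      _ ≤ _ := h3
  have := le_of_mul_le_mul_left h6 h5
  linarith

end P226
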