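import Vale.Agent.P226.Defs

/-!
P226: eigenvalue bound for `∑ w_i w_iᵀ` (weighted Anderson–Morley / Rojo–Das bound).
-/

namespace P226

open Finset
open scoped RealInnerProductSpace

variable {E : Type*} [NormedAddCommGroup E] [InnerProductSpace ℝ E] [FiniteDimensional ℝ E]

/-- the quadratic form `∑ ⟪x, w i⟫²` has a maximum on the unit sphere, and it satisfies the
eigenvector equation. -/
theorem exists_eig {k : ℕ} (w : Fin k → E) (i0 : Fin k) (hi0 : w i0 ≠ 0) :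
    ∃ (u : E) (lam : ℝ), ‖u‖ = 1 ∧ 0 < lam ∧ (∀ x, ∑ i, ⟪x, w i⟫ ^ 2 ≤ lam * ‖x‖ ^ 2) ∧
      (∀ y, ∑ i, ⟪u, w i⟫ * ⟪y, w i⟫ = lam * ⟪u, y⟫) := by
  have hnt : Nontrivial E := ⟨⟨w i0, 0, hi0⟩⟩
  have hcont : Continuous (fun x : E => ∑ i, ⟪x, w i⟫ ^ 2) := by fun_prop
  obtain ⟨u, hu, hmax⟩ := (isCompact_sphere (0 : E) 1).exists_isMaxOn
    (NormedSpace.sphere_nonempty.2 zero_le_one) hcont.continuousOn
  have hu1 : ‖u‖ = 1 := by simpa using hu
  set lam := ∑ i, ⟪u, w i⟫ ^ 2 with hlam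
  have hle : ∀ x, ∑ i, ⟪x, w i⟫ ^ 2 ≤ lam * ‖x‖ ^ 2 := by
    intro x
    by_cases hx : x = 0
    · subst hx; simp
    have hx' : 0 < ‖x‖ := norm_pos_iff.2 hx
    have h1 : ‖x‖⁻¹ • x ∈ Metric.sphere (0 : E) 1 := by
      simp [norm_smul, hx'.ne']
    have h2 := hmax h1
    simp only [Set.mem_ofPred_eq, inner_smul_left, RCLike.conj_to_real, mul_pow, ← Finset.mul_sum] at h2
    rw [← hlam, inv_pow, inv_mul_le_iff₀ (by positivity)] at h2
    linarith
  have hlam0 : 0 < lam := by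
    have h1 := hle (w i0)
    have h2 : ⟪w i0, w i0⟫ ^ 2 ≤ ∑ i, ⟪w i0, w i⟫ ^ 2 :=
      Finset.single_le_sum (f := fun i => ⟪w i0, w i⟫ ^ 2) (fun _ _ => sq_nonneg _) (mem_univ i0)
    have h3 : 0 < ‖w i0‖ := norm_pos_iff.2 hi0
    rw [real_inner_self_eq_norm_sq] at h2
    have h4 : 0 < lam * ‖w i0‖ ^ 2 := lt_of_lt_of_le (by positivity) (h2.trans h1)
    by_contra hcon
    push Not at hcon
    have h5 := mul_nonpos_of_nonpos_of_nonneg hcon (sq_nonneg ‖w i0‖)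
    linarith
  refine ⟨u, lam, hu1, hlam0, hle, ?_⟩
  intro y
  -- `0 ≤ lam ‖u + t y‖² - q (u + t y)` for all `t`
  have h1 : ∀ t : ℝ, 0 ≤ 2 * t * (lam * ⟪u, y⟫ - ∑ i, ⟪u, w i⟫ * ⟪y, w i⟫)
      + t ^ 2 * (lam * ‖y‖ ^ 2 - ∑ i, ⟪y, w i⟫ ^ 2) := by
    intro t
    have h2 := hle (u + t • y)
    have h3 : ∑ i, ⟪u + t • y, w i⟫ ^ 2 = lam + 2 * t * ∑ i, ⟪u, w i⟫ * ⟪y, w i⟫
        + t ^ 2 * ∑ i, ⟪y, w i⟫ ^ 2 := by
      rw [hlam, Finset.mul_sum, Finset.mul_sum, ← Finset.sum_add_distrib, ← Finset.sum_add_distrib]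
      refine Finset.sum_congr rfl fun i _ => ?_
      rw [inner_add_left, inner_smul_left]
      simp only [RCLike.conj_to_real]
      ring
    have h4 : ‖u + t • y‖ ^ 2 = 1 + 2 * t * ⟪u, y⟫ + t ^ 2 * ‖y‖ ^ 2 := by
      rw [norm_add_sq_real, inner_smul_right, norm_smul, hu1, mul_pow, Real.norm_eq_abs, sq_abs]
      ring
    rw [h3, h4] at h2
    linarith
  set A := lam * ⟪u, y⟫ - ∑ i, ⟪u, w i⟫ * ⟪y, w i⟫ with hA
  set B := lam * ‖y‖ ^ 2 - ∑ i, ⟪y, w i⟫ ^ 2 with hB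
  have hB0 : 0 ≤ B := by
    have := hle y
    linarith
  have hA0 : A = 0 := by
    have h2 := h1 (-A / (B + 1))
    have hB1 : 0 < B + 1 := by linarith
    have h3 : 2 * (-A / (B + 1)) * A + (-A / (B + 1)) ^ 2 * B
        = -(A ^ 2 * (B + 2) / (B + 1) ^ 2) := by
      field_simp
      ring
    rw [h3] at h2
    have h4 : 0 ≤ A ^ 2 * (B + 2) / (B + 1) ^ 2 := by positivity
    have h5 : A ^ 2 * (B + 2) / (B + 1) ^ 2 = 0 := by linarith
    have h6 : A ^ 2 * (B + 2) = 0 := by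
      have := (div_eq_zero_iff.1 h5)
      rcases this with h | h
      · exact h
      · exact absurd h (by positivity)
    have h7 : A ^ 2 = 0 := by
      rcases mul_eq_zero.1 h6 with h | h
      · exact h
      · linarith
    exact pow_eq_zero_iff two_ne_zero |>.1 h7
  linarith

/-- weighted Rojo–Das bound for the top eigenvalue of `∑ w_i w_iᵀ` -/
theorem eig_pair {k : ℕ} (w : Fin k → E) (hneg : ∀ i l, i ≠ l → ⟪w i, w l⟫ < 0)
    (hsum : ∑ i, w i = 0) (hk : 2 ≤ k) :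
    ∃ (i j : Fin k) (lam : ℝ), i ≠ j ∧ (∀ x, ∑ m, ⟪x, w m⟫ ^ 2 ≤ lam * ‖x‖ ^ 2) ∧
      lam ≤ ‖w i‖ ^ 2 + ‖w j‖ ^ 2 -
        ∑ m ∈ (univ.erase i).erase j, min (-⟪w i, w m⟫) (-⟪w j, w m⟫) := by
  have h0 : (⟨0, by omega⟩ : Fin k) ≠ ⟨1, by omega⟩ := by simp [Fin.ext_iff]
  have hw0 : w ⟨0, by omega⟩ ≠ 0 := by
    intro h
    have := hneg _ _ h0
    rw [h, inner_zero_left] at this
    exact lt_irrefl _ this
  obtain ⟨u, lam, hu1, hlam0, hle, heq⟩ := exists_eig w _ hw0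
  set x : Fin k → ℝ := fun m => ⟪u, w m⟫ with hx
  have hsx : ∑ m, x m = 0 := by
    rw [hx, ← inner_sum, hsum, inner_zero_right]
  have hrow : ∀ i, ∑ m, ⟪w i, w m⟫ = 0 := by
    intro i
    rw [← inner_sum, hsum, inner_zero_right]
  have hlx : ∀ i, lam * x i = ∑ m, (x i - x m) * (-⟪w i, w m⟫) := by
    intro i
    have h1 := heq (w i)
    have h2 : ∑ m, (x i - x m) * (-⟪w i, w m⟫) = ∑ m, x m * ⟪w i, w m⟫ - x i * ∑ m, ⟪w i, w m⟫ := by
      rw [Finset.mul_sum, ← Finset.sum_sub_distrib]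
      refine Finset.sum_congr rfl fun m _ => ?_
      ring
    rw [h2, hrow, mul_zero, sub_zero]
    exact h1.symm
  obtain ⟨i, -, hi⟩ := Finset.exists_max_image univ x ⟨⟨0, by omega⟩, mem_univ _⟩
  obtain ⟨j, -, hj⟩ := Finset.exists_min_image univ x ⟨⟨0, by omega⟩, mem_univ _⟩
  have hij : x j < x i := by
    by_contra hcon
    push Not at hcon
    have hall : ∀ m, x m = x i := fun m =>
      le_antisymm (hi m (mem_univ m)) (hcon.trans (hj m (mem_univ m)))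
    have h1 : (k : ℝ) * x i = 0 := by
      rw [← hsx, Finset.sum_congr rfl (fun m _ => hall m), Finset.sum_const, card_univ,
        Fintype.card_fin, nsmul_eq_mul]
    have hk0 : (k : ℝ) ≠ 0 := by
      have : 0 < k := by omega
      exact_mod_cast this.ne'
    have h2 : x i = 0 := (mul_eq_zero.1 h1).resolve_left hk0
    have h3 := heq u
    have h4 : ∑ m, ⟪u, w m⟫ * ⟪u, w m⟫ = 0 := by
      apply Finset.sum_eq_zero
      intro m _
      have : x m = 0 := (hall m).trans h2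
      rw [hx] at this
      simp only at this
      rw [this, zero_mul]
    rw [h4, real_inner_self_eq_norm_sq, hu1] at h3
    linarith
  have hne : i ≠ j := fun h => by rw [h] at hij; exact lt_irrefl _ hij
  refine ⟨i, j, lam, hne, hle, ?_⟩
  have hsp : ∀ f : Fin k → ℝ, ∑ l, f l = f i + f j + ∑ l ∈ (univ.erase i).erase j, f l := by
    intro f
    rw [← add_sum_erase _ f (mem_univ i),
      ← add_sum_erase _ f (mem_erase.2 ⟨hne.symm, mem_univ j⟩)]
    ring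
  -- subtract the two eigenvector equations
  have h1 := hlx i
  have h2 := hlx j
  rw [hsp] at h1 h2
  have hd : 0 < x i - x j := by linarith
  have hgi := hrow i
  have hgj := hrow j
  rw [hsp] at hgi hgj
  rw [real_inner_self_eq_norm_sq] at hgi hgj
  have hsymm : ⟪w j, w i⟫ = ⟪w i, w j⟫ := real_inner_comm _ _
  rw [hsymm] at hgj h2
  have h3 : ∑ m ∈ (univ.erase i).erase j, (x i - x m) * (-⟪w i, w m⟫)
      - ∑ m ∈ (univ.erase i).erase j, (x j - x m) * (-⟪w j, w m⟫) ≤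
      ∑ m ∈ (univ.erase i).erase j, (-⟪w i, w m⟫ + -⟪w j, w m⟫ -
        min (-⟪w i, w m⟫) (-⟪w j, w m⟫)) * (x i - x j) := by
    rw [← Finset.sum_sub_distrib]
    refine Finset.sum_le_sum fun m hm => ?_
    rw [mem_erase, mem_erase] at hm
    have ga : 0 < -⟪w i, w m⟫ := by
      have := hneg i m (Ne.symm hm.2.1)
      linarith
    have gb : 0 < -⟪w j, w m⟫ := by
      have := hneg j m (Ne.symm hm.1)
      linarith
    have hm1 := hi m (mem_univ m)
    have hm2 := hj m (mem_univ m)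
    generalize -⟪w i, w m⟫ = a at ga
    generalize -⟪w j, w m⟫ = b at gb
    rcases le_total a b with hab | hab
    · rw [min_eq_left hab]
      nlinarith [mul_nonneg (sub_nonneg.2 hab) (sub_nonneg.2 hm1)]
    · rw [min_eq_right hab]
      nlinarith [mul_nonneg (sub_nonneg.2 hab) (sub_nonneg.2 hm2)]
  rw [← Finset.sum_mul, Finset.sum_sub_distrib, Finset.sum_add_distrib, Finset.sum_neg_distrib,
    Finset.sum_neg_distrib] at h3
  have h4 : lam * (x i - x j) ≤ (‖w i‖ ^ 2 + ‖w j‖ ^ 2 -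
      ∑ m ∈ (univ.erase i).erase j, min (-⟪w i, w m⟫) (-⟪w j, w m⟫)) * (x i - x j) := by
    set s := ∑ m ∈ (univ.erase i).erase j, min (-⟪w i, w m⟫) (-⟪w j, w m⟫)
    set si := ∑ m ∈ (univ.erase i).erase j, ⟪w i, w m⟫
    set sj := ∑ m ∈ (univ.erase i).erase j, ⟪w j, w m⟫
    have e1 : ‖w i‖ ^ 2 = -⟪w i, w j⟫ - si := by linarith
    have e2 : ‖w j‖ ^ 2 = -⟪w i, w j⟫ - sj := by linarith
    rw [e1, e2]
    simp only [sub_self, zero_mul, zero_add, add_zero] at h1 h2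
    nlinarith
  exact le_of_mul_le_mul_right h4 hd

end P226
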