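import Vale.Agent.P226.EndFour

/-!
P226: end game for `k = 4`, combination.
-/

namespace P226

open Finset

theorem end4_aux {c : ℝ} (hc0 : 28209 / 100000 ≤ c) (S p : Fin 4 → ℝ)
    (hF : ∀ l, F4 c (S l) (p l)) (hσ : 9 / 4 < ∑ l, S l ^ 2) (g : Fin 4 → Fin 4 → ℝ)
    (hsymm : ∀ a b, g a b = g b a) (hg : ∀ a b, a ≠ b → 0 < g a b)
    (hrow : ∀ a, ∑ b ∈ univ.erase a, g a b = S a ^ 2)
    (h3 : ∀ l, ∑ m, S m ^ 2 - (S 0 ^ 2 + S 1 ^ 2 - (min (g 0 2) (g 1 2) + min (g 0 3) (g 1 3))) ≤
      12 * S l ^ 2) : 1 < ∑ l, p l := by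
  have e0 : (univ.erase (0 : Fin 4)) = {1, 2, 3} := by decide
  have e1 : (univ.erase (1 : Fin 4)) = {0, 2, 3} := by decide
  have e2 : (univ.erase (2 : Fin 4)) = {0, 1, 3} := by decide
  have e3 : (univ.erase (3 : Fin 4)) = {0, 1, 2} := by decide
  have r0 := hrow 0
  have r1 := hrow 1
  have r2 := hrow 2
  have r3 := hrow 3
  rw [e0, sum_insert (by decide), sum_insert (by decide), sum_singleton] at r0
  rw [e1, sum_insert (by decide), sum_insert (by decide), sum_singleton] at r1
  rw [e2, sum_insert (by decide), sum_insert (by decide), sum_singleton] at r2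
  rw [e3, sum_insert (by decide), sum_insert (by decide), sum_singleton] at r3
  rw [hsymm 1 0] at r1
  rw [hsymm 2 0, hsymm 2 1] at r2
  rw [hsymm 3 0, hsymm 3 1, hsymm 3 2] at r3
  have g01 := hg 0 1 (by decide)
  have g02 := hg 0 2 (by decide)
  have g03 := hg 0 3 (by decide)
  have g12 := hg 1 2 (by decide)
  have g13 := hg 1 3 (by decide)
  have g23 := hg 2 3 (by decide)
  have k0 := h3 0
  have k1 := h3 1
  have k2 := h3 2
  have k3 := h3 3
  rw [Fin.sum_univ_four] at hσ k0 k1 k2 k3 ⊢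
  have f0 := hF 0
  have f1 := hF 1
  have f2 := hF 2
  have f3 := hF 3
  have m2 : 0 < min (g 0 2) (g 1 2) := lt_min g02 g12
  have m3 : 0 < min (g 0 3) (g 1 3) := lt_min g03 g13
  have sqle : ∀ {a b : ℝ}, 0 ≤ a → a ≤ b → a ^ 2 ≤ b ^ 2 := fun h0 h => pow_le_pow_left₀ h0 h 2
  rcases le_total (S 1) (S 0) with h01 | h01
  · have x01 := sqle f1.s0 h01
    rcases le_total (S 3) (S 2) with h23 | h23
    · have hm : S 1 ^ 2 + S 2 ^ 2 - (S 0 ^ 2 + S 1 ^ 2 + S 2 ^ 2 + S 3 ^ 2) / 2 ≤
        min (g 0 2) (g 1 2) := le_min (by linarith) (by linarith)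
      -- a = 0, b = 2
      rcases le_total (S 1) (S 3) with h | h
      · have := end4_core hc0 f0 f2 f3 f1 h01 (h.trans h23) h (by linarith) (by linarith)
        linarith
      · have := end4_core hc0 f0 f2 f1 f3 (h.trans h01) h23 h (by linarith) (by linarith)
        linarith
    · have hm : S 1 ^ 2 + S 3 ^ 2 - (S 0 ^ 2 + S 1 ^ 2 + S 2 ^ 2 + S 3 ^ 2) / 2 ≤
        min (g 0 3) (g 1 3) := le_min (by linarith) (by linarith)
      -- a = 0, b = 3
      rcases le_total (S 1) (S 2) with h | h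
      · have := end4_core hc0 f0 f3 f2 f1 h01 (h.trans h23) h (by linarith) (by linarith)
        linarith
      · have := end4_core hc0 f0 f3 f1 f2 (h.trans h01) h23 h (by linarith) (by linarith)
        linarith
  · have x01 := sqle f0.s0 h01
    rcases le_total (S 3) (S 2) with h23 | h23
    · have hm : S 0 ^ 2 + S 2 ^ 2 - (S 0 ^ 2 + S 1 ^ 2 + S 2 ^ 2 + S 3 ^ 2) / 2 ≤
        min (g 0 2) (g 1 2) := le_min (by linarith) (by linarith)
      -- a = 1, b = 2
      rcases le_total (S 0) (S 3) with h | h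
      · have := end4_core hc0 f1 f2 f3 f0 h01 (h.trans h23) h (by linarith) (by linarith)
        linarith
      · have := end4_core hc0 f1 f2 f0 f3 (h.trans h01) h23 h (by linarith) (by linarith)
        linarith
    · have hm : S 0 ^ 2 + S 3 ^ 2 - (S 0 ^ 2 + S 1 ^ 2 + S 2 ^ 2 + S 3 ^ 2) / 2 ≤
        min (g 0 3) (g 1 3) := le_min (by linarith) (by linarith)
      -- a = 1, b = 3
      rcases le_total (S 0) (S 2) with h | h
      · have := end4_core hc0 f1 f3 f2 f0 h01 (h.trans h23) h (by linarith) (by linarith)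
        linarith
      · have := end4_core hc0 f1 f3 f0 f2 (h.trans h01) h23 h (by linarith) (by linarith)
        linarith

theorem exists_perm4 (i j : Fin 4) (hij : i ≠ j) :
    ∃ e : Equiv.Perm (Fin 4), e 0 = i ∧ e 1 = j := by
  refine ⟨(Equiv.swap 0 i).trans (Equiv.swap (Equiv.swap 0 i 1) j), ?_, ?_⟩
  · rw [Equiv.trans_apply, Equiv.swap_apply_left]
    apply Equiv.swap_apply_of_ne_of_ne _ hij
    intro h
    have : Equiv.swap 0 i 0 = Equiv.swap 0 i 1 := by rw [Equiv.swap_apply_left]; exact h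
    have := (Equiv.swap 0 i).injective this
    exact absurd this (by decide)
  · rw [Equiv.trans_apply, Equiv.swap_apply_left]

theorem end4 {c : ℝ} (hc0 : 28209 / 100000 ≤ c) (S p : Fin 4 → ℝ)
    (hF : ∀ l, F4 c (S l) (p l)) (hσ : 9 / 4 < ∑ l, S l ^ 2) (g : Fin 4 → Fin 4 → ℝ)
    (hsymm : ∀ a b, g a b = g b a) (hg : ∀ a b, a ≠ b → 0 < g a b)
    (hrow : ∀ a, ∑ b ∈ univ.erase a, g a b = S a ^ 2) (i j : Fin 4) (hij : i ≠ j)
    (h3 : ∀ l, ∑ m, S m ^ 2 - (S i ^ 2 + S j ^ 2 -
      ∑ m ∈ (univ.erase i).erase j, min (g i m) (g j m)) ≤ 12 * S l ^ 2) : 1 < ∑ l, p l := by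
  obtain ⟨e, he0, he1⟩ := exists_perm4 i j hij
  have hsum : ∀ f : Fin 4 → ℝ, ∑ l, f (e l) = ∑ l, f l := fun f => Equiv.sum_comp e f
  have hset : (univ.erase i).erase j = {e 2, e 3} := by
    ext m
    rw [mem_erase, mem_erase, mem_insert, mem_singleton]
    constructor
    · rintro ⟨hmj, hmi, -⟩
      obtain ⟨n, rfl⟩ := e.surjective m
      fin_cases n
      · exact absurd he0 hmi
      · exact absurd he1 hmj
      · exact Or.inl rfl
      · exact Or.inr rfl
    · rintro (h | h)
      · rw [h, ← he0, ← he1]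
        refine ⟨fun h => ?_, fun h => ?_, mem_univ _⟩
        · exact absurd (e.injective h) (by decide)
        · exact absurd (e.injective h) (by decide)
      · rw [h, ← he0, ← he1]
        refine ⟨fun h => ?_, fun h => ?_, mem_univ _⟩
        · exact absurd (e.injective h) (by decide)
        · exact absurd (e.injective h) (by decide)
  have hne : e 2 ≠ e 3 := fun h => absurd (e.injective h) (by decide)
  have := end4_aux hc0 (fun l => S (e l)) (fun l => p (e l)) (fun l => hF (e l))
    (by rw [hsum (fun l => S l ^ 2)]; exact hσ) (fun a b => g (e a) (e b))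
    (fun a b => hsymm _ _) (fun a b hab => hg _ _ (fun h => hab (e.injective h)))
    (by
      intro a
      rw [← hrow (e a)]
      have h1 := add_sum_erase univ (fun b => g (e a) (e b)) (mem_univ a)
      have h2 := add_sum_erase univ (fun b => g (e a) b) (mem_univ (e a))
      have h4 := hsum (fun b => g (e a) b)
      linarith)
    (by
      intro l
      have h5 := h3 (e l)
      rw [hset, sum_insert (by simp [hne]), sum_singleton] at h5
      rw [hsum (fun l => S l ^ 2)]
      simp only [he0, he1]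
      exact h5)
  rw [hsum p] at this
  exact this

end P226
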