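import Vale.Agent.P226.SVc

/-!
Second variation (route of helper5).
-/

namespace P226

open MeasureTheory ProbabilityTheory Set
open scoped RealInnerProductSpace

variable {E : Type*} [NormedAddCommGroup E] [InnerProductSpace ℝ E] [FiniteDimensional ℝ E]
  [MeasurableSpace E] [BorelSpace E]

lemma integral_cell_inner {k : ℕ} {w : Fin k → E} (hw : Crit w) (l : Fin k) (v : E) :
    ∫ y, (cell w l).indicator (fun y => ⟪y, v⟫) y ∂(stdGaussian E) = ⟪w l, v⟫ := by
  rw [integral_indicator (isOpen_cell w l).measurableSet]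
  conv_rhs => rw [hw.moment l]
  rw [← real_inner_comm, ← integral_inner (𝕜 := ℝ)]
  · refine integral_congr_ae (Filter.Eventually.of_forall fun x => ?_)
    exact real_inner_comm _ _
  · exact integrable_id_std.integrableOn

/-- the trace of `Lam`. -/
theorem Lam_trace {k : ℕ} (hE : Module.finrank ℝ E + 1 = k) {w : Fin k → E}
    (hw : Crit w) (l : Fin k) {v : E} (hv : ∀ j, j ≠ l → ⟪w l - w j, v⟫ = 1)
    {ι : Type*} [Fintype ι] (b : OrthonormalBasis ι ℝ E) :
    ∑ i, Lam (cell w l) v (b i) = (k - 2) * (1 - 1 / (k:ℝ)) := by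
  have hA : MeasurableSet (cell w l) := (isOpen_cell w l).measurableSet
  have hk' : (0:ℝ) < k := by exact_mod_cast l.pos
  have h1 : ∑ i, Lam (cell w l) v (b i) =
      ∫ y, (cell w l).indicator (fun y => ⟪y, v⟫) y * ‖y‖ ^ 2 ∂(stdGaussian E) -
      2 * ∫ y, (cell w l).indicator (fun y => ⟪y, v⟫) y ∂(stdGaussian E) := by
    simp_rw [Lam_eq hA, ← integral_const_mul]
    rw [Finset.sum_sub_distrib, ← integral_finsetSum _ fun i _ => integrable_ind3 hA _ _ _,
      ← integral_finsetSum _ fun i _ => (integrable_ind1 hA _).const_mul _]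
    congr 1
    · refine integral_congr_ae (Filter.Eventually.of_forall fun y => ?_)
      simp only
      by_cases h : y ∈ cell w l
      · simp only [indicator_of_mem h]
        rw [← Finset.sum_mul, mul_comm]
        congr 1
        rw [← b.sum_sq_inner_left y]
        exact Finset.sum_congr rfl fun i _ => (sq _).symm
      · simp [indicator_of_notMem h]
    · refine integral_congr_ae (Filter.Eventually.of_forall fun y => ?_)
      simp only
      by_cases h : y ∈ cell w l
      · simp only [indicator_of_mem h]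
        simp_rw [mul_assoc]
        rw [← Finset.mul_sum]
        congr 1
        rw [← b.sum_inner_mul_inner y v]
        refine Finset.sum_congr rfl fun i _ => ?_
        rw [real_inner_comm v]
        ring
      · simp [indicator_of_notMem h]
  have hhom := homog ((cell w l).indicator (fun y => ⟪y, v⟫))
    (Measurable.indicator (by fun_prop) hA).aestronglyMeasurable ‖v‖ (growth_ind_lin _ v) (by
      intro t x ht
      by_cases h : x ∈ cell w l
      · rw [indicator_of_mem h, indicator_of_mem ((smul_mem_cell ht).2 h), inner_smul_left,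
          conj_trivial]
      · rw [indicator_of_notMem h, indicator_of_notMem (fun h' => h ((smul_mem_cell ht).1 h')),
          mul_zero])
  rw [h1, hhom, integral_cell_inner hw]
  have h2 := inner_dual hw.sum_zero hv
  have h3 : (Module.finrank ℝ E : ℝ) = k - 1 := by
    rw [← hE]; push_cast; ring
  rw [h3]
  have h4 : ⟪w l, v⟫ = 1 - 1 / (k:ℝ) := by
    field_simp
    linarith
  rw [h4]
  ring

/-- (3): consequence of the second variation: `V - λ_max ≤ k (k-1) |w_l|^2`. -/
theorem second_var {k : ℕ} (hk : 3 ≤ k) (hE : Module.finrank ℝ E + 1 = k) {w : Fin k → E}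
    (hw : Crit w) (l : Fin k) (lam : ℝ) (hlam : ∀ x, ∑ i, ⟪x, w i⟫ ^ 2 ≤ lam * ‖x‖ ^ 2) :
    ∑ i, ‖w i‖ ^ 2 - lam ≤ k * (k - 1) * ‖w l‖ ^ 2 := by
  have hA : MeasurableSet (cell w l) := (isOpen_cell w l).measurableSet
  have hk' : (3:ℝ) ≤ k := by exact_mod_cast hk
  set c : ℝ := 1 - 1 / (k:ℝ) with hc
  have hc0 : 0 < c := by
    have : 1 / (k:ℝ) < 1 := by rw [div_lt_one (by linarith)]; linarith
    rw [hc]; linarith
  obtain ⟨v, hv⟩ := exists_dual hE hw.neg hw.sum_zero l
  -- the operator `G`
  let G : E →ₗ[ℝ] E :=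
    { toFun := fun x => ∑ i, ⟪x, w i⟫ • w i
      map_add' := fun x y => by
        simp only [inner_add_left, add_smul, Finset.sum_add_distrib]
      map_smul' := fun a x => by
        simp only [inner_smul_left, conj_trivial, RingHom.id_apply, Finset.smul_sum, smul_smul] }
  have hG : ∀ x y : E, ⟪G x, y⟫ = ∑ i, ⟪x, w i⟫ * ⟪y, w i⟫ := by
    intro x y
    change ⟪∑ i, ⟪x, w i⟫ • w i, y⟫ = _
    rw [sum_inner]
    refine Finset.sum_congr rfl fun i _ => ?_
    rw [inner_smul_left, conj_trivial, real_inner_comm y]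
  have hsymm : G.IsSymmetric := by
    intro x y
    rw [hG, ← real_inner_comm, hG]
    exact Finset.sum_congr rfl fun i _ => mul_comm _ _
  set g := hsymm.eigenvectorBasis rfl with hg
  set μ : Fin (Module.finrank ℝ E) → ℝ := hsymm.eigenvalues rfl with hμ
  have heig : ∀ a, G (g a) = μ a • g a := fun a => hsymm.apply_eigenvectorBasis rfl a
  have hng : ∀ a, ‖g a‖ = 1 := fun a => g.norm_eq_one a
  have hμeq : ∀ a, μ a = ∑ i, ⟪g a, w i⟫ ^ 2 := by
    intro a
    have h1 : ⟪G (g a), g a⟫ = μ a := by
      rw [heig, inner_smul_left, conj_trivial, real_inner_self_eq_norm_sq, hng]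
      ring
    rw [← h1, hG]
    exact Finset.sum_congr rfl fun i _ => (sq _).symm
  have hμle : ∀ a, μ a ≤ lam := by
    intro a
    have := hlam (g a)
    rw [hng, one_pow, mul_one, ← hμeq] at this
    exact this
  have hμ0 : ∀ a, 0 ≤ μ a := fun a => by rw [hμeq]; positivity
  have hbil : ∀ x y : E, ∑ i, ⟪x, w i⟫ * ⟪y, w i⟫ = ∑ a, μ a * (⟪x, g a⟫ * ⟪y, g a⟫) := by
    intro x y
    rw [← hG, ← g.sum_inner_mul_inner (G x) y]
    refine Finset.sum_congr rfl fun a _ => ?_
    rw [hsymm x (g a), heig, inner_smul_right, real_inner_comm y]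
    ring
  -- total mass
  have hV : ∑ i, ‖w i‖ ^ 2 = ∑ a, μ a := by
    simp_rw [hμeq]
    rw [Finset.sum_comm]
    refine Finset.sum_congr rfl fun i _ => ?_
    rw [← g.sum_sq_inner_right (w i)]
  -- `∑ Lam (w i) = ∑ μ a Lam (g a)`
  have hsum : ∑ i, Lam (cell w l) v (w i) = ∑ a, μ a * Lam (cell w l) v (g a) := by
    simp_rw [Lam_eq hA, mul_sub, ← integral_const_mul]
    rw [Finset.sum_sub_distrib, Finset.sum_sub_distrib,
      ← integral_finsetSum _ fun i _ => integrable_ind3 hA _ _ _,
      ← integral_finsetSum _ fun i _ => (integrable_ind1 hA _).const_mul _,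
      ← integral_finsetSum _ fun i _ => (integrable_ind3 hA _ _ _).const_mul _,
      ← integral_finsetSum _ fun i _ => ((integrable_ind1 hA _).const_mul _).const_mul _]
    congr 1
    · refine integral_congr_ae (Filter.Eventually.of_forall fun y => ?_)
      simp only
      by_cases h : y ∈ cell w l
      · simp only [indicator_of_mem h]
        rw [← Finset.sum_mul, hbil]
        rw [Finset.sum_mul]
        exact Finset.sum_congr rfl fun a _ => by ring
      · simp [indicator_of_notMem h]
    · refine integral_congr_ae (Filter.Eventually.of_forall fun y => ?_)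
      simp only
      by_cases h : y ∈ cell w l
      · simp only [indicator_of_mem h]
        simp_rw [mul_assoc]
        rw [← Finset.mul_sum, hbil, Finset.mul_sum]
        exact Finset.sum_congr rfl fun a _ => by ring
      · simp [indicator_of_notMem h]
  -- positivity
  have hpos := Lam_pos hA (v := v) (fun x t ht hx => mem_cell_of_shift hv ht hx)
    (fun o : Option (Fin k) => o.elim ((k:ℝ) * (k - 1)) (fun _ => (-1:ℝ)))
    (fun o : Option (Fin k) => o.elim (w l) w) (by
      intro x hx
      rw [Fintype.sum_option]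
      simp only [Option.elim_none, Option.elim_some]
      have := quad_nonneg_cell hw.sum_zero hx
      rw [← Finset.mul_sum]
      linarith)
  rw [Fintype.sum_option] at hpos
  simp only [Option.elim_none, Option.elim_some] at hpos
  rw [← Finset.mul_sum, hsum] at hpos
  have hle := Lam_le hw l hv (w l)
  have htr := Lam_trace hE hw l hv g
  -- `∑ μ (c - Lam g) ≤ lam ∑ (c - Lam g)`
  have h1 : ∑ a, μ a * (c - Lam (cell w l) v (g a)) ≤ ∑ a, lam * (c - Lam (cell w l) v (g a)) := by
    refine Finset.sum_le_sum fun a _ => ?_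
    have h2 := Lam_le hw l hv (g a)
    rw [hng, one_pow, mul_one] at h2
    exact mul_le_mul_of_nonneg_right (hμle a) (by linarith)
  rw [← Finset.mul_sum, Finset.sum_sub_distrib, Finset.sum_const, Finset.card_univ,
    Fintype.card_fin, nsmul_eq_mul, htr] at h1
  simp_rw [mul_sub] at h1
  rw [Finset.sum_sub_distrib, ← Finset.sum_mul, ← hV] at h1
  have h3 : (Module.finrank ℝ E : ℝ) = k - 1 := by
    rw [← hE]; push_cast; ring
  rw [h3] at h1
  have h4 : c * (∑ i, ‖w i‖ ^ 2 - lam) ≤ c * (k * (k - 1) * ‖w l‖ ^ 2) := by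
    have h5 : (k:ℝ) * (k - 1) * Lam (cell w l) v (w l) ≤ (k:ℝ) * (k - 1) * (c * ‖w l‖ ^ 2) :=
      mul_le_mul_of_nonneg_left hle (by nlinarith)
    nlinarith
  exact le_of_mul_le_mul_left h4 hc0

end P226
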