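import Vale.Agent.P226.EndEight
import Vale.Agent.P226.EndFour2
import Vale.Agent.P226.EndEig
import Vale.Agent.P226.SecondVar
import Vale.Agent.P226.Deletion
import Vale.Agent.P226.Caps
import Vale.Agent.P226.CapHalf

/-!
END (helper9): the end game: no critical configuration with at least four vectors.
-/

namespace P226

open MeasureTheory ProbabilityTheory Set
open scoped RealInnerProductSpace

section general
variable {E : Type*} [NormedAddCommGroup E] [InnerProductSpace ℝ E] [FiniteDimensional ℝ E]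
  [MeasurableSpace E] [BorelSpace E]

theorem sum_cell_le_one {k : ℕ} (w : Fin k → E) :
    ∑ l, (stdGaussian E).real (cell w l) ≤ 1 := by
  have h := measureReal_biUnion_finset (μ := stdGaussian E) (s := Finset.univ) (f := cell w)
    (by
      intro i _ l _ h
      rw [Function.onFun, Set.disjoint_left]
      intro x hi hl
      exact lt_asymm (hi l h.symm) (hl i h))
    (fun l _ => measurableSet_cell w l)
  rw [← h]
  exact measureReal_le_one

/-- `1/√(4π)` -/
noncomputable def cE : ℝ := 1 / Real.sqrt (4 * Real.pi)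

theorem cE_lo : 28209 / 100000 ≤ cE := by
  unfold cE
  rw [le_div_iff₀ (by positivity)]
  have h1 : Real.sqrt (4 * Real.pi) ≤ 100000 / 28209 := by
    apply Real.sqrt_le_iff.2
    refine ⟨by norm_num, ?_⟩
    have := Real.pi_lt_d4
    norm_num
    linarith
  have h2 : 28209 / 100000 * Real.sqrt (4 * Real.pi) ≤ 28209 / 100000 * (100000 / 28209) :=
    mul_le_mul_of_nonneg_left h1 (by norm_num)
  linarith

theorem cE_hi : cE ≤ 2821 / 10000 := by
  unfold cE
  rw [div_le_iff₀ (by positivity)]
  have h1 : 10000 / 2821 ≤ Real.sqrt (4 * Real.pi) := by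
    apply Real.le_sqrt_of_sq_le
    have := Real.pi_gt_d4
    norm_num
    linarith
  have h2 : 2821 / 10000 * (10000 / 2821) ≤ 2821 / 10000 * Real.sqrt (4 * Real.pi) :=
    mul_le_mul_of_nonneg_left h1 (by norm_num)
  linarith

theorem cE_bound {n p : ℝ} (hn : 0 ≤ n) (hp : 0 ≤ p) (h : n ^ 2 ≤ 2 * p ^ 2) :
    cE * (Real.sqrt (2 * Real.pi) * n) ≤ p := by
  have h1 : 0 ≤ cE * (Real.sqrt (2 * Real.pi) * n) := by
    unfold cE
    positivity
  refine (sq_le_sq₀ h1 hp).1 ?_
  have h2 : (cE * (Real.sqrt (2 * Real.pi) * n)) ^ 2 = n ^ 2 / 2 := by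
    unfold cE
    rw [mul_pow, mul_pow, div_pow, Real.sq_sqrt (by positivity), Real.sq_sqrt (by positivity)]
    field_simp
    norm_num
  rw [h2]
  linarith

theorem sq_scaled (n : ℝ) : (Real.sqrt (2 * Real.pi) * n) ^ 2 = 2 * Real.pi * n ^ 2 := by
  rw [mul_pow, Real.sq_sqrt (by positivity)]

theorem sqrt_two_pi_ge : 250658 / 100000 ≤ Real.sqrt (2 * Real.pi) := by
  apply Real.le_sqrt_of_sq_le
  have := Real.pi_gt_d4
  norm_num
  linarith

/-- linear facts of one cell, half-space version -/
theorem FH_of {r c S p : ℝ} (hr : 250658 / 100000 ≤ r) (hS : 0 ≤ S) (hc : c * S ≤ p)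
    (h : ∀ t : ℝ, 0 ≤ t → t ≤ 1 →
      S ≤ 1 + t ^ 2 / 2 - t ^ 4 / 24 + t ^ 6 / 240 - r * t * (1 / 2 - p)) : FH c S p := by
  have hS1 : S ≤ 1 := by
    have := h 0 le_rfl zero_le_one
    norm_num at this
    exact this
  have key : ∀ t al be : ℝ, 0 ≤ t → t ≤ 1 → al ≤ 1 / 2 + be → 0 ≤ al →
      1 + t ^ 2 / 2 - t ^ 4 / 24 + t ^ 6 / 240 ≤ 250658 / 100000 * t * (1 / 2 + be) →
      1 + t ^ 2 / 2 - t ^ 4 / 24 + t ^ 6 / 240 ≤ 1 + 250658 / 100000 * t * (1 / 2 + be - al) →
      al * S - be ≤ p := by
    intro t al be ht0 ht1 hal hal0 hq0 hq1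
    by_contra hcon
    push Not at hcon
    have h1 := h t ht0 ht1
    have h2 : 0 ≤ 1 / 2 + be - al * S := by nlinarith
    have ht : 0 < t := by
      rcases eq_or_lt_of_le ht0 with h | h
      · exfalso
        rw [← h] at hq0
        norm_num at hq0
      · exact h
    have hr0 : 0 < r := by linarith
    have h3 : r * t * (1 / 2 + be - al * S) < r * t * (1 / 2 - p) :=
      mul_lt_mul_of_pos_left (by linarith) (mul_pos hr0 ht)
    have h4 : 250658 / 100000 * t * (1 / 2 + be - al * S) ≤ r * t * (1 / 2 + be - al * S) :=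
      mul_le_mul_of_nonneg_right (mul_le_mul_of_nonneg_right hr ht0) h2
    nlinarith [mul_nonneg hS (sub_nonneg.2 hq1), mul_nonneg (sub_nonneg.2 hS1) (sub_nonneg.2 hq0)]
  refine ⟨hS, hS1, hc, ?_, ?_, ?_, ?_, ?_, ?_⟩
  · exact key (84 / 100) _ _ (by norm_num) (by norm_num) (by norm_num) (by norm_num) (by norm_num)
      (by norm_num)
  · exact key (75 / 100) _ _ (by norm_num) (by norm_num) (by norm_num) (by norm_num) (by norm_num)
      (by norm_num)
  · exact key (66 / 100) _ _ (by norm_num) (by norm_num) (by norm_num) (by norm_num) (by norm_num)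
      (by norm_num)
  · exact key (56 / 100) _ _ (by norm_num) (by norm_num) (by norm_num) (by norm_num) (by norm_num)
      (by norm_num)
  · exact key (45 / 100) _ _ (by norm_num) (by norm_num) (by norm_num) (by norm_num) (by norm_num)
      (by norm_num)
  · exact key (30 / 100) _ _ (by norm_num) (by norm_num) (by norm_num) (by norm_num) (by norm_num)
      (by norm_num)

/-- linear facts of one cell, `k = 6` -/
theorem F6_of {c S p : ℝ} (hS : 0 ≤ S) (hc : c * S ≤ p)
    (h : ∀ t : ℝ, 0 ≤ t → t ≤ 1 →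
      S ≤ 1 + 2 * t ^ 2 - t ^ 4 / 3 - 16 / 3 * t * (1 / 2 - p)) : F6 c S p := by
  have hS1 : S ≤ 1 := by
    have := h 0 le_rfl zero_le_one
    norm_num at this
    exact this
  refine ⟨hS, hS1, hc, ?_, ?_, ?_, ?_⟩
  · have := h (1 / 2) (by norm_num) (by norm_num)
    norm_num at this ⊢
    linarith
  · have := h (2 / 5) (by norm_num) (by norm_num)
    norm_num at this ⊢
    linarith
  · have := h (3 / 10) (by norm_num) (by norm_num)
    norm_num at this ⊢
    linarith
  · have := h (1 / 5) (by norm_num) (by norm_num)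
    norm_num at this ⊢
    linarith

/-- linear facts of one cell, `k = 5` -/
theorem F5_of {r c S p : ℝ} (hr : 3141 / 1000 ≤ r) (hS : 0 ≤ S) (hc : c * S ≤ p)
    (h : ∀ t : ℝ, 0 ≤ t → t ≤ 1 →
      S ≤ 1 + 3 / 2 * t ^ 2 - t ^ 4 / 8 - t ^ 6 / 80 - 3 * r / 2 * t * (1 / 2 - p)) :
    F5 c S p := by
  have hS1 : S ≤ 1 := by
    have := h 0 le_rfl zero_le_one
    norm_num at this
    exact this
  have key : ∀ t al be : ℝ, 0 ≤ t → t ≤ 1 → al ≤ 1 / 2 + be → 0 ≤ al →
      1 + 3 / 2 * t ^ 2 - t ^ 4 / 8 - t ^ 6 / 80 ≤ 3 * (3141 / 1000) / 2 * t * (1 / 2 + be) →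
      1 + 3 / 2 * t ^ 2 - t ^ 4 / 8 - t ^ 6 / 80 ≤
        1 + 3 * (3141 / 1000) / 2 * t * (1 / 2 + be - al) →
      al * S - be ≤ p := by
    intro t al be ht0 ht1 hal hal0 hq0 hq1
    by_contra hcon
    push Not at hcon
    have h1 := h t ht0 ht1
    have h2 : 0 ≤ 1 / 2 + be - al * S := by nlinarith
    have ht : 0 < t := by
      rcases eq_or_lt_of_le ht0 with h | h
      · exfalso
        rw [← h] at hq0
        norm_num at hq0
      · exact h
    have hr0 : 0 < r := by linarith
    have h3 : 3 * r / 2 * t * (1 / 2 + be - al * S) < 3 * r / 2 * t * (1 / 2 - p) :=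
      mul_lt_mul_of_pos_left (by linarith) (by positivity)
    have h4 : 3 * (3141 / 1000) / 2 * t * (1 / 2 + be - al * S) ≤
        3 * r / 2 * t * (1 / 2 + be - al * S) := by
      apply mul_le_mul_of_nonneg_right _ h2
      apply mul_le_mul_of_nonneg_right _ ht0
      linarith
    nlinarith [mul_nonneg hS (sub_nonneg.2 hq1), mul_nonneg (sub_nonneg.2 hS1) (sub_nonneg.2 hq0)]
  refine ⟨hS, hS1, hc, ?_, ?_, ?_, ?_, ?_⟩
  · exact key (55 / 100) _ _ (by norm_num) (by norm_num) (by norm_num) (by norm_num) (by norm_num)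
      (by norm_num)
  · exact key (45 / 100) _ _ (by norm_num) (by norm_num) (by norm_num) (by norm_num) (by norm_num)
      (by norm_num)
  · exact key (38 / 100) _ _ (by norm_num) (by norm_num) (by norm_num) (by norm_num) (by norm_num)
      (by norm_num)
  · exact key (30 / 100) _ _ (by norm_num) (by norm_num) (by norm_num) (by norm_num) (by norm_num)
      (by norm_num)
  · exact key (20 / 100) _ _ (by norm_num) (by norm_num) (by norm_num) (by norm_num) (by norm_num)
      (by norm_num)

end general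

theorem no_crit {k : ℕ} (hk : 3 ≤ k) (hP : PK k) (w : Fin (k + 1) → EuclideanSpace ℝ (Fin k)) :
    ¬ Crit w := by
  intro hw
  set μ := stdGaussian (EuclideanSpace ℝ (Fin k)) with hμ
  set r := Real.sqrt (2 * Real.pi) with hr
  obtain ⟨p, hp⟩ : ∃ p : Fin (k + 1) → ℝ, p = fun l => μ.real (cell w l) := ⟨_, rfl⟩
  obtain ⟨S, hS⟩ : ∃ S : Fin (k + 1) → ℝ, S = fun l => r * ‖w l‖ := ⟨_, rfl⟩
  have hpi := Real.pi_pos
  have hp0 : ∀ l, 0 ≤ p l := fun l => by rw [hp]; exact measureReal_nonneg
  have hS0 : ∀ l, 0 ≤ S l := fun l => by rw [hS]; positivity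
  have hSsq : ∀ l, S l ^ 2 = 2 * Real.pi * ‖w l‖ ^ 2 := fun l => by rw [hS]; exact sq_scaled _
  have hpsum : ∑ l, p l ≤ 1 := by rw [hp]; exact sum_cell_le_one w
  have hcS : ∀ l, cE * S l ≤ p l := by
    intro l
    have := deletion (k := k + 1) hP (by omega) hw l
    rw [hS]
    exact cE_bound (norm_nonneg _) (hp0 l) (by rw [hp]; exact this)
  have hσ : 9 / 4 < ∑ l, S l ^ 2 := by
    have h1 := hw.big
    rw [Finset.sum_congr rfl (fun l _ => hSsq l), ← Finset.mul_sum]
    have h2 : 2 * Real.pi * CC = 9 / 4 := by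
      unfold CC
      field_simp
      norm_num
    have h3 : 2 * Real.pi * CC < 2 * Real.pi * ∑ l, ‖w l‖ ^ 2 :=
      mul_lt_mul_of_pos_left h1 (by positivity)
    linarith
  obtain ⟨i, j, lam, hij, hlam, hle⟩ := eig_pair w hw.neg hw.sum_zero (by omega)
  have hsv : ∀ l, ∑ m, S m ^ 2 - 2 * Real.pi * lam ≤ ((k : ℝ) + 1) * k * S l ^ 2 := by
    intro l
    have h1 := second_var (k := k + 1) (by omega) (by simp) hw l lam hlam
    rw [Finset.sum_congr rfl (fun l _ => hSsq l), ← Finset.mul_sum, hSsq]
    push_cast at h1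
    have h2 : 2 * Real.pi * (∑ i, ‖w i‖ ^ 2 - lam) ≤
        2 * Real.pi * (((k : ℝ) + 1) * (k + 1 - 1) * ‖w l‖ ^ 2) :=
      mul_le_mul_of_nonneg_left h1 (by positivity)
    linarith
  have hmin : 0 ≤ ∑ m ∈ (Finset.univ.erase i).erase j, min (-⟪w i, w m⟫) (-⟪w j, w m⟫) := by
    apply Finset.sum_nonneg
    intro m hm
    rw [Finset.mem_erase, Finset.mem_erase] at hm
    have h1 := hw.neg i m (Ne.symm hm.2.1)
    have h2 := hw.neg j m (Ne.symm hm.1)
    exact le_min (by linarith) (by linarith)
  have h3 : ∀ l, ∑ m, S m ^ 2 - (S i ^ 2 + S j ^ 2) ≤ ((k : ℝ) + 1) * k * S l ^ 2 := by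
    intro l
    refine le_trans ?_ (hsv l)
    rw [hSsq i, hSsq j]
    have h1 : 2 * Real.pi * lam ≤ 2 * Real.pi * (‖w i‖ ^ 2 + ‖w j‖ ^ 2) :=
      mul_le_mul_of_nonneg_left (by linarith) (by positivity)
    linarith
  have hlo := cE_lo
  have hhi := cE_hi
  have hfin : 1 < ∑ l, p l := by
    rcases Nat.lt_or_ge k 7 with hk7 | hk7
    · interval_cases k
      · -- `k + 1 = 4`
        have hF : ∀ l, F4 cE (S l) (p l) := by
          intro l
          have hcap : ∀ t : ℝ, 0 ≤ t → t ≤ 1 → S l ≤ 1 + t ^ 2 - 4 * t * (1 / 2 - p l) := by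
            intro t ht0 ht1
            rw [hS, hp]
            exact cap3 hw l ht0 ht1
          refine ⟨hS0 l, ?_, hcS l, hcap⟩
          have := hcap 0 le_rfl zero_le_one
          norm_num at this
          exact this
        refine end4 hlo S p hF hσ (fun a b => 2 * Real.pi * (-⟪w a, w b⟫)) ?_ ?_ ?_ i j hij ?_
        · intro a b
          rw [real_inner_comm]
        · intro a b hab
          have := hw.neg a b hab
          exact mul_pos (by positivity) (by linarith)
        · intro a
          rw [← Finset.mul_sum, hSsq, Finset.sum_neg_distrib]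
          congr 1
          have h1 := Finset.add_sum_erase Finset.univ (fun b => ⟪w a, w b⟫) (Finset.mem_univ a)
          have h2 : ∑ b, ⟪w a, w b⟫ = 0 := by
            rw [← inner_sum, hw.sum_zero, inner_zero_right]
          rw [h2, real_inner_self_eq_norm_sq] at h1
          linarith
        · intro l
          have h1 := hsv l
          have h2 : ∑ m ∈ (Finset.univ.erase i).erase j, min (2 * Real.pi * (-⟪w i, w m⟫))
              (2 * Real.pi * (-⟪w j, w m⟫)) = 2 * Real.pi *
              ∑ m ∈ (Finset.univ.erase i).erase j, min (-⟪w i, w m⟫) (-⟪w j, w m⟫) := by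
            rw [Finset.mul_sum]
            refine Finset.sum_congr rfl fun m _ => ?_
            rw [mul_min_of_nonneg _ _ (by positivity)]
          rw [h2, hSsq i, hSsq j]
          have h4 := mul_le_mul_of_nonneg_left hle (show 0 ≤ 2 * Real.pi by positivity)
          push_cast at h1
          linarith
      · -- `k + 1 = 5`
        have hF : ∀ l, F5 cE (S l) (p l) := by
          intro l
          refine F5_of (r := Real.pi) (by linarith [Real.pi_gt_d4]) (hS0 l) (hcS l) ?_
          intro t ht0 ht1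
          rw [hS, hp]
          exact cap4 hw l ht0 ht1
        refine end5 hlo hhi S p hF hσ.le i j hij ?_
        intro l
        have := h3 l
        push_cast at this
        linarith
      · -- `k + 1 = 6`
        have hF : ∀ l, F6 cE (S l) (p l) := by
          intro l
          refine F6_of (hS0 l) (hcS l) ?_
          intro t ht0 ht1
          rw [hS, hp]
          exact cap5 hw l ht0 ht1
        refine end6 hlo hhi S p hF hσ.le i j hij ?_
        intro l
        have := h3 l
        push_cast at this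
        linarith
      · -- `k + 1 = 7`
        have hF : ∀ l, FH cE (S l) (p l) := by
          intro l
          refine FH_of (r := r) sqrt_two_pi_ge (hS0 l) (hcS l) ?_
          intro t ht0 ht1
          rw [hS, hp]
          exact capH hw l ht0 ht1
        refine end7 hlo hhi S p hF hσ.le i j hij ?_
        intro l
        have := h3 l
        push_cast at this
        linarith
    · have hF : ∀ l, FH cE (S l) (p l) := by
        intro l
        refine FH_of (r := r) sqrt_two_pi_ge (hS0 l) (hcS l) ?_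
        intro t ht0 ht1
        rw [hS, hp]
        exact capH hw l ht0 ht1
      refine end8 (by omega) hlo hhi S p hF hσ.le i j hij ?_
      intro l
      have := h3 l
      push_cast
      linarith
  linarith

end P226
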