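import Vale.Agent.P226.Main
import Vale.Agent.P226.EndGame

/-!
`PK k` for all `k`.
-/

namespace P226

theorem PK_all : ∀ k, PK k := PK_all_of (fun _ hk hP w => no_crit hk hP w)

end P226
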