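import Vale.Agent.P226.Defs

/-!
M1, M2: elementary facts on `gmax`, `Psi`; reduction of partitions to `PK`; dimension reduction.
-/

namespace P226

open MeasureTheory ProbabilityTheory Set
open scoped RealInnerProductSpace

section NoMeas

variable {E : Type*} [NormedAddCommGroup E] [InnerProductSpace ℝ E]

lemma inner_le_gmax {k : ℕ} (w : Fin k → E) (x : E) (i : Fin k) : ⟪x, w i⟫ ≤ gmax w x :=
  le_ciSup (Set.finite_range (fun i => ⟪x, w i⟫)).bddAbove i

lemma gmax_le {k : ℕ} (hk : 0 < k) (w : Fin k → E) (x : E) (c : ℝ)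
    (h : ∀ i, ⟪x, w i⟫ ≤ c) : gmax w x ≤ c := by
  have : Nonempty (Fin k) := ⟨⟨0, hk⟩⟩
  exact ciSup_le h

lemma exists_gmax_eq {k : ℕ} (hk : 0 < k) (w : Fin k → E) (x : E) :
    ∃ i, gmax w x = ⟪x, w i⟫ := by
  have : Nonempty (Fin k) := ⟨⟨0, hk⟩⟩
  obtain ⟨i, hi⟩ := exists_eq_ciSup_of_finite (f := fun i => ⟪x, w i⟫)
  exact ⟨i, hi.symm⟩

lemma gmax_zero_index (w : Fin 0 → E) (x : E) : gmax w x = 0 := by
  simp [gmax]

lemma abs_gmax_le {k : ℕ} (w : Fin k → E) (x : E) : |gmax w x| ≤ ∑ i, |⟪x, w i⟫| := by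
  rcases Nat.eq_zero_or_pos k with rfl | hk
  · simp [gmax_zero_index]
  · obtain ⟨i, hi⟩ := exists_gmax_eq hk w x
    rw [hi]
    exact Finset.single_le_sum (f := fun i => |⟪x, w i⟫|) (fun _ _ => abs_nonneg _)
      (Finset.mem_univ i)

end NoMeas

variable {E : Type*} [NormedAddCommGroup E] [InnerProductSpace ℝ E] [FiniteDimensional ℝ E]
  [MeasurableSpace E] [BorelSpace E]

lemma measurable_gmax {k : ℕ} (w : Fin k → E) : Measurable (gmax w) := by
  unfold gmax
  exact Measurable.iSup fun i => (by fun_prop)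

lemma integrable_id_std : Integrable (fun x : E => x) (stdGaussian E) :=
  IsGaussian.integrable_id

lemma integrable_inner_std (v : E) : Integrable (fun x : E => ⟪x, v⟫) (stdGaussian E) :=
  integrable_id_std.inner_const v

lemma integral_inner_std (v : E) : ∫ x, ⟪x, v⟫ ∂(stdGaussian E) = 0 := by
  have := integral_strongDual_stdGaussian (innerSL ℝ v)
  simpa [real_inner_comm] using this

lemma integrable_gmax {k : ℕ} (w : Fin k → E) : Integrable (gmax w) (stdGaussian E) := by
  have h1 : Integrable (fun x => ∑ i, |⟪x, w i⟫|) (stdGaussian E) :=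
    integrable_finsetSum _ fun i _ => (integrable_inner_std (w i)).abs
  refine h1.mono (measurable_gmax w).aestronglyMeasurable (Filter.Eventually.of_forall fun x => ?_)
  rw [Real.norm_eq_abs, Real.norm_eq_abs]
  exact (abs_gmax_le w x).trans (le_abs_self _)

/-- M1: `PK k` implies the partition inequality. -/
theorem partition_of_PK {d k : ℕ} (h : PK k) (A : Fin k → Set (EuclideanSpace ℝ (Fin d)))
    (hA : ∀ i, MeasurableSet (A i)) (hd : Pairwise (Function.onFun Disjoint A))
    (hU : ⋃ i, A i = univ) :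
    ∑ i, ‖∫ x in A i, x ∂(stdGaussian (EuclideanSpace ℝ (Fin d)))‖ ^ 2 ≤ CC := by
  set γ := stdGaussian (EuclideanSpace ℝ (Fin d)) with hγ
  set z : Fin k → EuclideanSpace ℝ (Fin d) := fun i => ∫ x in A i, x ∂γ with hz
  have h1 : ∑ i, ‖z i‖ ^ 2 ≤ Psi z := by
    have e1 : ∀ i, ‖z i‖ ^ 2 = ∫ x in A i, ⟪x, z i⟫ ∂γ := by
      intro i
      have e2 : ∫ x in A i, ⟪x, z i⟫ ∂γ = ⟪∫ x in A i, x ∂γ, z i⟫ := by
        have := integral_inner (𝕜 := ℝ) (μ := γ.restrict (A i)) (f := fun x => x)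
          (integrable_id_std.restrict) (z i)
        simp_rw [real_inner_comm] at this ⊢
        exact this
      rw [e2]
      exact (real_inner_self_eq_norm_sq (z i)).symm
    have e3 : ∀ i, ‖z i‖ ^ 2 ≤ ∫ x in A i, gmax z x ∂γ := by
      intro i
      rw [e1 i]
      refine setIntegral_mono (integrable_inner_std _).integrableOn (integrable_gmax z).integrableOn
        fun x => inner_le_gmax z x i
    calc ∑ i, ‖z i‖ ^ 2 ≤ ∑ i, ∫ x in A i, gmax z x ∂γ := Finset.sum_le_sum fun i _ => e3 i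
      _ = ∫ x in ⋃ i, A i, gmax z x ∂γ :=
          (integral_iUnion_fintype hA hd (fun i => (integrable_gmax z).integrableOn)).symm
      _ = Psi z := by rw [hU, Measure.restrict_univ]; rfl
  have h2 := h d z
  have h0 : 0 ≤ ∑ i, ‖z i‖ ^ 2 := Finset.sum_nonneg fun i _ => by positivity
  rcases h0.eq_or_lt with h3 | h3
  · rw [← h3]; unfold CC; positivity
  · have h4 : (∑ i, ‖z i‖ ^ 2) ^ 2 ≤ CC * ∑ i, ‖z i‖ ^ 2 :=
      (pow_le_pow_left₀ h0 h1 2).trans h2
    nlinarith

/-- `Psi` depends only on the Gram matrix. -/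
theorem Psi_gram {F : Type*} [NormedAddCommGroup F] [InnerProductSpace ℝ F]
    [FiniteDimensional ℝ F] [MeasurableSpace F] [BorelSpace F] {k : ℕ} (w : Fin k → E)
    (w' : Fin k → F) (h : ∀ i j, ⟪w i, w j⟫ = ⟪w' i, w' j⟫) : Psi w = Psi w' := by
  let T : E → EuclideanSpace ℝ (Fin k) := fun x => WithLp.toLp 2 (fun i => ⟪x, w i⟫)
  let T' : F → EuclideanSpace ℝ (Fin k) := fun x => WithLp.toLp 2 (fun i => ⟪x, w' i⟫)
  have hT : Measurable T := by fun_prop
  have hT' : Measurable T' := by fun_prop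
  have key : (stdGaussian E).map T = (stdGaussian F).map T' := by
    have : IsProbabilityMeasure ((stdGaussian E).map T) :=
      Measure.isProbabilityMeasure_map hT.aemeasurable
    have : IsProbabilityMeasure ((stdGaussian F).map T') :=
      Measure.isProbabilityMeasure_map hT'.aemeasurable
    apply Measure.ext_of_charFun
    ext t
    have c1 : charFun ((stdGaussian E).map T) t =
        charFun (stdGaussian E) (∑ i, t i • w i) := by
      rw [charFun_apply, charFun_apply, integral_map hT.aemeasurable (by fun_prop)]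
      refine integral_congr_ae (Filter.Eventually.of_forall fun x => ?_)
      simp only [T]
      congr 2
      rw [inner_sum, PiLp.inner_apply]
      push_cast
      refine Finset.sum_congr rfl fun i _ => ?_
      simp [inner_smul_right]
    have c2 : charFun ((stdGaussian F).map T') t =
        charFun (stdGaussian F) (∑ i, t i • w' i) := by
      rw [charFun_apply, charFun_apply, integral_map hT'.aemeasurable (by fun_prop)]
      refine integral_congr_ae (Filter.Eventually.of_forall fun x => ?_)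
      simp only [T']
      congr 2
      rw [inner_sum, PiLp.inner_apply]
      push_cast
      refine Finset.sum_congr rfl fun i _ => ?_
      simp [inner_smul_right]
    rw [c1, c2, charFun_stdGaussian, charFun_stdGaussian]
    have n1 : ‖∑ i, t i • w i‖ ^ 2 = ‖∑ i, t i • w' i‖ ^ 2 := by
      rw [← real_inner_self_eq_norm_sq, ← real_inner_self_eq_norm_sq]
      simp only [sum_inner, inner_sum, inner_smul_left, inner_smul_right, h]
    have n2 : (‖∑ i, t i • w i‖ : ℂ) ^ 2 = (‖∑ i, t i • w' i‖ : ℂ) ^ 2 := by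
      exact_mod_cast n1
    rw [n2]
  have hm : Measurable (fun y : EuclideanSpace ℝ (Fin k) => ⨆ i, y i) :=
    Measurable.iSup fun i => (by fun_prop)
  calc Psi w = ∫ y, (⨆ i, y i) ∂((stdGaussian E).map T) := by
        rw [integral_map hT.aemeasurable hm.aestronglyMeasurable]; rfl
    _ = ∫ y, (⨆ i, y i) ∂((stdGaussian F).map T') := by rw [key]
    _ = Psi w' := by
        rw [integral_map hT'.aemeasurable hm.aestronglyMeasurable]; rfl

/-- translation invariance. -/
theorem Psi_sub_const {k : ℕ} (hk : 0 < k) (w : Fin k → E) (m : E) :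
    Psi (fun i => w i - m) = Psi w := by
  have e : ∀ x : E, gmax (fun i => w i - m) x = gmax w x - ⟪x, m⟫ := by
    intro x
    apply le_antisymm
    · refine gmax_le hk _ _ _ fun i => ?_
      rw [inner_sub_right]
      linarith [inner_le_gmax w x i]
    · rw [sub_le_iff_le_add]
      refine gmax_le hk _ _ _ fun i => ?_
      have := inner_le_gmax (fun i => w i - m) x i
      simp only [inner_sub_right] at this
      linarith
  unfold Psi
  simp_rw [e]
  rw [integral_sub (integrable_gmax w) (integrable_inner_std m), integral_inner_std, sub_zero]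

theorem PK_zero : PK 0 := by
  intro D w
  have : Psi w = 0 := by
    unfold Psi
    simp [gmax_zero_index]
  rw [this]; simp

theorem PK_one : PK 1 := by
  intro D w
  have e : ∀ x, gmax w x = ⟪x, w 0⟫ := by
    intro x
    simp [gmax]
  have : Psi w = 0 := by
    unfold Psi
    simp_rw [e]
    exact integral_inner_std _
  rw [this]
  have : (0:ℝ) ≤ CC := by unfold CC; positivity
  have h2 : (0:ℝ) ≤ ∑ i, ‖w i‖ ^ 2 := Finset.sum_nonneg fun i _ => by positivity
  nlinarith [mul_nonneg this h2]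

/-- vectors spanning a space of dimension at most `D` have the Gram matrix of vectors
of `ℝ^D`. -/
theorem exists_gram_of_finrank_le {F : Type*} [NormedAddCommGroup F] [InnerProductSpace ℝ F]
    [FiniteDimensional ℝ F] {k D : ℕ} (w : Fin k → F)
    (hD : Module.finrank ℝ F ≤ D) :
    ∃ w' : Fin k → EuclideanSpace ℝ (Fin D), ∀ i j, ⟪w i, w j⟫ = ⟪w' i, w' j⟫ := by
  set r := Module.finrank ℝ F with hr
  let b := stdOrthonormalBasis ℝ F
  let w' : Fin k → EuclideanSpace ℝ (Fin D) := fun i => WithLp.toLp 2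
    (fun j : Fin D => if h : (j:ℕ) < r then b.repr (w i) ⟨j, h⟩ else 0)
  refine ⟨w', fun i j => ?_⟩
  rw [← b.repr.inner_map_map, PiLp.inner_apply, PiLp.inner_apply]
  have e : ∀ l : Fin D, ⟪(w' i) l, (w' j) l⟫ =
      (if h : (l:ℕ) < r then ⟪b.repr (w i) ⟨l, h⟩, b.repr (w j) ⟨l, h⟩⟫ else 0) := by
    intro l
    by_cases h : (l:ℕ) < r
    · simp [w', h]
    · simp [w', h]
  simp_rw [e]
  set f : Fin r → ℝ := fun l => ⟪b.repr (w i) l, b.repr (w j) l⟫ with hf
  refine Finset.sum_of_injOn (Fin.castLE hD) (Fin.castLE_injective hD).injOn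
    (fun l _ => Finset.mem_coe.2 (Finset.mem_univ _)) (fun l _ hl => ?_) (fun l _ => ?_)
  · have : ¬ (l:ℕ) < r := by
      intro h
      exact hl ⟨⟨l, h⟩, Finset.mem_coe.2 (Finset.mem_univ _), by ext; simp⟩
    simp [this]
  · have : ((Fin.castLE hD l : Fin D) : ℕ) < r := by
      rw [Fin.val_castLE]; exact l.2
    rw [dif_pos this]
    rfl

/-- M2: it suffices to prove the inequality in one dimension `D ≥ k - 1`. -/
theorem PK_of_dim {k D : ℕ} (hD : k ≤ D + 1)
    (h : ∀ w : Fin k → EuclideanSpace ℝ (Fin D), Psi w ^ 2 ≤ CC * ∑ i, ‖w i‖ ^ 2) : PK k := by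
  rcases Nat.eq_zero_or_pos k with rfl | hk
  · exact PK_zero
  obtain ⟨n, rfl⟩ : ∃ n, k = n + 1 := ⟨k - 1, by omega⟩
  intro D' w
  set m : EuclideanSpace ℝ (Fin D') := ((n + 1 : ℕ) : ℝ)⁻¹ • ∑ i, w i with hm
  set c : Fin (n + 1) → EuclideanSpace ℝ (Fin D') := fun i => w i - m with hc
  have hn0 : ((n + 1 : ℕ) : ℝ) ≠ 0 := by positivity
  have hsum : ∑ i, w i = ((n + 1 : ℕ) : ℝ) • m := by
    rw [hm, smul_smul, mul_inv_cancel₀ hn0, one_smul]
  have hcs : ∑ i, c i = 0 := by
    simp only [hc, Finset.sum_sub_distrib, Finset.sum_const, Finset.card_univ, Fintype.card_fin]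
    rw [hsum, ← Nat.cast_smul_eq_nsmul ℝ, sub_self]
  have hnorm : ∑ i, ‖c i‖ ^ 2 ≤ ∑ i, ‖w i‖ ^ 2 := by
    have e : ∀ i, ‖c i‖ ^ 2 = ‖w i‖ ^ 2 - 2 * ⟪w i, m⟫ + ‖m‖ ^ 2 := fun i => norm_sub_sq_real _ _
    simp_rw [e]
    rw [Finset.sum_add_distrib, Finset.sum_sub_distrib, ← Finset.mul_sum, ← sum_inner, hsum,
      Finset.sum_const, Finset.card_univ, Fintype.card_fin, inner_smul_left,
      real_inner_self_eq_norm_sq, nsmul_eq_mul]
    simp only [conj_trivial]
    have : 0 ≤ ((n + 1 : ℕ) : ℝ) * ‖m‖ ^ 2 := by positivity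
    linarith
  -- the span of the centred vectors
  set W : Submodule ℝ (EuclideanSpace ℝ (Fin D')) :=
    Submodule.span ℝ (Set.range fun i : Fin n => c i.succ) with hW
  have hfin : Module.finrank ℝ W ≤ D := by
    have h1 : Module.finrank ℝ W ≤ n := by
      have := finrank_range_le_card (R := ℝ) (fun i : Fin n => c i.succ)
      simpa [Set.finrank, hW] using this
    omega
  have hmem : ∀ i, c i ∈ W := by
    have hs : ∀ i : Fin n, c i.succ ∈ W := fun i => Submodule.subset_span ⟨i, rfl⟩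
    intro i
    refine Fin.cases ?_ (fun i => hs i) i
    have : c 0 = - ∑ i : Fin n, c i.succ := by
      rw [Fin.sum_univ_succ] at hcs
      exact eq_neg_of_add_eq_zero_left hcs
    rw [this]
    exact W.neg_mem (W.sum_mem fun i _ => hs i)
  let cW : Fin (n + 1) → W := fun i => ⟨c i, hmem i⟩
  obtain ⟨w', hw'⟩ := exists_gram_of_finrank_le cW hfin
  have hg : ∀ i j, ⟪c i, c j⟫ = ⟪w' i, w' j⟫ := fun i j => hw' i j
  have h1 : Psi w = Psi w' := by
    rw [← Psi_sub_const (Nat.succ_pos n) w m]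
    exact Psi_gram c w' hg
  have h2 : ∑ i, ‖w' i‖ ^ 2 = ∑ i, ‖c i‖ ^ 2 := by
    refine Finset.sum_congr rfl fun i _ => ?_
    rw [← real_inner_self_eq_norm_sq, ← real_inner_self_eq_norm_sq, hg]
  have hCC : (0:ℝ) ≤ CC := by unfold CC; positivity
  calc Psi w ^ 2 = Psi w' ^ 2 := by rw [h1]
    _ ≤ CC * ∑ i, ‖w' i‖ ^ 2 := h w'
    _ = CC * ∑ i, ‖c i‖ ^ 2 := by rw [h2]
    _ ≤ CC * ∑ i, ‖w i‖ ^ 2 := mul_le_mul_of_nonneg_left hnorm hCC

end P226
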