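import Vale.Agent.P226.ConeRadial
import Vale.Agent.P226.GaussTools

/-!
CAP3, CAP4, CAP5: bathtub bounds for cones in dimensions 3, 4, 5.
-/

namespace P226

open MeasureTheory ProbabilityTheory Set Filter Topology
open scoped RealInnerProductSpace

variable {E : Type*} [NormedAddCommGroup E] [InnerProductSpace ℝ E] [FiniteDimensional ℝ E]
  [MeasurableSpace E] [BorelSpace E]

/-- radial integrals: the mean norm as a quotient of Gamma values. -/
lemma mean_norm (n : ℕ) (hE : Module.finrank ℝ E = n + 1) :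
    ∫ x : E, ‖x‖ ∂(stdGaussian E) = Real.sqrt 2 * (Real.Gamma ((n + 2) / 2) /
      Real.Gamma ((n + 1) / 2)) := by
  have : Nontrivial E := Module.nontrivial_of_finrank_pos (R := ℝ) (by omega)
  have key : ∀ q : ℕ, ∫ x : E, ‖x‖ ^ q ∂(stdGaussian E) =
      ((n + 1 : ℕ) * (volume : Measure E).real (Metric.ball 0 1) *
        (Real.sqrt (2 * Real.pi))⁻¹ ^ (n + 1)) *
        ((1 / 2 : ℝ) ^ (-((n + q : ℕ) + 1 : ℝ) / 2) * (1 / 2) *
          Real.Gamma (((n + q : ℕ) + 1 : ℝ) / 2)) := by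
    intro q
    rw [integral_stdGaussian]
    have h1 : ∀ x : E, gdens x * ‖x‖ ^ q = (fun r : ℝ => (Real.sqrt (2 * Real.pi))⁻¹ ^ (n + 1) *
        Real.exp (-r ^ 2 / 2) * r ^ q) ‖x‖ := by
      intro x; simp only [gdens, hE]
    simp_rw [h1]
    rw [integral_fun_norm_addHaar (volume : Measure E)
      (fun r : ℝ => (Real.sqrt (2 * Real.pi))⁻¹ ^ (n + 1) * Real.exp (-r ^ 2 / 2) * r ^ q), hE]
    have h2 : ∫ y in Ioi (0:ℝ), y ^ (n + 1 - 1) • ((Real.sqrt (2 * Real.pi))⁻¹ ^ (n + 1) *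
        Real.exp (-y ^ 2 / 2) * y ^ q) = (Real.sqrt (2 * Real.pi))⁻¹ ^ (n + 1) *
        ∫ y in Ioi (0:ℝ), y ^ ((n + q : ℕ) : ℝ) * Real.exp (-(1 / 2) * y ^ (2:ℝ)) := by
      rw [← integral_const_mul]
      refine setIntegral_congr_fun measurableSet_Ioi fun y hy => ?_
      simp only [smul_eq_mul, Nat.add_sub_cancel, Real.rpow_natCast, Real.rpow_ofNat, pow_add y]
      rw [show -y ^ 2 / 2 = -(1 / 2) * y ^ 2 by ring]
      ring
    rw [h2, integral_rpow_mul_exp_neg_mul_rpow (by norm_num)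
      (by have : (0:ℝ) ≤ ((n + q : ℕ) : ℝ) := Nat.cast_nonneg _
          linarith)
      (by norm_num)]
    simp only [nsmul_eq_mul, smul_eq_mul, Measure.real]
    ring
  have h0 := key 0
  have h1 := key 1
  simp only [pow_zero, integral_const, probReal_univ, smul_eq_mul, mul_one, pow_one,
    Nat.add_zero] at h0 h1
  set K := ((n + 1 : ℕ) * (volume : Measure E).real (Metric.ball 0 1) *
        (Real.sqrt (2 * Real.pi))⁻¹ ^ (n + 1)) with hK
  have hG0 : 0 < Real.Gamma (((n : ℝ) + 1) / 2) := Real.Gamma_pos_of_pos (by positivity)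
  have hp0 : 0 < (1 / 2 : ℝ) ^ (-((n : ℝ) + 1) / 2) := Real.rpow_pos_of_pos (by norm_num) _
  have e1 : (1 / 2 : ℝ) ^ (-(((n + 1 : ℕ) : ℝ) + 1) / 2) =
      (1 / 2 : ℝ) ^ (-((n : ℝ) + 1) / 2) * Real.sqrt 2 := by
    rw [show -(((n + 1 : ℕ) : ℝ) + 1) / 2 = -((n : ℝ) + 1) / 2 + -(1 / 2) by push_cast; ring,
      Real.rpow_add (by norm_num), Real.sqrt_eq_rpow, one_div, Real.inv_rpow (by norm_num) (-_),
      Real.rpow_neg (by norm_num), inv_inv]
  rw [h1, e1]
  have e2 : (((n + 1 : ℕ) : ℝ) + 1) / 2 = ((n : ℝ) + 2) / 2 := by push_cast; ring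
  rw [e2]
  have e3 : Real.Gamma (((n : ℝ) + 2) / 2) / Real.Gamma (((n : ℝ) + 1) / 2) *
      Real.Gamma (((n : ℝ) + 1) / 2) = Real.Gamma (((n : ℝ) + 2) / 2) := by
    field_simp
  set G := Real.Gamma (((n : ℝ) + 2) / 2) / Real.Gamma (((n : ℝ) + 1) / 2)
  rw [← e3]
  linear_combination (-(Real.sqrt 2 * G)) * h0

lemma gamma_three_half : Real.Gamma (3 / 2) = Real.sqrt Real.pi / 2 := by
  rw [show (3 / 2 : ℝ) = 1 / 2 + 1 by norm_num, Real.Gamma_add_one (by norm_num),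
    Real.Gamma_one_half_eq]
  ring

lemma gamma_five_half : Real.Gamma (5 / 2) = 3 * Real.sqrt Real.pi / 4 := by
  rw [show (5 / 2 : ℝ) = 3 / 2 + 1 by norm_num, Real.Gamma_add_one (by norm_num),
    gamma_three_half]
  ring

lemma mean_norm3 (hE : Module.finrank ℝ E = 3) :
    Real.sqrt (2 * Real.pi) * ∫ x : E, ‖x‖ ∂(stdGaussian E) = 4 := by
  have h := mean_norm (E := E) 2 hE
  rw [h]
  have e1 : (((2 : ℕ) : ℝ) + 2) / 2 = 2 := by norm_num
  have e2 : (((2 : ℕ) : ℝ) + 1) / 2 = 3 / 2 := by norm_num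
  rw [e1, e2, gamma_three_half, Real.Gamma_two, Real.sqrt_mul (by norm_num)]
  have h2 : Real.sqrt 2 * Real.sqrt 2 = 2 := Real.mul_self_sqrt (by norm_num)
  have hpi : 0 < Real.sqrt Real.pi := Real.sqrt_pos.2 Real.pi_pos
  field_simp
  linear_combination 2 * h2

lemma mean_norm4 (hE : Module.finrank ℝ E = 4) :
    Real.sqrt (2 * Real.pi) * ∫ x : E, ‖x‖ ∂(stdGaussian E) = 3 * Real.pi / 2 := by
  have h := mean_norm (E := E) 3 hE
  rw [h]
  have e1 : (((3 : ℕ) : ℝ) + 2) / 2 = 5 / 2 := by norm_num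
  have e2 : (((3 : ℕ) : ℝ) + 1) / 2 = 2 := by norm_num
  rw [e1, e2, gamma_five_half, Real.Gamma_two, Real.sqrt_mul (by norm_num)]
  have h2 : Real.sqrt 2 * Real.sqrt 2 = 2 := Real.mul_self_sqrt (by norm_num)
  have hpi : Real.sqrt Real.pi * Real.sqrt Real.pi = Real.pi := Real.mul_self_sqrt Real.pi_pos.le
  linear_combination (3 / 4 * (Real.sqrt Real.pi * Real.sqrt Real.pi)) * h2 + (3 / 2) * hpi

lemma mean_norm5 (hE : Module.finrank ℝ E = 5) :
    Real.sqrt (2 * Real.pi) * ∫ x : E, ‖x‖ ∂(stdGaussian E) = 16 / 3 := by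
  have h := mean_norm (E := E) 4 hE
  rw [h]
  have e1 : (((4 : ℕ) : ℝ) + 2) / 2 = 2 + 1 := by norm_num
  have e2 : (((4 : ℕ) : ℝ) + 1) / 2 = 5 / 2 := by norm_num
  rw [e1, e2, gamma_five_half, Real.Gamma_add_one (by norm_num), Real.Gamma_two,
    Real.sqrt_mul (by norm_num)]
  have h2 : Real.sqrt 2 * Real.sqrt 2 = 2 := Real.mul_self_sqrt (by norm_num)
  have hpi : 0 < Real.sqrt Real.pi := Real.sqrt_pos.2 Real.pi_pos
  field_simp
  linear_combination 8 * h2

/-- general bathtub bound for cones. -/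
lemma cap_cone_aux [Nontrivial E] {A : Set E} (hA : MeasurableSet A)
    (hcone : ∀ x ∈ A, ∀ c : ℝ, 0 < c → c • x ∈ A) (e : E) (c : ℝ) :
    Real.sqrt (2 * Real.pi) * ∫ x in A, ⟪x, e⟫ ∂(stdGaussian E)
      ≤ Real.sqrt (2 * Real.pi) * ∫ x, max (⟪x, e⟫ - c * ‖x‖) 0 ∂(stdGaussian E) +
        c * (Real.sqrt (2 * Real.pi) * ∫ x : E, ‖x‖ ∂(stdGaussian E)) * (stdGaussian E).real A := by
  have hn : Integrable (fun x : E => ‖x‖) (stdGaussian E) := IsGaussian.integrable_id.norm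
  have hi : Integrable (fun x : E => ⟪x, e⟫) (stdGaussian E) := integrable_inner_gauss e
  have hd : Integrable (fun x : E => ⟪x, e⟫ - c * ‖x‖) (stdGaussian E) := hi.sub (hn.const_mul c)
  have hmax : Integrable (fun x : E => max (⟪x, e⟫ - c * ‖x‖) 0) (stdGaussian E) := hd.pos_part
  have h1 : ∫ x in A, ⟪x, e⟫ ∂(stdGaussian E) =
      ∫ x in A, (⟪x, e⟫ - c * ‖x‖) ∂(stdGaussian E) +
        c * ((stdGaussian E).real A * ∫ x : E, ‖x‖ ∂(stdGaussian E)) := by
    rw [← cone_radial_gauss A hA hcone (fun r => r), ← integral_const_mul, ← integral_add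
      hd.integrableOn (hn.const_mul c).integrableOn]
    refine integral_congr_ae (Eventually.of_forall fun x => ?_)
    simp
  have h2 : ∫ x in A, (⟪x, e⟫ - c * ‖x‖) ∂(stdGaussian E) ≤
      ∫ x, max (⟪x, e⟫ - c * ‖x‖) 0 ∂(stdGaussian E) := by
    refine (integral_mono hd.integrableOn hmax.integrableOn fun x => le_max_left _ _).trans ?_
    exact setIntegral_le_integral hmax (Eventually.of_forall fun x => le_max_right _ _)
  have h3 := mul_le_mul_of_nonneg_left h2 sqrt_two_pi_pos.le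
  rw [h1]
  linarith

/-- general bathtub bound for cones, with the cap integral evaluated. -/
lemma cap_cone_aux2 (n : ℕ) (hE : Module.finrank ℝ E = n + 1) {A : Set E} (hA : MeasurableSet A)
    (hcone : ∀ x ∈ A, ∀ c : ℝ, 0 < c → c • x ∈ A) (e : E) (he : ‖e‖ = 1) {c : ℝ}
    (hc0 : 0 < c) (hc1 : c < 1) :
    Real.sqrt (2 * Real.pi) * ∫ x in A, ⟪x, e⟫ ∂(stdGaussian E)
      ≤ c * (∫ t in c..1, Real.sqrt (1 - t ^ 2) ^ n / t ^ 2) +
        c * (Real.sqrt (2 * Real.pi) * ∫ x : E, ‖x‖ ∂(stdGaussian E)) * (stdGaussian E).real A := by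
  have : Nontrivial E := Module.nontrivial_of_finrank_pos (R := ℝ) (by omega)
  have h := cap_cone_aux hA hcone e c
  rw [cap_integral n hE e he hc0 hc1, ← mul_assoc, mul_inv_cancel₀ sqrt_two_pi_pos.ne',
    one_mul] at h
  exact h

/-- the case `c = 0`. -/
lemma cap_cone_zero {A : Set E} (e : E) (he : ‖e‖ = 1) :
    Real.sqrt (2 * Real.pi) * ∫ x in A, ⟪x, e⟫ ∂(stdGaussian E) ≤ 1 := by
  have hi : Integrable (fun x : E => ⟪x, e⟫) (stdGaussian E) := integrable_inner_gauss e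
  have hmax : Integrable (fun x : E => max ⟪x, e⟫ 0) (stdGaussian E) := hi.pos_part
  have h2 : ∫ x in A, ⟪x, e⟫ ∂(stdGaussian E) ≤ ∫ x, max ⟪x, e⟫ 0 ∂(stdGaussian E) := by
    refine (integral_mono hi.integrableOn hmax.integrableOn fun x => le_max_left _ _).trans ?_
    exact setIntegral_le_integral hmax (Eventually.of_forall fun x => le_max_right _ _)
  rw [integral_pos_inner_gauss, he] at h2
  have h3 := mul_le_mul_of_nonneg_left h2 sqrt_two_pi_pos.le
  rwa [mul_one_div_cancel sqrt_two_pi_pos.ne'] at h3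

/-- the case `c = 1`. -/
lemma cap_cone_one [Nontrivial E] {A : Set E} (hA : MeasurableSet A)
    (hcone : ∀ x ∈ A, ∀ c : ℝ, 0 < c → c • x ∈ A) (e : E) (he : ‖e‖ = 1) :
    Real.sqrt (2 * Real.pi) * ∫ x in A, ⟪x, e⟫ ∂(stdGaussian E) ≤
      (Real.sqrt (2 * Real.pi) * ∫ x : E, ‖x‖ ∂(stdGaussian E)) * (stdGaussian E).real A := by
  have h := cap_cone_aux hA hcone e 1
  have h1 : ∀ x : E, max (⟪x, e⟫ - 1 * ‖x‖) 0 = 0 := by
    intro x
    apply max_eq_right
    have := real_inner_le_norm x e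
    rw [he] at this
    linarith
  simp_rw [h1] at h
  simpa using h

lemma sqrt_sq_four {t : ℝ} (h : t ^ 2 ≤ 1) : Real.sqrt (1 - t ^ 2) ^ 4 = (1 - t ^ 2) ^ 2 := by
  rw [show (4:ℕ) = 2 * 2 by norm_num, pow_mul, Real.sq_sqrt (by linarith)]

lemma int2 {c : ℝ} (hc0 : 0 < c) (hc1 : c < 1) :
    c * (∫ t in c..1, Real.sqrt (1 - t ^ 2) ^ 2 / t ^ 2) = (1 - c) ^ 2 := by
  have h1 : ∫ t in c..1, Real.sqrt (1 - t ^ 2) ^ 2 / t ^ 2 = ∫ t in c..1, (1 - t ^ 2) / t ^ 2 := by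
    refine intervalIntegral.integral_congr fun t ht => ?_
    rw [uIcc_of_le hc1.le] at ht
    rw [Real.sq_sqrt]
    nlinarith [ht.1, ht.2]
  have h2 : ∀ t ∈ uIcc c 1, HasDerivAt (fun t : ℝ => -t⁻¹ - t) ((1 - t ^ 2) / t ^ 2) t := by
    intro t ht
    rw [uIcc_of_le hc1.le] at ht
    have ht0 : t ≠ 0 := (hc0.trans_le ht.1).ne'
    exact ((hasDerivAt_inv ht0).neg.sub (hasDerivAt_id t)).congr_deriv (by field_simp)
  rw [h1, intervalIntegral.integral_eq_sub_of_hasDerivAt h2]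
  · field_simp; ring
  · apply ContinuousOn.intervalIntegrable
    intro t ht
    rw [uIcc_of_le hc1.le] at ht
    have ht0 : t ≠ 0 := (hc0.trans_le ht.1).ne'
    exact ContinuousAt.continuousWithinAt (by fun_prop (disch := positivity))

lemma int4 {c : ℝ} (hc0 : 0 < c) (hc1 : c < 1) :
    c * (∫ t in c..1, Real.sqrt (1 - t ^ 2) ^ 4 / t ^ 2) =
      1 - 8 / 3 * c + 2 * c ^ 2 - c ^ 4 / 3 := by
  have h1 : ∫ t in c..1, Real.sqrt (1 - t ^ 2) ^ 4 / t ^ 2 =
      ∫ t in c..1, (1 - t ^ 2) ^ 2 / t ^ 2 := by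
    refine intervalIntegral.integral_congr fun t ht => ?_
    rw [uIcc_of_le hc1.le] at ht
    rw [sqrt_sq_four]
    nlinarith [ht.1, ht.2]
  have h2 : ∀ t ∈ uIcc c 1, HasDerivAt (fun t : ℝ => -t⁻¹ - 2 * t + t ^ 3 / 3)
      ((1 - t ^ 2) ^ 2 / t ^ 2) t := by
    intro t ht
    rw [uIcc_of_le hc1.le] at ht
    have ht0 : t ≠ 0 := (hc0.trans_le ht.1).ne'
    exact (((hasDerivAt_inv ht0).neg.sub ((hasDerivAt_id t).const_mul 2)).add
      ((hasDerivAt_pow 3 t).div_const 3)).congr_deriv (by field_simp; ring)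
  rw [h1, intervalIntegral.integral_eq_sub_of_hasDerivAt h2]
  · field_simp; ring
  · apply ContinuousOn.intervalIntegrable
    intro t ht
    rw [uIcc_of_le hc1.le] at ht
    have ht0 : t ≠ 0 := (hc0.trans_le ht.1).ne'
    exact ContinuousAt.continuousWithinAt (by fun_prop (disch := positivity))

lemma hasDerivAt_s {t : ℝ} (ht0 : -1 < t) (ht1 : t < 1) :
    HasDerivAt (fun t : ℝ => Real.sqrt (1 - t ^ 2)) (-t / Real.sqrt (1 - t ^ 2)) t := by
  have h : 0 < 1 - t ^ 2 := by nlinarith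
  have h1 : HasDerivAt (fun t : ℝ => 1 - t ^ 2) (-(2 * t)) t :=
    ((hasDerivAt_pow 2 t).const_sub 1).congr_deriv (by norm_num)
  exact (h1.sqrt h.ne').congr_deriv (by field_simp)

lemma int3 {c : ℝ} (hc0 : 0 < c) (hc1 : c < 1) :
    c * (∫ t in c..1, Real.sqrt (1 - t ^ 2) ^ 3 / t ^ 2) =
      Real.sqrt (1 - c ^ 2) ^ 3 + 3 / 2 * (c ^ 2 * Real.sqrt (1 - c ^ 2) + c * Real.arcsin c) -
        3 * Real.pi / 4 * c := by
  have h2 : ∀ t ∈ Ioo c 1, HasDerivAt (fun t : ℝ => -(Real.sqrt (1 - t ^ 2) ^ 3 * t⁻¹) -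
      3 / 2 * (t * Real.sqrt (1 - t ^ 2) + Real.arcsin t))
      (Real.sqrt (1 - t ^ 2) ^ 3 / t ^ 2) t := by
    intro t ht
    have ht0 : 0 < t := hc0.trans ht.1
    have hs : 0 < Real.sqrt (1 - t ^ 2) := Real.sqrt_pos.2 (by nlinarith [ht.2])
    have hs2 : Real.sqrt (1 - t ^ 2) ^ 2 = 1 - t ^ 2 := Real.sq_sqrt (by nlinarith [ht.2])
    have d1 := hasDerivAt_s (by linarith : -1 < t) ht.2
    have d2 := Real.hasDerivAt_arcsin (by linarith : t ≠ -1) ht.2.ne
    refine ((((d1.pow 3).mul (hasDerivAt_inv ht0.ne')).neg).sub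
      ((((hasDerivAt_id t).mul d1).add d2).const_mul (3 / 2))).congr_deriv ?_
    simp only [id]
    set s := Real.sqrt (1 - t ^ 2)
    field_simp
    push_cast
    norm_num
    nlinarith
  rw [intervalIntegral.integral_eq_sub_of_hasDerivAt_of_le hc1.le _ h2]
  · simp
    field_simp
    ring
  · apply ContinuousOn.intervalIntegrable
    intro t ht
    rw [uIcc_of_le hc1.le] at ht
    have ht0 : t ≠ 0 := (hc0.trans_le ht.1).ne'
    exact ContinuousAt.continuousWithinAt (by fun_prop (disch := positivity))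
  · intro t ht
    have ht0 : t ≠ 0 := (hc0.trans_le ht.1).ne'
    have := Real.continuous_arcsin
    exact ContinuousAt.continuousWithinAt (by fun_prop (disch := positivity))

theorem cap_cone3 (hn : Module.finrank ℝ E = 3) {A : Set E} (hA : MeasurableSet A)
    (hcone : ∀ x ∈ A, ∀ c : ℝ, 0 < c → c • x ∈ A) (e : E) (he : ‖e‖ = 1)
    {c : ℝ} (hc0 : 0 ≤ c) (hc1 : c ≤ 1) :
    Real.sqrt (2 * Real.pi) * ∫ x in A, ⟪x, e⟫ ∂(stdGaussian E)
      ≤ 4 * c * (stdGaussian E).real A + (1 - c) ^ 2 := by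
  have : Nontrivial E := Module.nontrivial_of_finrank_pos (R := ℝ) (by omega)
  rcases hc0.eq_or_lt with rfl | hc0
  · have := cap_cone_zero (A := A) e he
    simpa using this
  rcases hc1.eq_or_lt with rfl | hc1
  · have := cap_cone_one hA hcone e he
    rw [mean_norm3 hn] at this
    simpa using this
  have h := cap_cone_aux2 2 hn hA hcone e he hc0 hc1
  rw [int2 hc0 hc1, mean_norm3 hn] at h
  linarith

theorem cap_cone5 (hn : Module.finrank ℝ E = 5) {A : Set E} (hA : MeasurableSet A)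
    (hcone : ∀ x ∈ A, ∀ c : ℝ, 0 < c → c • x ∈ A) (e : E) (he : ‖e‖ = 1)
    {c : ℝ} (hc0 : 0 ≤ c) (hc1 : c ≤ 1) :
    Real.sqrt (2 * Real.pi) * ∫ x in A, ⟪x, e⟫ ∂(stdGaussian E)
      ≤ 16 / 3 * c * ((stdGaussian E).real A - (1 / 2 - 3 / 4 * c + 1 / 4 * c ^ 3))
        + (1 - c ^ 2) ^ 2 := by
  have : Nontrivial E := Module.nontrivial_of_finrank_pos (R := ℝ) (by omega)
  rcases hc0.eq_or_lt with rfl | hc0
  · have := cap_cone_zero (A := A) e he
    simpa using this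
  rcases hc1.eq_or_lt with rfl | hc1
  · have := cap_cone_one hA hcone e he
    rw [mean_norm5 hn] at this
    linarith
  have h := cap_cone_aux2 4 hn hA hcone e he hc0 hc1
  rw [int4 hc0 hc1, mean_norm5 hn] at h
  linarith

/-- dimension 4, in terms of `c = cos θ`. -/
theorem cap_cone4' (hn : Module.finrank ℝ E = 4) {A : Set E} (hA : MeasurableSet A)
    (hcone : ∀ x ∈ A, ∀ c : ℝ, 0 < c → c • x ∈ A) (e : E) (he : ‖e‖ = 1)
    {c : ℝ} (hc0 : 0 ≤ c) (hc1 : c ≤ 1) :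
    Real.sqrt (2 * Real.pi) * ∫ x in A, ⟪x, e⟫ ∂(stdGaussian E)
      ≤ Real.sqrt (1 - c ^ 2) ^ 3 + 3 / 2 * (c ^ 2 * Real.sqrt (1 - c ^ 2) + c * Real.arcsin c) -
        3 * Real.pi / 2 * c * (1 / 2 - (stdGaussian E).real A) := by
  have : Nontrivial E := Module.nontrivial_of_finrank_pos (R := ℝ) (by omega)
  rcases hc0.eq_or_lt with rfl | hc0
  · have := cap_cone_zero (A := A) e he
    simpa using this
  rcases hc1.eq_or_lt with rfl | hc1
  · have := cap_cone_one hA hcone e he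
    rw [mean_norm4 hn] at this
    refine this.trans (le_of_eq ?_)
    simp
    ring
  have h := cap_cone_aux2 3 hn hA hcone e he hc0 hc1
  rw [int3 hc0 hc1, mean_norm4 hn] at h
  linarith

theorem cap_cone4 (hn : Module.finrank ℝ E = 4) {A : Set E} (hA : MeasurableSet A)
    (hcone : ∀ x ∈ A, ∀ c : ℝ, 0 < c → c • x ∈ A) (e : E) (he : ‖e‖ = 1)
    {θ : ℝ} (h0 : 0 < θ) (h1 : θ ≤ Real.pi / 2) :
    Real.sqrt (2 * Real.pi) * ∫ x in A, ⟪x, e⟫ ∂(stdGaussian E)
      ≤ 3 / 2 * Real.cos θ * (Real.pi * (stdGaussian E).real A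
        - (θ - Real.sin θ * Real.cos θ)) + Real.sin θ ^ 3 := by
  have hc0 : 0 ≤ Real.cos θ := Real.cos_nonneg_of_mem_Icc ⟨by linarith [Real.pi_pos], h1⟩
  have h := cap_cone4' hn hA hcone e he hc0 (Real.cos_le_one θ)
  have hs : Real.sqrt (1 - Real.cos θ ^ 2) = Real.sin θ := by
    rw [← Real.abs_sin_eq_sqrt_one_sub_cos_sq, abs_of_nonneg]
    exact Real.sin_nonneg_of_nonneg_of_le_pi h0.le (by linarith [Real.pi_pos])
  have ha : Real.arcsin (Real.cos θ) = Real.pi / 2 - θ := by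
    rw [← Real.sin_pi_div_two_sub, Real.arcsin_sin (by linarith) (by linarith [Real.pi_pos])]
  rw [hs, ha] at h
  linarith

lemma sqrt_le_quad {t : ℝ} (h0 : 0 ≤ t) (h1 : t ≤ 1) :
    Real.sqrt (1 - t ^ 2) ≤ 1 - t ^ 2 / 2 - t ^ 4 / 8 := by
  have h2 : t ^ 2 ≤ 1 := by nlinarith
  have h4 : t ^ 4 ≤ 1 := pow_le_one₀ h0 h1
  apply Real.sqrt_le_iff.2
  constructor
  · linarith
  · have h6 : 0 ≤ t ^ 6 := by positivity
    have h8 : 0 ≤ t ^ 8 := by positivity
    nlinarith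

/-- `arcsin` inequality used for dimension 4. -/
lemma arcsin_poly {c : ℝ} (hc0 : 0 ≤ c) (hc1 : c ≤ 1) :
    Real.sqrt (1 - c ^ 2) ^ 3 + 3 / 2 * (c ^ 2 * Real.sqrt (1 - c ^ 2) + c * Real.arcsin c) ≤
      1 + 3 / 2 * c ^ 2 - c ^ 4 / 8 - c ^ 6 / 80 := by
  -- first derivative
  have hD1 : MonotoneOn (fun t : ℝ => 3 * t - t ^ 3 / 2 - 3 / 40 * t ^ 5 -
      3 / 2 * (t * Real.sqrt (1 - t ^ 2) + Real.arcsin t)) (Icc 0 1) := by
    apply monotoneOn_of_deriv_nonneg (convex_Icc 0 1)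
    · have := Real.continuous_arcsin
      fun_prop
    · intro t ht
      rw [interior_Icc] at ht
      have d1 := hasDerivAt_s (by linarith [ht.1] : -1 < t) ht.2
      have d2 := Real.hasDerivAt_arcsin (by linarith [ht.1] : t ≠ -1) ht.2.ne
      exact (((((hasDerivAt_id t).const_mul 3).sub ((hasDerivAt_pow 3 t).div_const 2)).sub
        ((hasDerivAt_pow 5 t).const_mul (3 / 40))).sub
        ((((hasDerivAt_id t).mul d1).add d2).const_mul
          (3 / 2))).differentiableAt.differentiableWithinAt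
    · intro t ht
      rw [interior_Icc] at ht
      have hs : 0 < Real.sqrt (1 - t ^ 2) := Real.sqrt_pos.2 (by nlinarith [ht.1, ht.2])
      have hs2 : Real.sqrt (1 - t ^ 2) ^ 2 = 1 - t ^ 2 :=
        Real.sq_sqrt (by nlinarith [ht.1, ht.2])
      have d1 := hasDerivAt_s (by linarith [ht.1] : -1 < t) ht.2
      have d2 := Real.hasDerivAt_arcsin (by linarith [ht.1] : t ≠ -1) ht.2.ne
      have d : HasDerivAt (fun t : ℝ => 3 * t - t ^ 3 / 2 - 3 / 40 * t ^ 5 -
          3 / 2 * (t * Real.sqrt (1 - t ^ 2) + Real.arcsin t))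
          (3 * (1 - t ^ 2 / 2 - t ^ 4 / 8 - Real.sqrt (1 - t ^ 2))) t := by
        refine (((((hasDerivAt_id t).const_mul 3).sub ((hasDerivAt_pow 3 t).div_const 2)).sub
          ((hasDerivAt_pow 5 t).const_mul (3 / 40))).sub
          ((((hasDerivAt_id t).mul d1).add d2).const_mul (3 / 2))).congr_deriv ?_
        simp only [id]
        set s := Real.sqrt (1 - t ^ 2)
        field_simp
        norm_num
        nlinarith
      rw [d.deriv]
      have := sqrt_le_quad ht.1.le ht.2.le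
      linarith
  have hD1' : ∀ t ∈ Icc (0:ℝ) 1, 0 ≤ 3 * t - t ^ 3 / 2 - 3 / 40 * t ^ 5 -
      3 / 2 * (t * Real.sqrt (1 - t ^ 2) + Real.arcsin t) := by
    intro t ht
    have := hD1 (left_mem_Icc.2 zero_le_one) ht ht.1
    simpa using this
  have hD : MonotoneOn (fun t : ℝ => 1 + 3 / 2 * t ^ 2 - t ^ 4 / 8 - t ^ 6 / 80 -
      (Real.sqrt (1 - t ^ 2) ^ 3 + 3 / 2 * (t ^ 2 * Real.sqrt (1 - t ^ 2) + t * Real.arcsin t)))
      (Icc 0 1) := by
    apply monotoneOn_of_deriv_nonneg (convex_Icc 0 1)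
    · have := Real.continuous_arcsin
      fun_prop
    · intro t ht
      rw [interior_Icc] at ht
      have d1 := hasDerivAt_s (by linarith [ht.1] : -1 < t) ht.2
      have d2 := Real.hasDerivAt_arcsin (by linarith [ht.1] : t ≠ -1) ht.2.ne
      have d1' := d1.differentiableAt
      have d2' := d2.differentiableAt
      apply DifferentiableAt.differentiableWithinAt
      fun_prop
    · intro t ht
      have htm : t ∈ Icc (0:ℝ) 1 := interior_subset ht
      rw [interior_Icc] at ht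
      have hs : 0 < Real.sqrt (1 - t ^ 2) := Real.sqrt_pos.2 (by nlinarith [ht.1, ht.2])
      have hs2 : Real.sqrt (1 - t ^ 2) ^ 2 = 1 - t ^ 2 :=
        Real.sq_sqrt (by nlinarith [ht.1, ht.2])
      have d1 := hasDerivAt_s (by linarith [ht.1] : -1 < t) ht.2
      have d2 := Real.hasDerivAt_arcsin (by linarith [ht.1] : t ≠ -1) ht.2.ne
      have p2 := (hasDerivAt_pow 2 t).const_mul (3 / 2)
      have p4 := (hasDerivAt_pow 4 t).div_const 8
      have p6 := (hasDerivAt_pow 6 t).div_const 80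
      have d : HasDerivAt (fun t : ℝ => 1 + 3 / 2 * t ^ 2 - t ^ 4 / 8 - t ^ 6 / 80 -
          (Real.sqrt (1 - t ^ 2) ^ 3 +
            3 / 2 * (t ^ 2 * Real.sqrt (1 - t ^ 2) + t * Real.arcsin t)))
          (3 * t - t ^ 3 / 2 - 3 / 40 * t ^ 5 -
            3 / 2 * (t * Real.sqrt (1 - t ^ 2) + Real.arcsin t)) t := by
        refine ((((p2.const_add 1).sub p4).sub p6).sub ((d1.pow 3).add
          ((((hasDerivAt_pow 2 t).mul d1).add ((hasDerivAt_id t).mul d2)).const_mul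
            (3 / 2)))).congr_deriv ?_
        simp only [id]
        set s := Real.sqrt (1 - t ^ 2)
        field_simp
        norm_num
        linear_combination 76800 * t * hs2
      rw [d.deriv]
      exact hD1' t htm
  have := hD (left_mem_Icc.2 zero_le_one) ⟨hc0, hc1⟩ hc0
  simp at this
  linarith

end P226
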