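import Vale.Agent.P226.Density

/-!
P226: bathtub bound for cones (caps on the sphere).
-/

namespace P226

open MeasureTheory ProbabilityTheory Set Metric Filter Topology
open scoped RealInnerProductSpace ENNReal

section radial

variable {E : Type*} [NormedAddCommGroup E] [InnerProductSpace ℝ E] [FiniteDimensional ℝ E]
  [MeasurableSpace E] [BorelSpace E]

omit [FiniteDimensional ℝ E] [MeasurableSpace E] [BorelSpace E] in
lemma cone_mem_iff {A : Set E} (hcone : ∀ x ∈ A, ∀ r : ℝ, 0 < r → r • x ∈ A) {x : E}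
    {r : ℝ} (hr : 0 < r) : r • x ∈ A ↔ x ∈ A := by
  refine ⟨fun h => ?_, fun h => hcone x h r hr⟩
  have := hcone _ h r⁻¹ (inv_pos.2 hr)
  rwa [smul_smul, inv_mul_cancel₀ hr.ne', one_smul] at this

/-- polar coordinates on a cone. -/
lemma cone_radial [Nontrivial E] (A : Set E) (hA : MeasurableSet A)
    (hcone : ∀ x ∈ A, ∀ r : ℝ, 0 < r → r • x ∈ A) (h : ℝ → ℝ) :
    ∫ x in A, h ‖x‖ = ((volume : Measure E).toSphere.real (Subtype.val ⁻¹' A)) *
      ∫ y : Ioi (0:ℝ), h y ∂(Measure.volumeIoiPow (Module.finrank ℝ E - 1)) := by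
  have hm : MeasurableSet (Subtype.val ⁻¹' A : Set (sphere (0 : E) 1)) :=
    measurable_subtype_coe hA
  calc ∫ x in A, h ‖x‖ = ∫ x, A.indicator (fun x => h ‖x‖) x := (integral_indicator hA).symm
    _ = ∫ x : ({(0)}ᶜ : Set E), A.indicator (fun x => h ‖x‖) x.1
          ∂((volume : Measure E).comap (↑)) := by
        rw [integral_subtype_comap (measurableSet_singleton _).compl
          (fun x => A.indicator (fun x => h ‖x‖) x), restrict_compl_singleton]
    _ = ∫ p, (Subtype.val ⁻¹' A : Set (sphere (0 : E) 1)).indicator (fun _ => (1:ℝ)) p.1 * h p.2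
          ∂(volume : Measure E).toSphere.prod
            (Measure.volumeIoiPow (Module.finrank ℝ E - 1)) := by
        rw [← (volume : Measure E).measurePreserving_homeomorphUnitSphereProd.integral_comp
          (Homeomorph.measurableEmbedding _)]
        refine integral_congr_ae (Filter.Eventually.of_forall fun x => ?_)
        have hx : 0 < ‖x.1‖ := norm_pos_iff.2 x.2
        have h1 : ((homeomorphUnitSphereProd E x).1 : E) = ‖x.1‖⁻¹ • x.1 := by simp
        have h2 : ((homeomorphUnitSphereProd E x).2 : ℝ) = ‖x.1‖ := by simp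
        simp only [h2]
        by_cases hxA : x.1 ∈ A
        · have : (homeomorphUnitSphereProd E x).1 ∈ (Subtype.val ⁻¹' A : Set (sphere (0 : E) 1)) := by
            rw [mem_preimage, h1, cone_mem_iff hcone (inv_pos.2 hx)]; exact hxA
          rw [indicator_of_mem hxA, indicator_of_mem this, one_mul]
        · have : (homeomorphUnitSphereProd E x).1 ∉ (Subtype.val ⁻¹' A : Set (sphere (0 : E) 1)) := by
            rw [mem_preimage, h1, cone_mem_iff hcone (inv_pos.2 hx)]; exact hxA
          rw [indicator_of_notMem hxA, indicator_of_notMem this, zero_mul]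
    _ = _ := by
        rw [integral_prod_mul
          (fun s => (Subtype.val ⁻¹' A : Set (sphere (0 : E) 1)).indicator (fun _ => (1:ℝ)) s)
          (fun y : Ioi (0:ℝ) => h y), integral_indicator hm]
        simp

lemma setIntegral_stdGaussian (A : Set E) (hA : MeasurableSet A) (f : E → ℝ) :
    ∫ x in A, f x ∂(stdGaussian E) = ∫ x in A, gdens x * f x := by
  rw [← integral_indicator hA, integral_stdGaussian, ← integral_indicator hA]
  refine integral_congr_ae (Filter.Eventually.of_forall fun x => ?_)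
  by_cases hx : x ∈ A <;> simp [hx]

/-- radial functions and cones are independent. -/
lemma cone_radial_gauss [Nontrivial E] (A : Set E) (hA : MeasurableSet A)
    (hcone : ∀ x ∈ A, ∀ r : ℝ, 0 < r → r • x ∈ A) (h : ℝ → ℝ) :
    ∫ x in A, h ‖x‖ ∂(stdGaussian E) = (stdGaussian E).real A * ∫ x, h ‖x‖ ∂(stdGaussian E) := by
  set d : ℝ → ℝ := fun r => (Real.sqrt (2 * Real.pi))⁻¹ ^ (Module.finrank ℝ E) *
    Real.exp (-r ^ 2 / 2) with hd
  have key : ∀ (B : Set E), MeasurableSet B → (∀ x ∈ B, ∀ r : ℝ, 0 < r → r • x ∈ B) →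
      ∀ g : ℝ → ℝ, ∫ x in B, g ‖x‖ ∂(stdGaussian E) =
      ((volume : Measure E).toSphere.real (Subtype.val ⁻¹' B)) *
      ∫ y : Ioi (0:ℝ), d y * g y ∂(Measure.volumeIoiPow (Module.finrank ℝ E - 1)) := by
    intro B hB hBc g
    rw [setIntegral_stdGaussian B hB, ← cone_radial B hB hBc (fun r => d r * g r)]
    rfl
  have e1 := key A hA hcone h
  have e2 := key univ MeasurableSet.univ (fun _ _ _ _ => mem_univ _) h
  have e3 := key A hA hcone (fun _ => 1)
  have e4 := key univ MeasurableSet.univ (fun _ _ _ _ => mem_univ _) (fun _ => 1)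
  simp only [Measure.restrict_univ, integral_const, smul_eq_mul, mul_one, measureReal_restrict_apply,
    MeasurableSet.univ, univ_inter, probReal_univ] at e2 e3 e4
  rw [e1, e2, e3]
  set I1 := ∫ y : Ioi (0:ℝ), d y * h y ∂(Measure.volumeIoiPow (Module.finrank ℝ E - 1))
  set I0 := ∫ y : Ioi (0:ℝ), d y ∂(Measure.volumeIoiPow (Module.finrank ℝ E - 1))
  set sA := (volume : Measure E).toSphere.real (Subtype.val ⁻¹' A)
  set sU := (volume : Measure E).toSphere.real (Subtype.val ⁻¹' univ)
  linear_combination (sA * I1) * e4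

end radial

lemma gaussianReal_std_integral (f : ℝ → ℝ) : ∫ x, f x ∂(gaussianReal 0 1) =
    ∫ x, (Real.sqrt (2 * Real.pi))⁻¹ * Real.exp (-x ^ 2 / 2) * f x := by
  rw [integral_gaussianReal_eq_integral_smul one_ne_zero]
  refine integral_congr_ae (Eventually.of_forall fun x => ?_)
  simp [gaussianPDFReal]

lemma integral_Ioi_id_gauss (a : ℝ) :
    ∫ x, (if a < x then x else 0) ∂(gaussianReal 0 1) =
      (Real.sqrt (2 * Real.pi))⁻¹ * Real.exp (-a ^ 2 / 2) := by
  rw [gaussianReal_std_integral]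
  have h1 : (fun x : ℝ => (Real.sqrt (2 * Real.pi))⁻¹ * Real.exp (-x ^ 2 / 2) *
      (if a < x then x else 0)) = (Ioi a).indicator
        (fun x => (Real.sqrt (2 * Real.pi))⁻¹ * (x * Real.exp (-x ^ 2 / 2))) := by
    ext x
    by_cases hx : a < x
    · rw [indicator_of_mem (mem_Ioi.2 hx), if_pos hx]; ring
    · rw [indicator_of_notMem (by simpa using hx), if_neg hx, mul_zero]
  rw [h1, integral_indicator measurableSet_Ioi, integral_const_mul]
  congr 1
  have hint : Integrable (fun x : ℝ => x * Real.exp (-x ^ 2 / 2)) := by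
    have := integrable_mul_exp_neg_mul_sq (b := 1 / 2) (by norm_num)
    refine this.congr (Eventually.of_forall fun x => ?_)
    simp only; congr 2; ring
  have h2 : ∀ x ∈ Ici a, HasDerivAt (fun x : ℝ => - Real.exp (-x ^ 2 / 2))
      (x * Real.exp (-x ^ 2 / 2)) x := by
    intro x _
    have h0 : HasDerivAt (fun x : ℝ => -x ^ 2 / 2) (-x) x :=
      (((hasDerivAt_pow 2 x).neg).div_const 2).congr_deriv (by norm_num; ring)
    exact (h0.exp.neg).congr_deriv (by ring)
  have h3 : Tendsto (fun x : ℝ => - Real.exp (-x ^ 2 / 2)) atTop (𝓝 0) := by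
    rw [← neg_zero]
    refine Tendsto.neg ?_
    refine Real.tendsto_exp_atBot.comp ?_
    have : Tendsto (fun x : ℝ => x ^ 2) atTop atTop := tendsto_pow_atTop (by norm_num)
    have h4 := this.atTop_div_const (by norm_num : (0:ℝ) < 2)
    have h5 := tendsto_neg_atTop_atBot.comp h4
    refine h5.congr fun x => ?_
    change -(x ^ 2 / 2) = -x ^ 2 / 2
    ring
  rw [integral_Ioi_of_hasDerivAt_of_tendsto' h2 hint.integrableOn h3]
  ring

lemma integral_exp_gauss (k : ℝ) :
    ∫ x, Real.exp (-(k ^ 2 * x ^ 2) / 2) ∂(gaussianReal 0 1) = (Real.sqrt (1 + k ^ 2))⁻¹ := by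
  rw [gaussianReal_std_integral]
  have h1 : (fun x : ℝ => (Real.sqrt (2 * Real.pi))⁻¹ * Real.exp (-x ^ 2 / 2) *
      Real.exp (-(k ^ 2 * x ^ 2) / 2)) =
      fun x => (Real.sqrt (2 * Real.pi))⁻¹ * Real.exp (-((1 + k ^ 2) / 2) * x ^ 2) := by
    ext x
    rw [mul_assoc, ← Real.exp_add]; congr 2; ring
  rw [h1, integral_const_mul, integral_gaussian]
  have : Real.pi / ((1 + k ^ 2) / 2) = (2 * Real.pi) / (1 + k ^ 2) := by
    field_simp
  rw [this, Real.sqrt_div (by positivity)]
  have h2 : Real.sqrt (2 * Real.pi) ≠ 0 := by positivity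
  field_simp


section decomp

variable {E : Type*} [NormedAddCommGroup E] [InnerProductSpace ℝ E] [FiniteDimensional ℝ E]
  [MeasurableSpace E] [BorelSpace E]

/-- product decomposition along a unit vector. -/
lemma integral_decomp (n : ℕ) (hE : Module.finrank ℝ E = n + 1) (u : E) (hu : ‖u‖ = 1)
    (f : ℝ → ℝ → ℝ) (hf : Measurable (fun p : ℝ × ℝ => f p.1 p.2)) :
    ∫ x, f ⟪x, u⟫ (‖x‖ ^ 2) ∂(stdGaussian E) =
      ∫ p : ℝ × (Fin n → ℝ), f p.1 (p.1 ^ 2 + ∑ j, p.2 j ^ 2)
        ∂((gaussianReal 0 1).prod (Measure.pi fun _ : Fin n => gaussianReal 0 1)) := by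
  obtain ⟨b, hb⟩ := Orthonormal.exists_orthonormalBasis_extension_of_card_eq (𝕜 := ℝ) (E := E)
    (ι := Fin (n + 1)) (by simp [hE]) (v := fun _ => u) (s := {0}) (by
      rw [orthonormal_iff_ite]
      rintro ⟨i, hi⟩ ⟨j, hj⟩
      simp only [mem_singleton_iff] at hi hj
      subst hi; subst hj
      simp [hu])
  have hb0 : b 0 = u := hb 0 (by simp)
  rw [stdGaussian_eq_map_pi_orthonormalBasis b, integral_map
    (Measurable.aemeasurable (by fun_prop))]
  · have hmp := measurePreserving_piFinSuccAbove (fun _ : Fin (n + 1) => gaussianReal 0 1) 0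
    rw [← hmp.integral_comp (MeasurableEquiv.measurableEmbedding _)]
    refine integral_congr_ae (Eventually.of_forall fun x => ?_)
    have e1 : ⟪∑ i, x i • b i, u⟫ = x 0 := by
      rw [← hb0, sum_inner]
      simp_rw [inner_smul_left]
      rw [Finset.sum_eq_single 0]
      · simp
      · intro i _ hi
        simp [b.inner_eq_zero hi]
      · simp
    have e2 : ‖∑ i, x i • b i‖ ^ 2 = x 0 ^ 2 + ∑ j : Fin n, x j.succ ^ 2 := by
      rw [← Fin.sum_univ_succ (fun i => x i ^ 2)]
      have := b.sum_sq_norm_inner_right (∑ i, x i • b i)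
      rw [← this]
      refine Finset.sum_congr rfl fun i _ => ?_
      rw [inner_sum]
      simp_rw [inner_smul_right]
      rw [Finset.sum_eq_single i]
      · simp [Real.norm_eq_abs, sq_abs]
      · intro j _ hj
        simp [b.inner_eq_zero (Ne.symm hj)]
      · simp
    simp only [e1, e2]
    rfl
  · have : Measurable (fun x : E => ((⟪x, u⟫, ‖x‖ ^ 2) : ℝ × ℝ)) := by fun_prop
    exact (hf.comp this).aestronglyMeasurable


lemma cone_cond {t : ℝ} (ht0 : 0 < t) (ht1 : t < 1) {R : ℝ} (hR : 0 ≤ R) (x : ℝ) :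
    t * Real.sqrt (x ^ 2 + R) < x ↔ (t / Real.sqrt (1 - t ^ 2)) * Real.sqrt R < x := by
  have h1 : 0 < 1 - t ^ 2 := by nlinarith
  have hs : 0 < Real.sqrt (1 - t ^ 2) := Real.sqrt_pos.2 h1
  have hs2 : Real.sqrt (1 - t ^ 2) ^ 2 = 1 - t ^ 2 := Real.sq_sqrt h1.le
  have hR2 : Real.sqrt R ^ 2 = R := Real.sq_sqrt hR
  have hq : Real.sqrt (x ^ 2 + R) ^ 2 = x ^ 2 + R := Real.sq_sqrt (by positivity)
  have hq0 : 0 ≤ Real.sqrt (x ^ 2 + R) := Real.sqrt_nonneg _
  have hR0 : 0 ≤ Real.sqrt R := Real.sqrt_nonneg _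
  rw [div_mul_eq_mul_div, div_lt_iff₀ hs]
  constructor
  · intro h
    have hx : 0 < x := lt_of_le_of_lt (by positivity) h
    have h2 : (t * Real.sqrt (x ^ 2 + R)) ^ 2 < x ^ 2 := by
      apply pow_lt_pow_left₀ h (by positivity) (by norm_num)
    apply lt_of_pow_lt_pow_left₀ 2 (by positivity)
    rw [mul_pow, mul_pow, hR2, hs2]
    rw [mul_pow, hq] at h2
    nlinarith
  · intro h
    have hx : 0 < x := by
      by_contra hx
      have : x * Real.sqrt (1 - t ^ 2) ≤ 0 := mul_nonpos_of_nonpos_of_nonneg (not_lt.1 hx) hs.le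
      have h3 : 0 ≤ t * Real.sqrt R := by positivity
      linarith
    have h2 : (t * Real.sqrt R) ^ 2 < (x * Real.sqrt (1 - t ^ 2)) ^ 2 := by
      apply pow_lt_pow_left₀ h (by positivity) (by norm_num)
    apply lt_of_pow_lt_pow_left₀ 2 hx.le
    rw [mul_pow, mul_pow, hR2, hs2] at h2
    rw [mul_pow, hq]
    nlinarith

lemma moment_cone (n : ℕ) (hE : Module.finrank ℝ E = n + 1) (u : E) (hu : ‖u‖ = 1)
    {t : ℝ} (ht0 : 0 < t) (ht1 : t < 1) :
    ∫ x, (if t * ‖x‖ < ⟪x, u⟫ then ⟪x, u⟫ else 0) ∂(stdGaussian E) =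
      (Real.sqrt (2 * Real.pi))⁻¹ * Real.sqrt (1 - t ^ 2) ^ n := by
  have h1 : 0 < 1 - t ^ 2 := by nlinarith
  have hs : 0 < Real.sqrt (1 - t ^ 2) := Real.sqrt_pos.2 h1
  have hs2 : Real.sqrt (1 - t ^ 2) ^ 2 = 1 - t ^ 2 := Real.sq_sqrt h1.le
  set κ := t / Real.sqrt (1 - t ^ 2) with hκ
  have hm : Measurable (fun p : ℝ × ℝ => if t * Real.sqrt p.2 < p.1 then p.1 else 0) :=
    Measurable.ite (measurableSet_lt (by fun_prop) (by fun_prop)) (by fun_prop) (by fun_prop)
  have e1 := integral_decomp n hE u hu (fun a q => if t * Real.sqrt q < a then a else 0) hm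
  simp only [Real.sqrt_sq (norm_nonneg _)] at e1
  rw [e1, integral_prod_symm]
  · have e2 : ∀ y : Fin n → ℝ, ∫ x, (if t * Real.sqrt (x ^ 2 + ∑ j, y j ^ 2) < x then x else 0)
        ∂(gaussianReal 0 1) = (Real.sqrt (2 * Real.pi))⁻¹ *
          ∏ j, Real.exp (-(κ ^ 2 * y j ^ 2) / 2) := by
      intro y
      have hR : 0 ≤ ∑ j, y j ^ 2 := Finset.sum_nonneg fun _ _ => sq_nonneg _
      simp_rw [cone_cond ht0 ht1 hR]
      rw [integral_Ioi_id_gauss, ← Real.exp_sum]
      congr 2
      rw [mul_pow, Real.sq_sqrt hR, ← Finset.sum_div, Finset.sum_neg_distrib, ← Finset.mul_sum]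
    simp only [e2]
    rw [integral_const_mul]
    congr 1
    have e3 := integral_fintype_prod_eq_prod (𝕜 := ℝ) (μ := fun _ : Fin n => gaussianReal 0 1)
      (fun (_ : Fin n) (z : ℝ) => Real.exp (-(κ ^ 2 * z ^ 2) / 2))
    rw [e3]
    simp only [integral_exp_gauss, Finset.prod_const, Finset.card_univ, Fintype.card_fin]
    congr 1
    have : 1 + κ ^ 2 = (1 - t ^ 2)⁻¹ := by
      rw [hκ, div_pow, hs2]; field_simp; ring
    rw [this, Real.sqrt_inv, inv_inv]
  · have hi : Integrable (fun x : ℝ => x) (gaussianReal 0 1) := IsGaussian.integrable_id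
    have hi2 : Integrable (fun p : ℝ × (Fin n → ℝ) => p.1)
        ((gaussianReal 0 1).prod (Measure.pi fun _ : Fin n => gaussianReal 0 1)) := hi.comp_fst _
    refine hi2.mono ?_ (Eventually.of_forall fun p => ?_)
    · have : Measurable (fun p : ℝ × (Fin n → ℝ) => (p.1, p.1 ^ 2 + ∑ j, p.2 j ^ 2)) := by
        fun_prop
      exact (hm.comp this).aestronglyMeasurable
    · split_ifs
      · exact le_rfl
      · simp


lemma layer {c : ℝ} (hc0 : 0 < c) (hc1 : c < 1) {r x : ℝ} (hr : 0 ≤ r) (hx : |x| ≤ r) :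
    max (x - c * r) 0 = ∫ t in Ioc c 1, (if t * r < x then x else 0) * (c / t ^ 2) := by
  by_cases h : c * r < x
  · have hx0 : 0 < x := lt_of_le_of_lt (by positivity) h
    have hr0 : 0 < r := lt_of_lt_of_le (abs_pos.2 hx0.ne') hx
    have hxr : x ≤ r := (le_abs_self x).trans hx
    rw [max_eq_left (by linarith)]
    set T := x / r with hT
    have hT1 : T ≤ 1 := (div_le_one hr0).2 hxr
    have hcT : c < T := (lt_div_iff₀ hr0).2 h
    have e1 : ∫ t in Ioc c 1, (if t * r < x then x else 0) * (c / t ^ 2) =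
        ∫ t in Ioc c T, x * (c / t ^ 2) := by
      rw [← integral_indicator measurableSet_Ioc, ← integral_indicator measurableSet_Ioc]
      refine integral_congr_ae ?_
      have hne : ∀ᵐ t : ℝ, t ≠ T := by
        simp [ae_iff, measure_singleton]
      filter_upwards [hne] with t ht
      by_cases h1 : t ∈ Ioc c 1
      · rw [indicator_of_mem h1]
        by_cases h2 : t * r < x
        · have h3 : t < T := (lt_div_iff₀ hr0).2 h2
          rw [indicator_of_mem (show t ∈ Ioc c T from ⟨h1.1, h3.le⟩), if_pos h2]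
        · have h3 : t ∉ Ioc c T := by
            intro h4
            exact h2 ((lt_div_iff₀ hr0).1 (lt_of_le_of_ne h4.2 ht))
          rw [indicator_of_notMem h3, if_neg h2, zero_mul]
      · have h3 : t ∉ Ioc c T := fun h4 => h1 ⟨h4.1, h4.2.trans hT1⟩
        rw [indicator_of_notMem h1, indicator_of_notMem h3]
    rw [e1, ← intervalIntegral.integral_of_le hcT.le]
    have e2 : ∀ t ∈ uIcc c T, HasDerivAt (fun t : ℝ => -(x * c) * t⁻¹) (x * (c / t ^ 2)) t := by
      intro t ht
      rw [uIcc_of_le hcT.le] at ht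
      have ht0 : t ≠ 0 := (hc0.trans_le ht.1).ne'
      exact ((hasDerivAt_inv ht0).const_mul _).congr_deriv (by field_simp)
    rw [intervalIntegral.integral_eq_sub_of_hasDerivAt e2]
    · rw [hT]; field_simp; ring
    · apply ContinuousOn.intervalIntegrable
      intro t ht
      rw [uIcc_of_le hcT.le] at ht
      have ht0 : t ≠ 0 := (hc0.trans_le ht.1).ne'
      exact ContinuousAt.continuousWithinAt (by fun_prop (disch := positivity))
  · rw [max_eq_right (by linarith)]
    symm
    rw [← integral_indicator measurableSet_Ioc]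
    have : (Ioc c 1).indicator (fun t => (if t * r < x then x else 0) * (c / t ^ 2)) =
        fun _ => 0 := by
      ext t
      by_cases h1 : t ∈ Ioc c 1
      · rw [indicator_of_mem h1, if_neg, zero_mul]
        intro h2
        have : c * r ≤ t * r := mul_le_mul_of_nonneg_right h1.1.le hr
        exact h (lt_of_le_of_lt this h2)
      · rw [indicator_of_notMem h1]
    rw [this, integral_zero]

lemma cap_integral (n : ℕ) (hE : Module.finrank ℝ E = n + 1) (u : E) (hu : ‖u‖ = 1)
    {c : ℝ} (hc0 : 0 < c) (hc1 : c < 1) :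
    ∫ x, max (⟪x, u⟫ - c * ‖x‖) 0 ∂(stdGaussian E) =
      (Real.sqrt (2 * Real.pi))⁻¹ * (c * ∫ t in c..1, Real.sqrt (1 - t ^ 2) ^ n / t ^ 2) := by
  have hxu : ∀ x : E, |⟪x, u⟫| ≤ ‖x‖ := fun x => by
    have := abs_real_inner_le_norm x u
    rwa [hu, mul_one] at this
  have e1 : ∀ x : E, max (⟪x, u⟫ - c * ‖x‖) 0 =
      ∫ t in Ioc c 1, (if t * ‖x‖ < ⟪x, u⟫ then ⟪x, u⟫ else 0) * (c / t ^ 2) :=
    fun x => layer hc0 hc1 (norm_nonneg x) (hxu x)
  simp_rw [e1]
  rw [integral_integral_swap]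
  · rw [intervalIntegral.integral_of_le hc1.le, ← integral_const_mul, ← integral_const_mul]
    refine setIntegral_congr_ae measurableSet_Ioc ?_
    have hne : ∀ᵐ t : ℝ, t ≠ 1 := by
      simp [ae_iff, measure_singleton]
    filter_upwards [hne] with t ht1 ht
    have ht1' : t < 1 := lt_of_le_of_ne ht.2 ht1
    rw [integral_mul_const, moment_cone n hE u hu (hc0.trans ht.1) ht1']
    ring
  · have hi : Integrable (fun x : E => ‖x‖) (stdGaussian E) := IsGaussian.integrable_id.norm
    have hi2 : Integrable (fun p : E × ℝ => ‖p.1‖ * c⁻¹)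
        ((stdGaussian E).prod (volume.restrict (Ioc c 1))) := (hi.comp_fst _).mul_const _
    refine hi2.mono ?_ ?_
    · have : Measurable (Function.uncurry fun (x : E) (t : ℝ) =>
          (if t * ‖x‖ < ⟪x, u⟫ then ⟪x, u⟫ else 0) * (c / t ^ 2)) := by
        refine Measurable.mul (Measurable.ite (measurableSet_lt ?_ ?_) ?_ ?_) ?_ <;> fun_prop
      exact this.aestronglyMeasurable
    · have hmem : ∀ᵐ p : E × ℝ ∂((stdGaussian E).prod (volume.restrict (Ioc c 1))),
          p.2 ∈ Ioc c 1 := by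
        have h0 : ∀ᵐ t : ℝ ∂(volume.restrict (Ioc c 1)), t ∈ Ioc c 1 :=
          ae_restrict_mem measurableSet_Ioc
        exact Measure.quasiMeasurePreserving_snd.ae h0
      filter_upwards [hmem] with p hp
      simp only [Function.uncurry]
      have hp0 : 0 < p.2 := hc0.trans hp.1
      rw [norm_mul, norm_mul, norm_norm]
      refine mul_le_mul ?_ ?_ (norm_nonneg _) (norm_nonneg _)
      · split_ifs
        · exact hxu _
        · simp
      · rw [Real.norm_of_nonneg (by positivity), Real.norm_of_nonneg (by positivity)]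
        rw [div_le_iff₀ (by positivity), inv_mul_eq_div, le_div_iff₀ hc0]
        have : c ≤ p.2 := hp.1.le
        nlinarith

end decomp

end P226
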