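import Mathlib

/-!
P226: Gaussian propeller conjecture.  Basic definitions and interface predicates.
-/

namespace P226

open MeasureTheory ProbabilityTheory Set
open scoped RealInnerProductSpace

/-- the constant `9 / (8 π)`. -/
noncomputable def CC : ℝ := 9 / (8 * Real.pi)

/-- the Mills ratio `∫_0^∞ exp (-x u - u^2/2) du`. -/
noncomputable def mills (x : ℝ) : ℝ := ∫ u in Ioi (0:ℝ), Real.exp (-(x * u) - u ^ 2 / 2)

/-- `E (Z - t)_+` for a standard normal `Z`. -/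
noncomputable def gL (t : ℝ) : ℝ := ∫ z, max (z - t) 0 ∂(gaussianReal 0 1)

section
variable {E : Type*} [NormedAddCommGroup E] [InnerProductSpace ℝ E]

/-- support function of a finite family. -/
noncomputable def gmax {k : ℕ} (w : Fin k → E) (x : E) : ℝ := ⨆ i, ⟪x, w i⟫

/-- open cell of `w i`. -/
def cell {k : ℕ} (w : Fin k → E) (i : Fin k) : Set E := {x | ∀ l, l ≠ i → ⟪x, w l⟫ < ⟪x, w i⟫}

/-- orthogonal projection onto the orthogonal complement of `b`. -/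
noncomputable def prj (b x : E) : E := x - (⟪x, b⟫ / ‖b‖ ^ 2) • b

/-- facet between the cells `i` and `l` (as a cylinder over the hyperplane orthogonal to
`w i - w l`). -/
def facet {k : ℕ} (w : Fin k → E) (i l : Fin k) : Set E :=
  {x | ∀ m, m ≠ i → m ≠ l → 0 < ⟪prj (w i - w l) x, w i - w m⟫}

variable [FiniteDimensional ℝ E] [MeasurableSpace E] [BorelSpace E]

/-- expected maximum. -/
noncomputable def Psi {k : ℕ} (w : Fin k → E) : ℝ := ∫ x, gmax w x ∂(stdGaussian E)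

/-- `w` is a critical configuration (all the information extracted from maximality and
minimality of `k`). -/
structure Crit {k : ℕ} (w : Fin k → E) : Prop where
  neg : ∀ i l, i ≠ l → ⟪w i, w l⟫ < 0
  moment : ∀ i, w i = ∫ x in cell w i, x ∂(stdGaussian E)
  sum_zero : ∑ i, w i = 0
  big : CC < ∑ i, ‖w i‖ ^ 2
  psi : Psi w = ∑ i, ‖w i‖ ^ 2
  max : ∀ w' : Fin k → E, Psi w' - 1 / 2 * ∑ i, ‖w' i‖ ^ 2 ≤ 1 / 2 * ∑ i, ‖w i‖ ^ 2

end

/-- the vector form of the inequality for `k` vectors, in all dimensions. -/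
def PK (k : ℕ) : Prop :=
  ∀ (D : ℕ) (w : Fin k → EuclideanSpace ℝ (Fin D)), Psi w ^ 2 ≤ CC * ∑ i, ‖w i‖ ^ 2

/-! Interface of the final inequality.  `σ` is the length of the projection of `w i/|w i|`
onto the facet hyperplane, `q` a lower bound for the measure of the facet, `e` is
`E[mills ⟨P x,u_i⟩ | facet] / mills 0`. -/

/-- Gaussian (dimension free) lower bound. -/
def BGauss (σ q e : ℝ) : Prop :=
  ∀ t : ℝ, 0 ≤ t → mills (σ * (t + gL t / q)) / Real.sqrt (Real.pi / 2) ≤ e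

/-- facets of dimension 2 (`k = 4`). -/
def BCone2 (σ q e : ℝ) : Prop :=
  ∀ β : ℝ, 0 < β → β ≤ Real.pi / 2 →
    1 / (1 + σ * ((Real.sin β / Real.pi - Real.cos β * (β / Real.pi)) / q + Real.cos β)) ≤ e

/-- normalised radial function in dimension 3, `G3 0 = 1`. -/
noncomputable def G3 (c : ℝ) : ℝ :=
  4 / Real.pi * ∫ a in Ioi (0:ℝ), 1 / (1 + 2 * c * a + a ^ 2) ^ 2

/-- facets of dimension 3 (`k = 5`). -/
def BCone3 (σ q e : ℝ) : Prop :=
  ∀ c : ℝ, 0 ≤ c → c ≤ 1 → G3 (σ * ((1 - c) ^ 2 / 4 / q + c)) ≤ e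

/-- facets of dimension 4 (`k = 6`; also usable for `k = 5`). -/
def BCone4 (σ q e : ℝ) : Prop :=
  ∀ β : ℝ, 0 < β → β ≤ Real.pi / 2 →
    ∀ κ : ℝ, κ = (2 * Real.sin β ^ 3 / (3 * Real.pi)
        - Real.cos β * ((β - Real.sin β * Real.cos β) / Real.pi)) / q + Real.cos β →
      (2 + σ * κ) / (2 * (1 + σ * κ) ^ 2) ≤ e

/-- facets of dimension 6 (`k = 8`; also usable for `k = 7`). -/
def BCone6 (σ q e : ℝ) : Prop :=
  ∀ β : ℝ, 0 < β → β ≤ Real.pi / 2 →
    ∀ κ : ℝ, κ = (8 * Real.sin β ^ 5 / (15 * Real.pi)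
        - Real.cos β * ((3 * β - 3 * Real.sin β * Real.cos β
            - 2 * Real.sin β ^ 3 * Real.cos β) / (3 * Real.pi))) / q + Real.cos β →
      (8 + 9 * (σ * κ) + 3 * (σ * κ) ^ 2) / (8 * (1 + σ * κ) ^ 3) ≤ e

/-- The final inequality for `k`, given the lower bound predicate `B` for facet averages.
`a i = |w i|^2 / V`, `g i l = -⟨w i, w l⟩ / V`, `p i` = measure of the cell. -/
def FinalIneq (k : ℕ) (B : ℝ → ℝ → ℝ → Prop) : Prop :=
  ∀ (a p : Fin k → ℝ) (g e : Fin k → Fin k → ℝ),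
    (∀ i, 0 < a i) → (∀ i, a i ≤ 4 / 9) → ∑ i, a i = 1 →
    (∀ i l, g i l = g l i) → (∀ i l, i ≠ l → 0 < g i l) →
    (∀ i, ∑ l ∈ Finset.univ.erase i, g i l = a i) →
    (∀ i l, i ≠ l → g i l ^ 2 < a i * a l) →
    (∀ i l, i ≠ l → 3 * Real.sqrt (a i + a l + 2 * g i l) / (2 * k) ≤ 1 / 2) →
    (∀ i l, i ≠ l → B (Real.sqrt ((a i * a l - g i l ^ 2) / (a i * (a i + a l + 2 * g i l))))
      (3 * Real.sqrt (a i + a l + 2 * g i l) / (2 * k)) (e i l)) →
    (∀ i, ∑ l ∈ Finset.univ.erase i,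
      3 / (4 * k) * ((a i + g i l) / Real.sqrt (a i)) * e i l ≤ p i) →
    (∀ i t, 0 ≤ t → Real.sqrt (CC * a i) ≤ gL t + t * p i) →
    1 < ∑ i, p i

end P226
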