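import Vale.Agent.P226.EndReal

/-!
P226: end game, real-variable form, `k ≥ 8`.
-/

namespace P226

open Finset

/-- end game for `k ≥ 8` -/
theorem end8 {k : ℕ} (hk : 8 ≤ k) {c : ℝ} (hc0 : 28209 / 100000 ≤ c) (hc1 : c ≤ 2821 / 10000)
    (S p : Fin k → ℝ) (hF : ∀ l, FH c (S l) (p l)) (hσ : 9 / 4 ≤ ∑ l, S l ^ 2) (i j : Fin k)
    (hij : i ≠ j)
    (h3 : ∀ l, ∑ m, S m ^ 2 - (S i ^ 2 + S j ^ 2) ≤ k * (k - 1) * S l ^ 2) : 1 < ∑ l, p l := by
  have hcp : 0 ≤ c := by linarith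
  have hk8 : (8 : ℝ) ≤ k := by exact_mod_cast hk
  obtain ⟨N, hN⟩ : ∃ N : ℝ, N = k * (k - 1) := ⟨_, rfl⟩
  have hN56 : 56 ≤ N := by rw [hN]; nlinarith
  have hN0 : 0 < N := by linarith
  obtain ⟨w, hw⟩ : ∃ w, w = ∑ m, S m ^ 2 - (S i ^ 2 + S j ^ 2) := ⟨_, rfl⟩
  obtain ⟨hw1, hw2, hw3⟩ := pair_large (hF i).s0 (hF i).s1 (hF j).s0 (hF j).s1 hσ hw
  rw [← hw, ← hN] at h3
  rcases le_total w (122 / 100) with hle | hge
  · obtain ⟨hSi, hSj⟩ := hw3 hle
    obtain ⟨hm0, hmw⟩ := sqrt_facts (w := w) (N := N) hN0 (by linarith)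
    obtain ⟨hM0, hMw⟩ := sqrt_facts (w := w) (N := 56) (by norm_num) (by linarith)
    have hmS : ∀ l, Real.sqrt (w / N) ≤ S l := fun l => sqrt_le_of hN0 (hF l).s0 (h3 l)
    have hMa : 33 / 500 ≤ Real.sqrt (w / 56) := le_sqrt_of (by norm_num) (by linarith)
    have hMb : Real.sqrt (w / 56) ≤ 369 / 2500 :=
      sqrt_le_of (by norm_num) (by norm_num) (by linarith)
    have hmM : Real.sqrt (w / N) ≤ Real.sqrt (w / 56) := by
      apply sqrt_le_of hN0 hM0
      calc w = 56 * Real.sqrt (w / 56) ^ 2 := hMw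
        _ ≤ N * Real.sqrt (w / 56) ^ 2 := mul_le_mul_of_nonneg_right hN56 (sq_nonneg _)
    generalize Real.sqrt (w / N) = m at hm0 hmw hmS hmM
    generalize Real.sqrt (w / 56) = M at hM0 hMw hMa hMb hmM
    have hkM : 6 * M ≤ (k - 2) * m := by
      refine (sq_le_sq₀ (by linarith) (mul_nonneg (by linarith) hm0)).1 ?_
      have h1 : 56 * M ^ 2 = N * m ^ 2 := by linarith
      have h2 : 36 * N ≤ 56 * (k - 2) ^ 2 := by rw [hN]; nlinarith
      have h3 : 36 * N * m ^ 2 ≤ 56 * (k - 2) ^ 2 * m ^ 2 :=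
        mul_le_mul_of_nonneg_right h2 (sq_nonneg _)
      nlinarith
    have key : ∀ O : ℝ, c * (w + (k - 2) * (29 / 40 * m)) ≤ O * (29 / 40 + m) →
        c * (w + 6 * (29 / 40 * M)) ≤ O * (29 / 40 + M) := by
      intro O hO
      have h1 : c * (w + 6 * (29 / 40 * M)) ≤ c * (w + (k - 2) * (29 / 40 * m)) :=
        mul_le_mul_of_nonneg_left (by linarith) hcp
      have h2 : 0 ≤ c * (w + 6 * (29 / 40 * M)) := mul_nonneg hcp (by linarith)
      have h3 : 0 ≤ O := by
        by_contra hcon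
        push Not at hcon
        have : O * (29 / 40 + m) < 0 := mul_neg_of_neg_of_pos hcon (by linarith)
        linarith
      have h4 : O * (29 / 40 + m) ≤ O * (29 / 40 + M) :=
        mul_le_mul_of_nonneg_left (by linarith) h3
      linarith
    rcases le_total M (21 / 200) with h | h
    · have ho := others S p i j hij (c := c) (s0 := 29 / 40) (m := m)
        (fun l => e8_oth0 (hF l) hcp hc1 hm0 (hmM.trans h) (hmS l))
      rw [← hw] at ho
      exact finish (by norm_num) hw2 hMw (e8_pair0 (hF i) hc0 hSi) (e8_pair0 (hF j) hc0 hSj)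
        (by linarith) (key _ ho) (e8_fin0 hc0 hMa h)
    · have ho := others S p i j hij (c := c) (s0 := 29 / 40) (m := m)
        (fun l => e8_oth1 (hF l) hcp hc1 hm0 (hmM.trans hMb) (hmS l))
      rw [← hw] at ho
      exact finish (by norm_num) hw2 hMw (e8_pair1 (hF i) hc0 hSi) (e8_pair1 (hF j) hc0 hSj)
        (by linarith) (key _ ho) (e8_fin1 hc0 h hMb)
  · obtain ⟨hm0, hmw⟩ := sqrt_facts (w := 122 / 100) (N := N) hN0 (by norm_num)
    have hmS : ∀ l, Real.sqrt (122 / 100 / N) ≤ S l := fun l =>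
      sqrt_le_of hN0 (hF l).s0 (hge.trans (h3 l))
    have hmb : Real.sqrt (122 / 100 / N) ≤ 369 / 2500 :=
      sqrt_le_of hN0 (by norm_num) (by nlinarith)
    generalize Real.sqrt (122 / 100 / N) = m at hm0 hmw hmS hmb
    have ha := all_cells S p (c := c) (s0 := 29 / 40) (m := m)
      (fun l => e8_oth1 (hF l) hcp hc1 hm0 hmb (hmS l))
    have hX : 11045 / 10000 + m / 2 ≤ k * m := by
      by_contra hcon
      push Not at hcon
      have h1 : k * m * (k * m - m) = 122 / 100 := by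
        rw [hmw, hN]; ring
      have h2 : 0 ≤ k * m - m := by nlinarith
      nlinarith
    by_contra hcon
    push Not at hcon
    have h5 : (∑ l, p l) * (29 / 40 + m) ≤ 1 * (29 / 40 + m) :=
      mul_le_mul_of_nonneg_right hcon (by linarith)
    have h6 : c * (9 / 4 + 29 / 40 * (11045 / 10000 + m / 2)) ≤
        c * (∑ l, S l ^ 2 + k * (29 / 40 * m)) :=
      mul_le_mul_of_nonneg_left (by nlinarith) hcp
    have h7 : 28209 / 100000 * (9 / 4 + 29 / 40 * (11045 / 10000 + m / 2)) ≤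
        c * (9 / 4 + 29 / 40 * (11045 / 10000 + m / 2)) :=
      mul_le_mul_of_nonneg_right hc0 (by positivity)
    nlinarith

end P226
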