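import Mathlib

/-!
P226: end game, real-variable form, `k = 4`.
-/

namespace P226

/-- facts on one cell, `k = 4`: `S = 1 - y²`, `p ≥ (1 - y)/2`. -/
structure F4 (c S p : ℝ) : Prop where
  s0 : 0 ≤ S
  s1 : S ≤ 1
  hc : c * S ≤ p
  cap : ∀ t : ℝ, 0 ≤ t → t ≤ 1 → S ≤ 1 + t ^ 2 - 4 * t * (1 / 2 - p)

theorem F4.exists_y {c S p : ℝ} (h : F4 c S p) :
    ∃ y : ℝ, 0 ≤ y ∧ y ≤ 1 ∧ S = 1 - y ^ 2 ∧ (1 - y) / 2 ≤ p := by
  have h0 := h.s0
  have h1 := h.s1
  refine ⟨Real.sqrt (1 - S), Real.sqrt_nonneg _, ?_, ?_, ?_⟩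
  · rw [Real.sqrt_le_one]
    linarith
  · rw [Real.sq_sqrt (by linarith)]
    ring
  · have hy0 := Real.sqrt_nonneg (1 - S)
    have hy1 : Real.sqrt (1 - S) ≤ 1 := by
      rw [Real.sqrt_le_one]
      linarith
    have hsq : Real.sqrt (1 - S) ^ 2 = 1 - S := Real.sq_sqrt (by linarith)
    generalize Real.sqrt (1 - S) = y at hy0 hy1 hsq
    rcases eq_or_lt_of_le hy0 with h2 | h2
    · subst h2
      -- S = 1
      by_contra hcon
      push Not at hcon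
      have hp0 : p < 1 / 2 := by linarith
      have hS : S = 1 := by linarith
      have h3 := h.cap (min 1 (1 / 2 - p)) (le_min (by norm_num) (by linarith)) (min_le_left _ _)
      have h4 : 0 < min 1 (1 / 2 - p) := lt_min (by norm_num) (by linarith)
      have h5 := min_le_right 1 (1 / 2 - p)
      generalize min 1 (1 / 2 - p) = t at h3 h4 h5
      nlinarith
    · have h3 := h.cap y hy0 hy1
      have h4 : y * (4 * (1 / 2 - p)) ≤ y * (2 * y) := by nlinarith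
      have := le_of_mul_le_mul_left h4 h2
      linarith

/-- tangent line at `S = 3/4` -/
theorem f4_lineA {c S p : ℝ} (h : F4 c S p) (hS : 475 / 1000 ≤ S) :
    1 / 4 + 1 / 3 * (S ^ 2 - 9 / 16) ≤ p := by
  obtain ⟨y, hy0, hy1, hSy, hp⟩ := h.exists_y
  have hy : y ≤ 7246 / 10000 := by nlinarith
  have h1 : 0 ≤ (y - 1 / 2) ^ 2 * (5 / 12 - y / 3 - y ^ 2 / 3) := by
    apply mul_nonneg (sq_nonneg _)
    nlinarith
  subst hSy
  nlinarith

/-- tangent line at `y = 39/100` -/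
theorem f4_lineB {c S p : ℝ} (h : F4 c S p) (hS : 172 / 1000 ≤ S) :
    332 / 10000 + 378 / 1000 * S ^ 2 ≤ p := by
  obtain ⟨y, hy0, hy1, hSy, hp⟩ := h.exists_y
  have hy : y ≤ 91 / 100 := by nlinarith
  subst hSy
  refine le_trans ?_ hp
  nlinarith [mul_nonneg (sq_nonneg (y - 39 / 100)) (sub_nonneg.2 hy), mul_nonneg hy0 (sq_nonneg (y - 39 / 100)), mul_nonneg hy0 (mul_nonneg (sq_nonneg (y - 39 / 100)) (sub_nonneg.2 hy))]

/-- tangent line with slope `399/1000` -/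
theorem f4_lineC {c S p : ℝ} (h : F4 c S p) (hS : 4 / 10 ≤ S) :
    177 / 10000 + 399 / 1000 * S ^ 2 ≤ p := by
  obtain ⟨y, hy0, hy1, hSy, hp⟩ := h.exists_y
  have hy : y ≤ 775 / 1000 := by nlinarith
  subst hSy
  refine le_trans ?_ hp
  nlinarith [mul_nonneg (sq_nonneg (y - 36 / 100)) (sub_nonneg.2 hy), mul_nonneg hy0 (sq_nonneg (y - 36 / 100)), mul_nonneg hy0 (mul_nonneg (sq_nonneg (y - 36 / 100)) (sub_nonneg.2 hy))]

/-- tangent line with slope `357/1000` -/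
theorem f4_lineD {c S p : ℝ} (h : F4 c S p) (hS : 4 / 10 ≤ S) :
    478 / 10000 + 357 / 1000 * S ^ 2 ≤ p := by
  obtain ⟨y, hy0, hy1, hSy, hp⟩ := h.exists_y
  have hy : y ≤ 775 / 1000 := by nlinarith
  subst hSy
  refine le_trans ?_ hp
  nlinarith [mul_nonneg (sq_nonneg (y - 43 / 100)) (sub_nonneg.2 hy), mul_nonneg hy0 (sq_nonneg (y - 43 / 100)), mul_nonneg hy0 (mul_nonneg (sq_nonneg (y - 43 / 100)) (sub_nonneg.2 hy))]

/-- a cell with `x = S² ≥ 99/100` -/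
theorem f4_big {c S p : ℝ} (h : F4 c S p) (hS : 99 / 100 ≤ S ^ 2) : 46 / 100 ≤ p := by
  obtain ⟨y, hy0, hy1, hSy, hp⟩ := h.exists_y
  have h0 := h.s0
  have h1 : 994 / 1000 ≤ S := by nlinarith
  have hy : y ≤ 8 / 100 := by nlinarith
  linarith

theorem f4_mid {c S p : ℝ} (h : F4 c S p) (hS : 22 / 100 ≤ S ^ 2) : 13 / 100 ≤ p := by
  obtain ⟨y, hy0, hy1, hSy, hp⟩ := h.exists_y
  have h0 := h.s0
  have h1 : 469 / 1000 ≤ S := by nlinarith
  have hy : y ≤ 73 / 100 := by nlinarith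
  linarith

/-- linear lower bound of the smallest cell -/
theorem f4_cap {c S p : ℝ} (h : F4 c S p) : S / (4 * (3 / 4)) - 1 / 48 ≤ p := by
  have := h.cap (3 / 4) (by norm_num) (by norm_num)
  linarith

theorem end4_core {c Sa Sb Sc Sd pa pb pc pd : ℝ} (hc0 : 28209 / 100000 ≤ c)
    (ha : F4 c Sa pa) (hb : F4 c Sb pb) (hc : F4 c Sc pc) (hd : F4 c Sd pd)
    (hda : Sd ≤ Sa) (hdb : Sd ≤ Sb) (hdc : Sd ≤ Sc)
    (hσ : 9 / 4 < Sa ^ 2 + Sb ^ 2 + Sc ^ 2 + Sd ^ 2)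
    (h3 : (Sa ^ 2 + Sb ^ 2 + Sc ^ 2 + Sd ^ 2) / 2 ≤ 12 * Sd ^ 2 + Sa ^ 2 - Sb ^ 2) :
    1 < pa + pb + pc + pd := by
  have hd0 := hd.s0
  have hpd : 28209 / 100000 * Sd ≤ pd :=
    le_trans (mul_le_mul_of_nonneg_right hc0 hd0) hd.hc
  rcases le_total (475 / 1000) Sd with hA | hA
  · have h1 := f4_lineA ha (hA.trans hda)
    have h2 := f4_lineA hb (hA.trans hdb)
    have h4 := f4_lineA hc (hA.trans hdc)
    have h5 := f4_lineA hd hA
    linarith
  rcases le_total (29 / 100) Sd with hB | hB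
  · have h1 := f4_lineB ha (le_trans (by linarith) hda)
    have h2 := f4_lineB hb (le_trans (by linarith) hdb)
    have h4 := f4_lineB hc (le_trans (by linarith) hdc)
    rcases le_total Sd (4 / 10) with hC | hC
    · have hq : 1 < 996 / 10000 + 378 / 1000 * (9 / 4 - Sd ^ 2) + 28209 / 100000 * Sd := by
        clear h1 h2 h4 h3 hσ
        nlinarith [mul_nonneg (sub_nonneg.2 hB) (sub_nonneg.2 hC)]
      linarith
    · have h5 := f4_cap hd
      have hq : 1 < 996 / 10000 + 378 / 1000 * (9 / 4 - Sd ^ 2) + (Sd / (4 * (3 / 4)) - 1 / 48) := by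
        clear h1 h2 h4 h3 hσ
        nlinarith [mul_nonneg (sub_nonneg.2 hC) (sub_nonneg.2 hA)]
      linarith
  have hxa : Sa ^ 2 ≤ 1 := by nlinarith [ha.s0, ha.s1]
  have hxc : Sc ^ 2 ≤ 1 := by nlinarith [hc.s0, hc.s1]
  rcases le_total (172 / 1000) Sd with hD | hD
  · have hxd : Sd ^ 2 ≤ 841 / 10000 := by nlinarith
    have hxb : 16 / 100 ≤ Sb ^ 2 := by linarith
    have hb4 : 4 / 10 ≤ Sb := by nlinarith [hb.s0]
    have ha4 : 4 / 10 ≤ Sa := by nlinarith [ha.s0]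
    have hc4 : 4 / 10 ≤ Sc := by nlinarith [hc.s0]
    have h1 := f4_lineC ha ha4
    have h2 := f4_lineD hb hb4
    have h4 := f4_lineB hc (by linarith)
    have hq : 1 < 987 / 10000 + 378 / 1000 * (9 / 4 - Sd ^ 2) + 21 / 1000 * (9 / 8 - 12 * Sd ^ 2)
        + 28209 / 100000 * Sd := by
      clear h1 h2 h4 hb4 ha4 hc4 hxb hxa hxc h3 hσ
      nlinarith [mul_nonneg (sub_nonneg.2 hD) (sub_nonneg.2 hB)]
    linarith
  · have hxd : Sd ^ 2 ≤ 296 / 10000 := by nlinarith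
    have h1 := f4_big ha (by linarith)
    have h2 := f4_big hc (by linarith)
    have h4 := f4_mid hb (by linarith)
    linarith

end P226
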