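import Mathlib

/-!
P226: end game, numerical lemmas for one cell (generated).
-/

set_option linter.unusedVariables false

namespace P226

/-- linear facts on one cell, half-space version (k ≥ 7) -/
structure FH (c S p : ℝ) : Prop where
  s0 : 0 ≤ S
  s1 : S ≤ 1
  hc : c * S ≤ p
  t0 : 4749/10000 * S - 667/5000 ≤ p
  t1 : 5319/10000 * S - 7/40 ≤ p
  t2 : 1209/2000 * S - 579/2500 ≤ p
  t3 : 1781/2500 * S - 3213/10000 ≤ p
  t4 : 4433/5000 * S - 4749/10000 ≤ p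
  t5 : 6649/5000 * S - 8893/10000 ≤ p

theorem e7_pair0 {c S p : ℝ} (h : FH c S p) (hc : 28209 / 100000 ≤ c)
    (hS : 173 / 1000 ≤ S) : (-93/1250) + 49/100 * S ^ 2 ≤ p := by
  have h1 := h.s1
  rcases le_total S (409/500) with u1 | l1
  · have hp := h.t0
    nlinarith [mul_nonneg (sub_nonneg.2 hS) (sub_nonneg.2 u1)]
  rcases le_total S (883/1000) with u2 | l2
  · have hp := h.t3
    nlinarith [mul_nonneg (sub_nonneg.2 l1) (sub_nonneg.2 u2)]
  rcases le_total S (469/500) with u3 | l3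
  · have hp := h.t4
    nlinarith [mul_nonneg (sub_nonneg.2 l2) (sub_nonneg.2 u3)]
  · have hp := h.t5
    nlinarith [mul_nonneg (sub_nonneg.2 l3) (sub_nonneg.2 h1)]

theorem e7_oth0 {c S p m : ℝ} (h : FH c S p) (hc0 : 0 ≤ c) (hc : c ≤ 2821 / 10000)
    (hm1 : 77/1000 ≤ m) (hm2 : m ≤ 14/125) (hS : m ≤ S) :
    c * (S ^ 2 + 703/1000 * m) ≤ p * (703/1000 + m) := by
  have h1 := h.s1
  have hD : 0 ≤ 703/1000 + m := by linarith
  have hS0 := h.s0
  have hm0 : 0 ≤ m := by linarith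
  rcases le_total S (703/1000) with u0 | l0
  · have h2 := mul_le_mul_of_nonneg_right h.hc hD
    nlinarith [mul_nonneg hc0 (mul_nonneg (sub_nonneg.2 hS) (sub_nonneg.2 u0))]
  have hq : c * (S ^ 2 + 703/1000 * m) ≤ 2821 / 10000 * (S ^ 2 + 703/1000 * m) :=
    mul_le_mul_of_nonneg_right hc (by positivity)
  refine hq.trans ?_
  rcases le_total S (783/1000) with u1 | l1
  · have hp := mul_le_mul_of_nonneg_right h.t1 hD
    nlinarith [mul_nonneg (sub_nonneg.2 l0) (sub_nonneg.2 u1),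
      mul_nonneg (sub_nonneg.2 l0) (sub_nonneg.2 hm1), mul_nonneg (sub_nonneg.2 l0) (sub_nonneg.2 hm2),
      mul_nonneg (sub_nonneg.2 u1) (sub_nonneg.2 hm1), mul_nonneg (sub_nonneg.2 u1) (sub_nonneg.2 hm2)]
  rcases le_total S (449/500) with u2 | l2
  · have hp := mul_le_mul_of_nonneg_right h.t2 hD
    nlinarith [mul_nonneg (sub_nonneg.2 l1) (sub_nonneg.2 u2),
      mul_nonneg (sub_nonneg.2 l1) (sub_nonneg.2 hm1), mul_nonneg (sub_nonneg.2 l1) (sub_nonneg.2 hm2),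
      mul_nonneg (sub_nonneg.2 u2) (sub_nonneg.2 hm1), mul_nonneg (sub_nonneg.2 u2) (sub_nonneg.2 hm2)]
  · have hp := mul_le_mul_of_nonneg_right h.t3 hD
    nlinarith [mul_nonneg (sub_nonneg.2 l2) (sub_nonneg.2 h1),
      mul_nonneg (sub_nonneg.2 l2) (sub_nonneg.2 hm1), mul_nonneg (sub_nonneg.2 l2) (sub_nonneg.2 hm2),
      mul_nonneg (sub_nonneg.2 h1) (sub_nonneg.2 hm1), mul_nonneg (sub_nonneg.2 h1) (sub_nonneg.2 hm2)]

theorem e7_fin0 {c m : ℝ} (hc : 28209 / 100000 ≤ c) (hm1 : 77/1000 ≤ m) (hm2 : m ≤ 14/125) :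
    703/1000 + m < (2 * (-93/1250) + 49/100 * (9 / 4 - 42 * m ^ 2)) * (703/1000 + m)
      + c * (42 * m ^ 2 + 5 * (703/1000 * m)) := by
  have hm0 : 0 ≤ m := by linarith
  have hq : 28209 / 100000 * (42 * m ^ 2 + 5 * (703/1000 * m)) ≤ c * (42 * m ^ 2 + 5 * (703/1000 * m)) :=
    mul_le_mul_of_nonneg_right hc (by positivity)
  nlinarith [mul_nonneg (sub_nonneg.2 hm1) (sub_nonneg.2 hm2),
    mul_nonneg hm0 (mul_nonneg (sub_nonneg.2 hm1) (sub_nonneg.2 hm2))]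

theorem e7_pair1 {c S p : ℝ} (h : FH c S p) (hc : 28209 / 100000 ≤ c)
    (hS : 173 / 1000 ≤ S) : (-229/10000) + 53/125 * S ^ 2 ≤ p := by
  have h1 := h.s1
  rcases le_total S (369/500) with u1 | l1
  · have hp : 28209 / 100000 * S ≤ p := le_trans (mul_le_mul_of_nonneg_right hc h.s0) h.hc
    nlinarith [mul_nonneg (sub_nonneg.2 hS) (sub_nonneg.2 u1)]
  rcases le_total S (419/500) with u2 | l2
  · have hp := h.t2
    nlinarith [mul_nonneg (sub_nonneg.2 l1) (sub_nonneg.2 u2)]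
  rcases le_total S (883/1000) with u3 | l3
  · have hp := h.t3
    nlinarith [mul_nonneg (sub_nonneg.2 l2) (sub_nonneg.2 u3)]
  · have hp := h.t4
    nlinarith [mul_nonneg (sub_nonneg.2 l3) (sub_nonneg.2 h1)]

theorem e7_oth1 {c S p m : ℝ} (h : FH c S p) (hc0 : 0 ≤ c) (hc : c ≤ 2821 / 10000)
    (hm1 : 14/125 ≤ m) (hm2 : m ≤ 13/100) (hS : m ≤ S) :
    c * (S ^ 2 + 697/1000 * m) ≤ p * (697/1000 + m) := by
  have h1 := h.s1
  have hD : 0 ≤ 697/1000 + m := by linarith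
  have hS0 := h.s0
  have hm0 : 0 ≤ m := by linarith
  rcases le_total S (697/1000) with u0 | l0
  · have h2 := mul_le_mul_of_nonneg_right h.hc hD
    nlinarith [mul_nonneg hc0 (mul_nonneg (sub_nonneg.2 hS) (sub_nonneg.2 u0))]
  have hq : c * (S ^ 2 + 697/1000 * m) ≤ 2821 / 10000 * (S ^ 2 + 697/1000 * m) :=
    mul_le_mul_of_nonneg_right hc (by positivity)
  refine hq.trans ?_
  rcases le_total S (183/250) with u1 | l1
  · have hp := mul_le_mul_of_nonneg_right h.t0 hD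
    nlinarith [mul_nonneg (sub_nonneg.2 l0) (sub_nonneg.2 u1),
      mul_nonneg (sub_nonneg.2 l0) (sub_nonneg.2 hm1), mul_nonneg (sub_nonneg.2 l0) (sub_nonneg.2 hm2),
      mul_nonneg (sub_nonneg.2 u1) (sub_nonneg.2 hm1), mul_nonneg (sub_nonneg.2 u1) (sub_nonneg.2 hm2)]
  rcases le_total S (401/500) with u2 | l2
  · have hp := mul_le_mul_of_nonneg_right h.t1 hD
    nlinarith [mul_nonneg (sub_nonneg.2 l1) (sub_nonneg.2 u2),
      mul_nonneg (sub_nonneg.2 l1) (sub_nonneg.2 hm1), mul_nonneg (sub_nonneg.2 l1) (sub_nonneg.2 hm2),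
      mul_nonneg (sub_nonneg.2 u2) (sub_nonneg.2 hm1), mul_nonneg (sub_nonneg.2 u2) (sub_nonneg.2 hm2)]
  rcases le_total S (481/500) with u3 | l3
  · have hp := mul_le_mul_of_nonneg_right h.t2 hD
    nlinarith [mul_nonneg (sub_nonneg.2 l2) (sub_nonneg.2 u3),
      mul_nonneg (sub_nonneg.2 l2) (sub_nonneg.2 hm1), mul_nonneg (sub_nonneg.2 l2) (sub_nonneg.2 hm2),
      mul_nonneg (sub_nonneg.2 u3) (sub_nonneg.2 hm1), mul_nonneg (sub_nonneg.2 u3) (sub_nonneg.2 hm2)]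
  · have hp := mul_le_mul_of_nonneg_right h.t3 hD
    nlinarith [mul_nonneg (sub_nonneg.2 l3) (sub_nonneg.2 h1),
      mul_nonneg (sub_nonneg.2 l3) (sub_nonneg.2 hm1), mul_nonneg (sub_nonneg.2 l3) (sub_nonneg.2 hm2),
      mul_nonneg (sub_nonneg.2 h1) (sub_nonneg.2 hm1), mul_nonneg (sub_nonneg.2 h1) (sub_nonneg.2 hm2)]

theorem e7_fin1 {c m : ℝ} (hc : 28209 / 100000 ≤ c) (hm1 : 14/125 ≤ m) (hm2 : m ≤ 13/100) :
    697/1000 + m < (2 * (-229/10000) + 53/125 * (9 / 4 - 42 * m ^ 2)) * (697/1000 + m)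
      + c * (42 * m ^ 2 + 5 * (697/1000 * m)) := by
  have hm0 : 0 ≤ m := by linarith
  have hq : 28209 / 100000 * (42 * m ^ 2 + 5 * (697/1000 * m)) ≤ c * (42 * m ^ 2 + 5 * (697/1000 * m)) :=
    mul_le_mul_of_nonneg_right hc (by positivity)
  nlinarith [mul_nonneg (sub_nonneg.2 hm1) (sub_nonneg.2 hm2),
    mul_nonneg hm0 (mul_nonneg (sub_nonneg.2 hm1) (sub_nonneg.2 hm2))]

theorem e7_pair2 {c S p : ℝ} (h : FH c S p) (hc : 28209 / 100000 ≤ c)
    (hS : 173 / 1000 ≤ S) : (-57/10000) + 2/5 * S ^ 2 ≤ p := by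
  have h1 := h.s1
  rcases le_total S (723/1000) with u1 | l1
  · have hp : 28209 / 100000 * S ≤ p := le_trans (mul_le_mul_of_nonneg_right hc h.s0) h.hc
    nlinarith [mul_nonneg (sub_nonneg.2 hS) (sub_nonneg.2 u1)]
  rcases le_total S (833/1000) with u2 | l2
  · have hp := h.t2
    nlinarith [mul_nonneg (sub_nonneg.2 l1) (sub_nonneg.2 u2)]
  rcases le_total S (953/1000) with u3 | l3
  · have hp := h.t3
    nlinarith [mul_nonneg (sub_nonneg.2 l2) (sub_nonneg.2 u3)]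
  · have hp := h.t4
    nlinarith [mul_nonneg (sub_nonneg.2 l3) (sub_nonneg.2 h1)]

theorem e7_oth2 {c S p m : ℝ} (h : FH c S p) (hc0 : 0 ≤ c) (hc : c ≤ 2821 / 10000)
    (hm1 : 13/100 ≤ m) (hm2 : m ≤ 29/200) (hS : m ≤ S) :
    c * (S ^ 2 + 139/200 * m) ≤ p * (139/200 + m) := by
  have h1 := h.s1
  have hD : 0 ≤ 139/200 + m := by linarith
  have hS0 := h.s0
  have hm0 : 0 ≤ m := by linarith
  rcases le_total S (139/200) with u0 | l0
  · have h2 := mul_le_mul_of_nonneg_right h.hc hD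
    nlinarith [mul_nonneg hc0 (mul_nonneg (sub_nonneg.2 hS) (sub_nonneg.2 u0))]
  have hq : c * (S ^ 2 + 139/200 * m) ≤ 2821 / 10000 * (S ^ 2 + 139/200 * m) :=
    mul_le_mul_of_nonneg_right hc (by positivity)
  refine hq.trans ?_
  rcases le_total S (147/200) with u1 | l1
  · have hp := mul_le_mul_of_nonneg_right h.t0 hD
    nlinarith [mul_nonneg (sub_nonneg.2 l0) (sub_nonneg.2 u1),
      mul_nonneg (sub_nonneg.2 l0) (sub_nonneg.2 hm1), mul_nonneg (sub_nonneg.2 l0) (sub_nonneg.2 hm2),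
      mul_nonneg (sub_nonneg.2 u1) (sub_nonneg.2 hm1), mul_nonneg (sub_nonneg.2 u1) (sub_nonneg.2 hm2)]
  rcases le_total S (83/100) with u2 | l2
  · have hp := mul_le_mul_of_nonneg_right h.t1 hD
    nlinarith [mul_nonneg (sub_nonneg.2 l1) (sub_nonneg.2 u2),
      mul_nonneg (sub_nonneg.2 l1) (sub_nonneg.2 hm1), mul_nonneg (sub_nonneg.2 l1) (sub_nonneg.2 hm2),
      mul_nonneg (sub_nonneg.2 u2) (sub_nonneg.2 hm1), mul_nonneg (sub_nonneg.2 u2) (sub_nonneg.2 hm2)]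
  · have hp := mul_le_mul_of_nonneg_right h.t2 hD
    nlinarith [mul_nonneg (sub_nonneg.2 l2) (sub_nonneg.2 h1),
      mul_nonneg (sub_nonneg.2 l2) (sub_nonneg.2 hm1), mul_nonneg (sub_nonneg.2 l2) (sub_nonneg.2 hm2),
      mul_nonneg (sub_nonneg.2 h1) (sub_nonneg.2 hm1), mul_nonneg (sub_nonneg.2 h1) (sub_nonneg.2 hm2)]

theorem e7_fin2 {c m : ℝ} (hc : 28209 / 100000 ≤ c) (hm1 : 13/100 ≤ m) (hm2 : m ≤ 29/200) :
    139/200 + m < (2 * (-57/10000) + 2/5 * (9 / 4 - 42 * m ^ 2)) * (139/200 + m)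
      + c * (42 * m ^ 2 + 5 * (139/200 * m)) := by
  have hm0 : 0 ≤ m := by linarith
  have hq : 28209 / 100000 * (42 * m ^ 2 + 5 * (139/200 * m)) ≤ c * (42 * m ^ 2 + 5 * (139/200 * m)) :=
    mul_le_mul_of_nonneg_right hc (by positivity)
  nlinarith [mul_nonneg (sub_nonneg.2 hm1) (sub_nonneg.2 hm2),
    mul_nonneg hm0 (mul_nonneg (sub_nonneg.2 hm1) (sub_nonneg.2 hm2))]

theorem e7_pair3 {c S p : ℝ} (h : FH c S p) (hc : 28209 / 100000 ≤ c)
    (hS : 173 / 1000 ≤ S) : 67/5000 + 93/250 * S ^ 2 ≤ p := by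
  have h1 := h.s1
  rcases le_total S (703/1000) with u1 | l1
  · have hp : 28209 / 100000 * S ≤ p := le_trans (mul_le_mul_of_nonneg_right hc h.s0) h.hc
    nlinarith [mul_nonneg (sub_nonneg.2 hS) (sub_nonneg.2 u1)]
  rcases le_total S (783/1000) with u2 | l2
  · have hp := h.t1
    nlinarith [mul_nonneg (sub_nonneg.2 l1) (sub_nonneg.2 u2)]
  rcases le_total S (106/125) with u3 | l3
  · have hp := h.t2
    nlinarith [mul_nonneg (sub_nonneg.2 l2) (sub_nonneg.2 u3)]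
  · have hp := h.t3
    nlinarith [mul_nonneg (sub_nonneg.2 l3) (sub_nonneg.2 h1)]

theorem e7_oth3 {c S p m : ℝ} (h : FH c S p) (hc0 : 0 ≤ c) (hc : c ≤ 2821 / 10000)
    (hm1 : 29/200 ≤ m) (hm2 : m ≤ 341/2000) (hS : m ≤ S) :
    c * (S ^ 2 + 693/1000 * m) ≤ p * (693/1000 + m) := by
  have h1 := h.s1
  have hD : 0 ≤ 693/1000 + m := by linarith
  have hS0 := h.s0
  have hm0 : 0 ≤ m := by linarith
  rcases le_total S (693/1000) with u0 | l0
  · have h2 := mul_le_mul_of_nonneg_right h.hc hD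
    nlinarith [mul_nonneg hc0 (mul_nonneg (sub_nonneg.2 hS) (sub_nonneg.2 u0))]
  have hq : c * (S ^ 2 + 693/1000 * m) ≤ 2821 / 10000 * (S ^ 2 + 693/1000 * m) :=
    mul_le_mul_of_nonneg_right hc (by positivity)
  refine hq.trans ?_
  rcases le_total S (733/1000) with u1 | l1
  · have hp := mul_le_mul_of_nonneg_right h.t0 hD
    nlinarith [mul_nonneg (sub_nonneg.2 l0) (sub_nonneg.2 u1),
      mul_nonneg (sub_nonneg.2 l0) (sub_nonneg.2 hm1), mul_nonneg (sub_nonneg.2 l0) (sub_nonneg.2 hm2),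
      mul_nonneg (sub_nonneg.2 u1) (sub_nonneg.2 hm1), mul_nonneg (sub_nonneg.2 u1) (sub_nonneg.2 hm2)]
  rcases le_total S (106/125) with u2 | l2
  · have hp := mul_le_mul_of_nonneg_right h.t1 hD
    nlinarith [mul_nonneg (sub_nonneg.2 l1) (sub_nonneg.2 u2),
      mul_nonneg (sub_nonneg.2 l1) (sub_nonneg.2 hm1), mul_nonneg (sub_nonneg.2 l1) (sub_nonneg.2 hm2),
      mul_nonneg (sub_nonneg.2 u2) (sub_nonneg.2 hm1), mul_nonneg (sub_nonneg.2 u2) (sub_nonneg.2 hm2)]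
  · have hp := mul_le_mul_of_nonneg_right h.t2 hD
    nlinarith [mul_nonneg (sub_nonneg.2 l2) (sub_nonneg.2 h1),
      mul_nonneg (sub_nonneg.2 l2) (sub_nonneg.2 hm1), mul_nonneg (sub_nonneg.2 l2) (sub_nonneg.2 hm2),
      mul_nonneg (sub_nonneg.2 h1) (sub_nonneg.2 hm1), mul_nonneg (sub_nonneg.2 h1) (sub_nonneg.2 hm2)]

theorem e7_fin3 {c m : ℝ} (hc : 28209 / 100000 ≤ c) (hm1 : 29/200 ≤ m) (hm2 : m ≤ 341/2000) :
    693/1000 + m < (2 * (67/5000) + 93/250 * (9 / 4 - 42 * m ^ 2)) * (693/1000 + m)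
      + c * (42 * m ^ 2 + 5 * (693/1000 * m)) := by
  have hm0 : 0 ≤ m := by linarith
  have hq : 28209 / 100000 * (42 * m ^ 2 + 5 * (693/1000 * m)) ≤ c * (42 * m ^ 2 + 5 * (693/1000 * m)) :=
    mul_le_mul_of_nonneg_right hc (by positivity)
  nlinarith [mul_nonneg (sub_nonneg.2 hm1) (sub_nonneg.2 hm2),
    mul_nonneg hm0 (mul_nonneg (sub_nonneg.2 hm1) (sub_nonneg.2 hm2))]

theorem e8_pair0 {c S p : ℝ} (h : FH c S p) (hc : 28209 / 100000 ≤ c)
    (hS : 173 / 1000 ≤ S) : (-727/10000) + 61/125 * S ^ 2 ≤ p := by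
  have h1 := h.s1
  rcases le_total S (409/500) with u1 | l1
  · have hp := h.t0
    nlinarith [mul_nonneg (sub_nonneg.2 hS) (sub_nonneg.2 u1)]
  rcases le_total S (439/500) with u2 | l2
  · have hp := h.t3
    nlinarith [mul_nonneg (sub_nonneg.2 l1) (sub_nonneg.2 u2)]
  rcases le_total S (469/500) with u3 | l3
  · have hp := h.t4
    nlinarith [mul_nonneg (sub_nonneg.2 l2) (sub_nonneg.2 u3)]
  · have hp := h.t5
    nlinarith [mul_nonneg (sub_nonneg.2 l3) (sub_nonneg.2 h1)]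

theorem e8_oth0 {c S p m : ℝ} (h : FH c S p) (hc0 : 0 ≤ c) (hc : c ≤ 2821 / 10000)
    (hm1 : 0 ≤ m) (hm2 : m ≤ 21/200) (hS : m ≤ S) :
    c * (S ^ 2 + 29/40 * m) ≤ p * (29/40 + m) := by
  have h1 := h.s1
  have hD : 0 ≤ 29/40 + m := by linarith
  have hS0 := h.s0
  have hm0 : 0 ≤ m := by linarith
  rcases le_total S (29/40) with u0 | l0
  · have h2 := mul_le_mul_of_nonneg_right h.hc hD
    nlinarith [mul_nonneg hc0 (mul_nonneg (sub_nonneg.2 hS) (sub_nonneg.2 u0))]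
  have hq : c * (S ^ 2 + 29/40 * m) ≤ 2821 / 10000 * (S ^ 2 + 29/40 * m) :=
    mul_le_mul_of_nonneg_right hc (by positivity)
  refine hq.trans ?_
  rcases le_total S (173/200) with u1 | l1
  · have hp := mul_le_mul_of_nonneg_right h.t2 hD
    nlinarith [mul_nonneg (sub_nonneg.2 l0) (sub_nonneg.2 u1),
      mul_nonneg (sub_nonneg.2 l0) (sub_nonneg.2 hm1), mul_nonneg (sub_nonneg.2 l0) (sub_nonneg.2 hm2),
      mul_nonneg (sub_nonneg.2 u1) (sub_nonneg.2 hm1), mul_nonneg (sub_nonneg.2 u1) (sub_nonneg.2 hm2)]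
  · have hp := mul_le_mul_of_nonneg_right h.t3 hD
    nlinarith [mul_nonneg (sub_nonneg.2 l1) (sub_nonneg.2 h1),
      mul_nonneg (sub_nonneg.2 l1) (sub_nonneg.2 hm1), mul_nonneg (sub_nonneg.2 l1) (sub_nonneg.2 hm2),
      mul_nonneg (sub_nonneg.2 h1) (sub_nonneg.2 hm1), mul_nonneg (sub_nonneg.2 h1) (sub_nonneg.2 hm2)]

theorem e8_fin0 {c m : ℝ} (hc : 28209 / 100000 ≤ c) (hm1 : 33/500 ≤ m) (hm2 : m ≤ 21/200) :
    29/40 + m < (2 * (-727/10000) + 61/125 * (9 / 4 - 56 * m ^ 2)) * (29/40 + m)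
      + c * (56 * m ^ 2 + 6 * (29/40 * m)) := by
  have hm0 : 0 ≤ m := by linarith
  have hq : 28209 / 100000 * (56 * m ^ 2 + 6 * (29/40 * m)) ≤ c * (56 * m ^ 2 + 6 * (29/40 * m)) :=
    mul_le_mul_of_nonneg_right hc (by positivity)
  nlinarith [mul_nonneg (sub_nonneg.2 hm1) (sub_nonneg.2 hm2),
    mul_nonneg hm0 (mul_nonneg (sub_nonneg.2 hm1) (sub_nonneg.2 hm2))]

theorem e8_pair1 {c S p : ℝ} (h : FH c S p) (hc : 28209 / 100000 ≤ c)
    (hS : 173 / 1000 ≤ S) : (-3/2000) + 197/500 * S ^ 2 ≤ p := by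
  have h1 := h.s1
  rcases le_total S (359/500) with u1 | l1
  · have hp : 28209 / 100000 * S ≤ p := le_trans (mul_le_mul_of_nonneg_right hc h.s0) h.hc
    nlinarith [mul_nonneg (sub_nonneg.2 hS) (sub_nonneg.2 u1)]
  rcases le_total S (833/1000) with u2 | l2
  · have hp := h.t2
    nlinarith [mul_nonneg (sub_nonneg.2 l1) (sub_nonneg.2 u2)]
  rcases le_total S (489/500) with u3 | l3
  · have hp := h.t3
    nlinarith [mul_nonneg (sub_nonneg.2 l2) (sub_nonneg.2 u3)]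
  · have hp := h.t4
    nlinarith [mul_nonneg (sub_nonneg.2 l3) (sub_nonneg.2 h1)]

theorem e8_oth1 {c S p m : ℝ} (h : FH c S p) (hc0 : 0 ≤ c) (hc : c ≤ 2821 / 10000)
    (hm1 : 0 ≤ m) (hm2 : m ≤ 369/2500) (hS : m ≤ S) :
    c * (S ^ 2 + 29/40 * m) ≤ p * (29/40 + m) := by
  have h1 := h.s1
  have hD : 0 ≤ 29/40 + m := by linarith
  have hS0 := h.s0
  have hm0 : 0 ≤ m := by linarith
  rcases le_total S (29/40) with u0 | l0
  · have h2 := mul_le_mul_of_nonneg_right h.hc hD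
    nlinarith [mul_nonneg hc0 (mul_nonneg (sub_nonneg.2 hS) (sub_nonneg.2 u0))]
  have hq : c * (S ^ 2 + 29/40 * m) ≤ 2821 / 10000 * (S ^ 2 + 29/40 * m) :=
    mul_le_mul_of_nonneg_right hc (by positivity)
  refine hq.trans ?_
  rcases le_total S (173/200) with u1 | l1
  · have hp := mul_le_mul_of_nonneg_right h.t2 hD
    nlinarith [mul_nonneg (sub_nonneg.2 l0) (sub_nonneg.2 u1),
      mul_nonneg (sub_nonneg.2 l0) (sub_nonneg.2 hm1), mul_nonneg (sub_nonneg.2 l0) (sub_nonneg.2 hm2),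
      mul_nonneg (sub_nonneg.2 u1) (sub_nonneg.2 hm1), mul_nonneg (sub_nonneg.2 u1) (sub_nonneg.2 hm2)]
  · have hp := mul_le_mul_of_nonneg_right h.t3 hD
    nlinarith [mul_nonneg (sub_nonneg.2 l1) (sub_nonneg.2 h1),
      mul_nonneg (sub_nonneg.2 l1) (sub_nonneg.2 hm1), mul_nonneg (sub_nonneg.2 l1) (sub_nonneg.2 hm2),
      mul_nonneg (sub_nonneg.2 h1) (sub_nonneg.2 hm1), mul_nonneg (sub_nonneg.2 h1) (sub_nonneg.2 hm2)]

theorem e8_fin1 {c m : ℝ} (hc : 28209 / 100000 ≤ c) (hm1 : 21/200 ≤ m) (hm2 : m ≤ 369/2500) :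
    29/40 + m < (2 * (-3/2000) + 197/500 * (9 / 4 - 56 * m ^ 2)) * (29/40 + m)
      + c * (56 * m ^ 2 + 6 * (29/40 * m)) := by
  have hm0 : 0 ≤ m := by linarith
  have hq : 28209 / 100000 * (56 * m ^ 2 + 6 * (29/40 * m)) ≤ c * (56 * m ^ 2 + 6 * (29/40 * m)) :=
    mul_le_mul_of_nonneg_right hc (by positivity)
  nlinarith [mul_nonneg (sub_nonneg.2 hm1) (sub_nonneg.2 hm2),
    mul_nonneg hm0 (mul_nonneg (sub_nonneg.2 hm1) (sub_nonneg.2 hm2))]

/-- linear facts on one cell, k = 6 -/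
structure F6 (c S p : ℝ) : Prop where
  s0 : 0 ≤ S
  s1 : S ≤ 1
  hc : c * S ≤ p
  t0 : 3/8 * S - 547/10000 ≤ p
  t1 : 293/625 * S - 287/2500 ≤ p
  t2 : 5/8 * S - 2359/10000 ≤ p
  t3 : 15/16 * S - 64/125 ≤ p

theorem e6_pair0 {c S p : ℝ} (h : F6 c S p) (hc : 28209 / 100000 ≤ c)
    (hS : 173 / 1000 ≤ S) : (-347/5000) + 247/500 * S ^ 2 ≤ p := by
  have h1 := h.s1
  rcases le_total S (419/500) with u1 | l1
  · have hp := h.t1
    nlinarith [mul_nonneg (sub_nonneg.2 hS) (sub_nonneg.2 u1)]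
  rcases le_total S (883/1000) with u2 | l2
  · have hp := h.t2
    nlinarith [mul_nonneg (sub_nonneg.2 l1) (sub_nonneg.2 u2)]
  · have hp := h.t3
    nlinarith [mul_nonneg (sub_nonneg.2 l2) (sub_nonneg.2 h1)]

theorem e6_oth0 {c S p m : ℝ} (h : F6 c S p) (hc0 : 0 ≤ c) (hc : c ≤ 2821 / 10000)
    (hm1 : 91/1000 ≤ m) (hm2 : m ≤ 3/20) (hS : m ≤ S) :
    c * (S ^ 2 + 33/50 * m) ≤ p * (33/50 + m) := by
  have h1 := h.s1
  have hD : 0 ≤ 33/50 + m := by linarith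
  have hS0 := h.s0
  have hm0 : 0 ≤ m := by linarith
  rcases le_total S (33/50) with u0 | l0
  · have h2 := mul_le_mul_of_nonneg_right h.hc hD
    nlinarith [mul_nonneg hc0 (mul_nonneg (sub_nonneg.2 hS) (sub_nonneg.2 u0))]
  have hq : c * (S ^ 2 + 33/50 * m) ≤ 2821 / 10000 * (S ^ 2 + 33/50 * m) :=
    mul_le_mul_of_nonneg_right hc (by positivity)
  refine hq.trans ?_
  rcases le_total S (31/40) with u1 | l1
  · have hp := mul_le_mul_of_nonneg_right h.t1 hD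
    nlinarith [mul_nonneg (sub_nonneg.2 l0) (sub_nonneg.2 u1),
      mul_nonneg (sub_nonneg.2 l0) (sub_nonneg.2 hm1), mul_nonneg (sub_nonneg.2 l0) (sub_nonneg.2 hm2),
      mul_nonneg (sub_nonneg.2 u1) (sub_nonneg.2 hm1), mul_nonneg (sub_nonneg.2 u1) (sub_nonneg.2 hm2)]
  rcases le_total S (179/200) with u2 | l2
  · have hp := mul_le_mul_of_nonneg_right h.t2 hD
    nlinarith [mul_nonneg (sub_nonneg.2 l1) (sub_nonneg.2 u2),
      mul_nonneg (sub_nonneg.2 l1) (sub_nonneg.2 hm1), mul_nonneg (sub_nonneg.2 l1) (sub_nonneg.2 hm2),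
      mul_nonneg (sub_nonneg.2 u2) (sub_nonneg.2 hm1), mul_nonneg (sub_nonneg.2 u2) (sub_nonneg.2 hm2)]
  · have hp := mul_le_mul_of_nonneg_right h.t3 hD
    nlinarith [mul_nonneg (sub_nonneg.2 l2) (sub_nonneg.2 h1),
      mul_nonneg (sub_nonneg.2 l2) (sub_nonneg.2 hm1), mul_nonneg (sub_nonneg.2 l2) (sub_nonneg.2 hm2),
      mul_nonneg (sub_nonneg.2 h1) (sub_nonneg.2 hm1), mul_nonneg (sub_nonneg.2 h1) (sub_nonneg.2 hm2)]

theorem e6_fin0 {c m : ℝ} (hc : 28209 / 100000 ≤ c) (hm1 : 91/1000 ≤ m) (hm2 : m ≤ 3/20) :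
    33/50 + m < (2 * (-347/5000) + 247/500 * (9 / 4 - 30 * m ^ 2)) * (33/50 + m)
      + c * (30 * m ^ 2 + 4 * (33/50 * m)) := by
  have hm0 : 0 ≤ m := by linarith
  have hq : 28209 / 100000 * (30 * m ^ 2 + 4 * (33/50 * m)) ≤ c * (30 * m ^ 2 + 4 * (33/50 * m)) :=
    mul_le_mul_of_nonneg_right hc (by positivity)
  nlinarith [mul_nonneg (sub_nonneg.2 hm1) (sub_nonneg.2 hm2),
    mul_nonneg hm0 (mul_nonneg (sub_nonneg.2 hm1) (sub_nonneg.2 hm2))]

theorem e6_pair1 {c S p : ℝ} (h : F6 c S p) (hc : 28209 / 100000 ≤ c)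
    (hS : 173 / 1000 ≤ S) : 9/400 + 47/125 * S ^ 2 ≤ p := by
  have h1 := h.s1
  rcases le_total S (329/500) with u1 | l1
  · have hp : 28209 / 100000 * S ≤ p := le_trans (mul_le_mul_of_nonneg_right hc h.s0) h.hc
    nlinarith [mul_nonneg (sub_nonneg.2 hS) (sub_nonneg.2 u1)]
  rcases le_total S (773/1000) with u2 | l2
  · have hp := h.t1
    nlinarith [mul_nonneg (sub_nonneg.2 l1) (sub_nonneg.2 u2)]
  rcases le_total S (111/125) with u3 | l3
  · have hp := h.t2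
    nlinarith [mul_nonneg (sub_nonneg.2 l2) (sub_nonneg.2 u3)]
  · have hp := h.t3
    nlinarith [mul_nonneg (sub_nonneg.2 l3) (sub_nonneg.2 h1)]

theorem e6_oth1 {c S p m : ℝ} (h : F6 c S p) (hc0 : 0 ≤ c) (hc : c ≤ 2821 / 10000)
    (hm1 : 3/20 ≤ m) (hm2 : m ≤ 2017/10000) (hS : m ≤ S) :
    c * (S ^ 2 + 321/500 * m) ≤ p * (321/500 + m) := by
  have h1 := h.s1
  have hD : 0 ≤ 321/500 + m := by linarith
  have hS0 := h.s0
  have hm0 : 0 ≤ m := by linarith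
  rcases le_total S (321/500) with u0 | l0
  · have h2 := mul_le_mul_of_nonneg_right h.hc hD
    nlinarith [mul_nonneg hc0 (mul_nonneg (sub_nonneg.2 hS) (sub_nonneg.2 u0))]
  have hq : c * (S ^ 2 + 321/500 * m) ≤ 2821 / 10000 * (S ^ 2 + 321/500 * m) :=
    mul_le_mul_of_nonneg_right hc (by positivity)
  refine hq.trans ?_
  rcases le_total S (777/1000) with u1 | l1
  · have hp := mul_le_mul_of_nonneg_right h.t1 hD
    nlinarith [mul_nonneg (sub_nonneg.2 l0) (sub_nonneg.2 u1),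
      mul_nonneg (sub_nonneg.2 l0) (sub_nonneg.2 hm1), mul_nonneg (sub_nonneg.2 l0) (sub_nonneg.2 hm2),
      mul_nonneg (sub_nonneg.2 u1) (sub_nonneg.2 hm1), mul_nonneg (sub_nonneg.2 u1) (sub_nonneg.2 hm2)]
  rcases le_total S (491/500) with u2 | l2
  · have hp := mul_le_mul_of_nonneg_right h.t2 hD
    nlinarith [mul_nonneg (sub_nonneg.2 l1) (sub_nonneg.2 u2),
      mul_nonneg (sub_nonneg.2 l1) (sub_nonneg.2 hm1), mul_nonneg (sub_nonneg.2 l1) (sub_nonneg.2 hm2),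
      mul_nonneg (sub_nonneg.2 u2) (sub_nonneg.2 hm1), mul_nonneg (sub_nonneg.2 u2) (sub_nonneg.2 hm2)]
  · have hp := mul_le_mul_of_nonneg_right h.t3 hD
    nlinarith [mul_nonneg (sub_nonneg.2 l2) (sub_nonneg.2 h1),
      mul_nonneg (sub_nonneg.2 l2) (sub_nonneg.2 hm1), mul_nonneg (sub_nonneg.2 l2) (sub_nonneg.2 hm2),
      mul_nonneg (sub_nonneg.2 h1) (sub_nonneg.2 hm1), mul_nonneg (sub_nonneg.2 h1) (sub_nonneg.2 hm2)]

theorem e6_fin1 {c m : ℝ} (hc : 28209 / 100000 ≤ c) (hm1 : 3/20 ≤ m) (hm2 : m ≤ 2017/10000) :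
    321/500 + m < (2 * (9/400) + 47/125 * (9 / 4 - 30 * m ^ 2)) * (321/500 + m)
      + c * (30 * m ^ 2 + 4 * (321/500 * m)) := by
  have hm0 : 0 ≤ m := by linarith
  have hq : 28209 / 100000 * (30 * m ^ 2 + 4 * (321/500 * m)) ≤ c * (30 * m ^ 2 + 4 * (321/500 * m)) :=
    mul_le_mul_of_nonneg_right hc (by positivity)
  nlinarith [mul_nonneg (sub_nonneg.2 hm1) (sub_nonneg.2 hm2),
    mul_nonneg hm0 (mul_nonneg (sub_nonneg.2 hm1) (sub_nonneg.2 hm2))]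

/-- linear facts on one cell, k = 5 -/
structure F5 (c S p : ℝ) : Prop where
  s0 : 0 ≤ S
  s1 : S ≤ 1
  hc : c * S ≤ p
  t0 : 3859/10000 * S - 113/2000 ≤ p
  t1 : 4717/10000 * S - 9/80 ≤ p
  t2 : 1117/2000 * S - 1781/10000 ≤ p
  t3 : 283/400 * S - 3023/10000 ≤ p
  t4 : 2653/2500 * S - 6247/10000 ≤ p

theorem e5_pair0 {c S p : ℝ} (h : F5 c S p) (hc : 28209 / 100000 ≤ c)
    (hS : 173 / 1000 ≤ S) : (-1179/10000) + 277/500 * S ^ 2 ≤ p := by
  have h1 := h.s1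
  rcases le_total S (883/1000) with u1 | l1
  · have hp := h.t2
    nlinarith [mul_nonneg (sub_nonneg.2 hS) (sub_nonneg.2 u1)]
  rcases le_total S (227/250) with u2 | l2
  · have hp := h.t3
    nlinarith [mul_nonneg (sub_nonneg.2 l1) (sub_nonneg.2 u2)]
  · have hp := h.t4
    nlinarith [mul_nonneg (sub_nonneg.2 l2) (sub_nonneg.2 h1)]

theorem e5_oth0 {c S p m : ℝ} (h : F5 c S p) (hc0 : 0 ≤ c) (hc : c ≤ 2821 / 10000)
    (hm1 : 559/5000 ≤ m) (hm2 : m ≤ 4/25) (hS : m ≤ S) :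
    c * (S ^ 2 + 641/1000 * m) ≤ p * (641/1000 + m) := by
  have h1 := h.s1
  have hD : 0 ≤ 641/1000 + m := by linarith
  have hS0 := h.s0
  have hm0 : 0 ≤ m := by linarith
  rcases le_total S (641/1000) with u0 | l0
  · have h2 := mul_le_mul_of_nonneg_right h.hc hD
    nlinarith [mul_nonneg hc0 (mul_nonneg (sub_nonneg.2 hS) (sub_nonneg.2 u0))]
  have hq : c * (S ^ 2 + 641/1000 * m) ≤ 2821 / 10000 * (S ^ 2 + 641/1000 * m) :=
    mul_le_mul_of_nonneg_right hc (by positivity)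
  refine hq.trans ?_
  rcases le_total S (781/1000) with u1 | l1
  · have hp := mul_le_mul_of_nonneg_right h.t1 hD
    nlinarith [mul_nonneg (sub_nonneg.2 l0) (sub_nonneg.2 u1),
      mul_nonneg (sub_nonneg.2 l0) (sub_nonneg.2 hm1), mul_nonneg (sub_nonneg.2 l0) (sub_nonneg.2 hm2),
      mul_nonneg (sub_nonneg.2 u1) (sub_nonneg.2 hm1), mul_nonneg (sub_nonneg.2 u1) (sub_nonneg.2 hm2)]
  rcases le_total S (209/250) with u2 | l2
  · have hp := mul_le_mul_of_nonneg_right h.t2 hD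
    nlinarith [mul_nonneg (sub_nonneg.2 l1) (sub_nonneg.2 u2),
      mul_nonneg (sub_nonneg.2 l1) (sub_nonneg.2 hm1), mul_nonneg (sub_nonneg.2 l1) (sub_nonneg.2 hm2),
      mul_nonneg (sub_nonneg.2 u2) (sub_nonneg.2 hm1), mul_nonneg (sub_nonneg.2 u2) (sub_nonneg.2 hm2)]
  · have hp := mul_le_mul_of_nonneg_right h.t3 hD
    nlinarith [mul_nonneg (sub_nonneg.2 l2) (sub_nonneg.2 h1),
      mul_nonneg (sub_nonneg.2 l2) (sub_nonneg.2 hm1), mul_nonneg (sub_nonneg.2 l2) (sub_nonneg.2 hm2),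
      mul_nonneg (sub_nonneg.2 h1) (sub_nonneg.2 hm1), mul_nonneg (sub_nonneg.2 h1) (sub_nonneg.2 hm2)]

theorem e5_fin0 {c m : ℝ} (hc : 28209 / 100000 ≤ c) (hm1 : 559/5000 ≤ m) (hm2 : m ≤ 4/25) :
    641/1000 + m < (2 * (-1179/10000) + 277/500 * (9 / 4 - 20 * m ^ 2)) * (641/1000 + m)
      + c * (20 * m ^ 2 + 3 * (641/1000 * m)) := by
  have hm0 : 0 ≤ m := by linarith
  have hq : 28209 / 100000 * (20 * m ^ 2 + 3 * (641/1000 * m)) ≤ c * (20 * m ^ 2 + 3 * (641/1000 * m)) :=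
    mul_le_mul_of_nonneg_right hc (by positivity)
  nlinarith [mul_nonneg (sub_nonneg.2 hm1) (sub_nonneg.2 hm2),
    mul_nonneg hm0 (mul_nonneg (sub_nonneg.2 hm1) (sub_nonneg.2 hm2))]

theorem e5_pair1 {c S p : ℝ} (h : F5 c S p) (hc : 28209 / 100000 ≤ c)
    (hS : 173 / 1000 ≤ S) : 51/10000 + 203/500 * S ^ 2 ≤ p := by
  have h1 := h.s1
  rcases le_total S (673/1000) with u1 | l1
  · have hp : 28209 / 100000 * S ≤ p := le_trans (mul_le_mul_of_nonneg_right hc h.s0) h.hc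
    nlinarith [mul_nonneg (sub_nonneg.2 hS) (sub_nonneg.2 u1)]
  rcases le_total S (833/1000) with u2 | l2
  · have hp := h.t2
    nlinarith [mul_nonneg (sub_nonneg.2 l1) (sub_nonneg.2 u2)]
  rcases le_total S (913/1000) with u3 | l3
  · have hp := h.t3
    nlinarith [mul_nonneg (sub_nonneg.2 l2) (sub_nonneg.2 u3)]
  · have hp := h.t4
    nlinarith [mul_nonneg (sub_nonneg.2 l3) (sub_nonneg.2 h1)]

theorem e5_oth1 {c S p m : ℝ} (h : F5 c S p) (hc0 : 0 ≤ c) (hc : c ≤ 2821 / 10000)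
    (hm1 : 4/25 ≤ m) (hm2 : m ≤ 19/100) (hS : m ≤ S) :
    c * (S ^ 2 + 31/50 * m) ≤ p * (31/50 + m) := by
  have h1 := h.s1
  have hD : 0 ≤ 31/50 + m := by linarith
  have hS0 := h.s0
  have hm0 : 0 ≤ m := by linarith
  rcases le_total S (31/50) with u0 | l0
  · have h2 := mul_le_mul_of_nonneg_right h.hc hD
    nlinarith [mul_nonneg hc0 (mul_nonneg (sub_nonneg.2 hS) (sub_nonneg.2 u0))]
  have hq : c * (S ^ 2 + 31/50 * m) ≤ 2821 / 10000 * (S ^ 2 + 31/50 * m) :=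
    mul_le_mul_of_nonneg_right hc (by positivity)
  refine hq.trans ?_
  rcases le_total S (77/100) with u1 | l1
  · have hp := mul_le_mul_of_nonneg_right h.t1 hD
    nlinarith [mul_nonneg (sub_nonneg.2 l0) (sub_nonneg.2 u1),
      mul_nonneg (sub_nonneg.2 l0) (sub_nonneg.2 hm1), mul_nonneg (sub_nonneg.2 l0) (sub_nonneg.2 hm2),
      mul_nonneg (sub_nonneg.2 u1) (sub_nonneg.2 hm1), mul_nonneg (sub_nonneg.2 u1) (sub_nonneg.2 hm2)]
  rcases le_total S (167/200) with u2 | l2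
  · have hp := mul_le_mul_of_nonneg_right h.t2 hD
    nlinarith [mul_nonneg (sub_nonneg.2 l1) (sub_nonneg.2 u2),
      mul_nonneg (sub_nonneg.2 l1) (sub_nonneg.2 hm1), mul_nonneg (sub_nonneg.2 l1) (sub_nonneg.2 hm2),
      mul_nonneg (sub_nonneg.2 u2) (sub_nonneg.2 hm1), mul_nonneg (sub_nonneg.2 u2) (sub_nonneg.2 hm2)]
  · have hp := mul_le_mul_of_nonneg_right h.t3 hD
    nlinarith [mul_nonneg (sub_nonneg.2 l2) (sub_nonneg.2 h1),
      mul_nonneg (sub_nonneg.2 l2) (sub_nonneg.2 hm1), mul_nonneg (sub_nonneg.2 l2) (sub_nonneg.2 hm2),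
      mul_nonneg (sub_nonneg.2 h1) (sub_nonneg.2 hm1), mul_nonneg (sub_nonneg.2 h1) (sub_nonneg.2 hm2)]

theorem e5_fin1 {c m : ℝ} (hc : 28209 / 100000 ≤ c) (hm1 : 4/25 ≤ m) (hm2 : m ≤ 19/100) :
    31/50 + m < (2 * (51/10000) + 203/500 * (9 / 4 - 20 * m ^ 2)) * (31/50 + m)
      + c * (20 * m ^ 2 + 3 * (31/50 * m)) := by
  have hm0 : 0 ≤ m := by linarith
  have hq : 28209 / 100000 * (20 * m ^ 2 + 3 * (31/50 * m)) ≤ c * (20 * m ^ 2 + 3 * (31/50 * m)) :=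
    mul_le_mul_of_nonneg_right hc (by positivity)
  nlinarith [mul_nonneg (sub_nonneg.2 hm1) (sub_nonneg.2 hm2),
    mul_nonneg hm0 (mul_nonneg (sub_nonneg.2 hm1) (sub_nonneg.2 hm2))]

theorem e5_pair2 {c S p : ℝ} (h : F5 c S p) (hc : 28209 / 100000 ≤ c)
    (hS : 173 / 1000 ≤ S) : 179/5000 + 181/500 * S ^ 2 ≤ p := by
  have h1 := h.s1
  rcases le_total S (309/500) with u1 | l1
  · have hp : 28209 / 100000 * S ≤ p := le_trans (mul_le_mul_of_nonneg_right hc h.s0) h.hc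
    nlinarith [mul_nonneg (sub_nonneg.2 hS) (sub_nonneg.2 u1)]
  rcases le_total S (773/1000) with u2 | l2
  · have hp := h.t1
    nlinarith [mul_nonneg (sub_nonneg.2 l1) (sub_nonneg.2 u2)]
  rcases le_total S (833/1000) with u3 | l3
  · have hp := h.t2
    nlinarith [mul_nonneg (sub_nonneg.2 l2) (sub_nonneg.2 u3)]
  · have hp := h.t3
    nlinarith [mul_nonneg (sub_nonneg.2 l3) (sub_nonneg.2 h1)]

theorem e5_oth2 {c S p m : ℝ} (h : F5 c S p) (hc0 : 0 ≤ c) (hc : c ≤ 2821 / 10000)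
    (hm1 : 19/100 ≤ m) (hm2 : m ≤ 11/50) (hS : m ≤ S) :
    c * (S ^ 2 + 121/200 * m) ≤ p * (121/200 + m) := by
  have h1 := h.s1
  have hD : 0 ≤ 121/200 + m := by linarith
  have hS0 := h.s0
  have hm0 : 0 ≤ m := by linarith
  rcases le_total S (121/200) with u0 | l0
  · have h2 := mul_le_mul_of_nonneg_right h.hc hD
    nlinarith [mul_nonneg hc0 (mul_nonneg (sub_nonneg.2 hS) (sub_nonneg.2 u0))]
  have hq : c * (S ^ 2 + 121/200 * m) ≤ 2821 / 10000 * (S ^ 2 + 121/200 * m) :=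
    mul_le_mul_of_nonneg_right hc (by positivity)
  refine hq.trans ?_
  rcases le_total S (19/25) with u1 | l1
  · have hp := mul_le_mul_of_nonneg_right h.t1 hD
    nlinarith [mul_nonneg (sub_nonneg.2 l0) (sub_nonneg.2 u1),
      mul_nonneg (sub_nonneg.2 l0) (sub_nonneg.2 hm1), mul_nonneg (sub_nonneg.2 l0) (sub_nonneg.2 hm2),
      mul_nonneg (sub_nonneg.2 u1) (sub_nonneg.2 hm1), mul_nonneg (sub_nonneg.2 u1) (sub_nonneg.2 hm2)]
  rcases le_total S (167/200) with u2 | l2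
  · have hp := mul_le_mul_of_nonneg_right h.t2 hD
    nlinarith [mul_nonneg (sub_nonneg.2 l1) (sub_nonneg.2 u2),
      mul_nonneg (sub_nonneg.2 l1) (sub_nonneg.2 hm1), mul_nonneg (sub_nonneg.2 l1) (sub_nonneg.2 hm2),
      mul_nonneg (sub_nonneg.2 u2) (sub_nonneg.2 hm1), mul_nonneg (sub_nonneg.2 u2) (sub_nonneg.2 hm2)]
  · have hp := mul_le_mul_of_nonneg_right h.t3 hD
    nlinarith [mul_nonneg (sub_nonneg.2 l2) (sub_nonneg.2 h1),
      mul_nonneg (sub_nonneg.2 l2) (sub_nonneg.2 hm1), mul_nonneg (sub_nonneg.2 l2) (sub_nonneg.2 hm2),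
      mul_nonneg (sub_nonneg.2 h1) (sub_nonneg.2 hm1), mul_nonneg (sub_nonneg.2 h1) (sub_nonneg.2 hm2)]

theorem e5_fin2 {c m : ℝ} (hc : 28209 / 100000 ≤ c) (hm1 : 19/100 ≤ m) (hm2 : m ≤ 11/50) :
    121/200 + m < (2 * (179/5000) + 181/500 * (9 / 4 - 20 * m ^ 2)) * (121/200 + m)
      + c * (20 * m ^ 2 + 3 * (121/200 * m)) := by
  have hm0 : 0 ≤ m := by linarith
  have hq : 28209 / 100000 * (20 * m ^ 2 + 3 * (121/200 * m)) ≤ c * (20 * m ^ 2 + 3 * (121/200 * m)) :=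
    mul_le_mul_of_nonneg_right hc (by positivity)
  nlinarith [mul_nonneg (sub_nonneg.2 hm1) (sub_nonneg.2 hm2),
    mul_nonneg hm0 (mul_nonneg (sub_nonneg.2 hm1) (sub_nonneg.2 hm2))]

theorem e5_pair3 {c S p : ℝ} (h : F5 c S p) (hc : 28209 / 100000 ≤ c)
    (hS : 173 / 1000 ≤ S) : 93/2500 + 9/25 * S ^ 2 ≤ p := by
  have h1 := h.s1
  rcases le_total S (613/1000) with u1 | l1
  · have hp : 28209 / 100000 * S ≤ p := le_trans (mul_le_mul_of_nonneg_right hc h.s0) h.hc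
    nlinarith [mul_nonneg (sub_nonneg.2 hS) (sub_nonneg.2 u1)]
  rcases le_total S (96/125) with u2 | l2
  · have hp := h.t1
    nlinarith [mul_nonneg (sub_nonneg.2 l1) (sub_nonneg.2 u2)]
  rcases le_total S (833/1000) with u3 | l3
  · have hp := h.t2
    nlinarith [mul_nonneg (sub_nonneg.2 l2) (sub_nonneg.2 u3)]
  · have hp := h.t3
    nlinarith [mul_nonneg (sub_nonneg.2 l3) (sub_nonneg.2 h1)]

theorem e5_oth3 {c S p m : ℝ} (h : F5 c S p) (hc0 : 0 ≤ c) (hc : c ≤ 2821 / 10000)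
    (hm1 : 11/50 ≤ m) (hm2 : m ≤ 247/1000) (hS : m ≤ S) :
    c * (S ^ 2 + 591/1000 * m) ≤ p * (591/1000 + m) := by
  have h1 := h.s1
  have hD : 0 ≤ 591/1000 + m := by linarith
  have hS0 := h.s0
  have hm0 : 0 ≤ m := by linarith
  rcases le_total S (591/1000) with u0 | l0
  · have h2 := mul_le_mul_of_nonneg_right h.hc hD
    nlinarith [mul_nonneg hc0 (mul_nonneg (sub_nonneg.2 hS) (sub_nonneg.2 u0))]
  have hq : c * (S ^ 2 + 591/1000 * m) ≤ 2821 / 10000 * (S ^ 2 + 591/1000 * m) :=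
    mul_le_mul_of_nonneg_right hc (by positivity)
  refine hq.trans ?_
  rcases le_total S (169/250) with u1 | l1
  · have hp := mul_le_mul_of_nonneg_right h.t0 hD
    nlinarith [mul_nonneg (sub_nonneg.2 l0) (sub_nonneg.2 u1),
      mul_nonneg (sub_nonneg.2 l0) (sub_nonneg.2 hm1), mul_nonneg (sub_nonneg.2 l0) (sub_nonneg.2 hm2),
      mul_nonneg (sub_nonneg.2 u1) (sub_nonneg.2 hm1), mul_nonneg (sub_nonneg.2 u1) (sub_nonneg.2 hm2)]
  rcases le_total S (189/250) with u2 | l2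
  · have hp := mul_le_mul_of_nonneg_right h.t1 hD
    nlinarith [mul_nonneg (sub_nonneg.2 l1) (sub_nonneg.2 u2),
      mul_nonneg (sub_nonneg.2 l1) (sub_nonneg.2 hm1), mul_nonneg (sub_nonneg.2 l1) (sub_nonneg.2 hm2),
      mul_nonneg (sub_nonneg.2 u2) (sub_nonneg.2 hm1), mul_nonneg (sub_nonneg.2 u2) (sub_nonneg.2 hm2)]
  rcases le_total S (851/1000) with u3 | l3
  · have hp := mul_le_mul_of_nonneg_right h.t2 hD
    nlinarith [mul_nonneg (sub_nonneg.2 l2) (sub_nonneg.2 u3),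
      mul_nonneg (sub_nonneg.2 l2) (sub_nonneg.2 hm1), mul_nonneg (sub_nonneg.2 l2) (sub_nonneg.2 hm2),
      mul_nonneg (sub_nonneg.2 u3) (sub_nonneg.2 hm1), mul_nonneg (sub_nonneg.2 u3) (sub_nonneg.2 hm2)]
  · have hp := mul_le_mul_of_nonneg_right h.t3 hD
    nlinarith [mul_nonneg (sub_nonneg.2 l3) (sub_nonneg.2 h1),
      mul_nonneg (sub_nonneg.2 l3) (sub_nonneg.2 hm1), mul_nonneg (sub_nonneg.2 l3) (sub_nonneg.2 hm2),
      mul_nonneg (sub_nonneg.2 h1) (sub_nonneg.2 hm1), mul_nonneg (sub_nonneg.2 h1) (sub_nonneg.2 hm2)]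

theorem e5_fin3 {c m : ℝ} (hc : 28209 / 100000 ≤ c) (hm1 : 11/50 ≤ m) (hm2 : m ≤ 247/1000) :
    591/1000 + m < (2 * (93/2500) + 9/25 * (9 / 4 - 20 * m ^ 2)) * (591/1000 + m)
      + c * (20 * m ^ 2 + 3 * (591/1000 * m)) := by
  have hm0 : 0 ≤ m := by linarith
  have hq : 28209 / 100000 * (20 * m ^ 2 + 3 * (591/1000 * m)) ≤ c * (20 * m ^ 2 + 3 * (591/1000 * m)) :=
    mul_le_mul_of_nonneg_right hc (by positivity)
  nlinarith [mul_nonneg (sub_nonneg.2 hm1) (sub_nonneg.2 hm2),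
    mul_nonneg hm0 (mul_nonneg (sub_nonneg.2 hm1) (sub_nonneg.2 hm2))]

end P226
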