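import Vale.Agent.P226.EndNum

/-!
P226: end game, real-variable form, `k ≥ 5`.
-/

namespace P226

open Finset

theorem sum_split {k : ℕ} (i j : Fin k) (hij : i ≠ j) (f : Fin k → ℝ) :
    ∑ l, f l = f i + f j + ∑ l ∈ (univ.erase i).erase j, f l := by
  rw [← add_sum_erase _ f (mem_univ i), ← add_sum_erase _ f (mem_erase.2 ⟨hij.symm, mem_univ j⟩)]
  ring

theorem card_split {k : ℕ} (i j : Fin k) (hij : i ≠ j) :
    (((univ.erase i).erase j).card : ℝ) = k - 2 := by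
  have h := sum_split i j hij (fun _ => (1 : ℝ))
  rw [sum_const, sum_const, nsmul_eq_mul, nsmul_eq_mul, card_univ, Fintype.card_fin] at h
  linarith

/-- lower bound for the cells other than `i`, `j` -/
theorem others {k : ℕ} (S p : Fin k → ℝ) (i j : Fin k) (hij : i ≠ j) {c s0 m : ℝ}
    (hoth : ∀ l, c * (S l ^ 2 + s0 * m) ≤ p l * (s0 + m)) :
    c * ((∑ l, S l ^ 2 - (S i ^ 2 + S j ^ 2)) + (k - 2) * (s0 * m)) ≤
      (∑ l, p l - (p i + p j)) * (s0 + m) := by
  have h1 := sum_split i j hij p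
  have h2 := sum_split i j hij (fun l => S l ^ 2)
  have h3 : ∑ l ∈ (univ.erase i).erase j, c * (S l ^ 2 + s0 * m) ≤
      ∑ l ∈ (univ.erase i).erase j, p l * (s0 + m) := sum_le_sum fun l _ => hoth l
  rw [← mul_sum, sum_add_distrib, sum_const, nsmul_eq_mul, card_split i j hij, ← sum_mul] at h3
  have e1 : ∑ l, S l ^ 2 - (S i ^ 2 + S j ^ 2) = ∑ l ∈ (univ.erase i).erase j, S l ^ 2 := by
    linarith
  have e2 : ∑ l, p l - (p i + p j) = ∑ l ∈ (univ.erase i).erase j, p l := by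
    linarith
  rw [e1, e2]
  exact h3

/-- lower bound for all cells -/
theorem all_cells {k : ℕ} (S p : Fin k → ℝ) {c s0 m : ℝ}
    (hoth : ∀ l, c * (S l ^ 2 + s0 * m) ≤ p l * (s0 + m)) :
    c * (∑ l, S l ^ 2 + k * (s0 * m)) ≤ (∑ l, p l) * (s0 + m) := by
  have h3 : ∑ l, c * (S l ^ 2 + s0 * m) ≤ ∑ l, p l * (s0 + m) := sum_le_sum fun l _ => hoth l
  rw [← mul_sum, sum_add_distrib, sum_const, nsmul_eq_mul, card_univ, Fintype.card_fin,
    ← sum_mul] at h3
  exact h3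

theorem finish {P pi pj a b w N M s0 τ η κ c : ℝ} (hη : 0 ≤ η)
    (hab : 9 / 4 - w ≤ a ^ 2 + b ^ 2) (hw : w = N * M ^ 2)
    (hpi : τ + η * a ^ 2 ≤ pi) (hpj : τ + η * b ^ 2 ≤ pj) (hD : 0 < s0 + M)
    (ho : c * (w + κ * (s0 * M)) ≤ (P - (pi + pj)) * (s0 + M))
    (hfin : s0 + M < (2 * τ + η * (9 / 4 - N * M ^ 2)) * (s0 + M)
      + c * (N * M ^ 2 + κ * (s0 * M))) : 1 < P := by
  by_contra hcon
  push Not at hcon
  have h1 : (2 * τ + η * (9 / 4 - w)) * (s0 + M) ≤ (pi + pj) * (s0 + M) := by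
    apply mul_le_mul_of_nonneg_right _ hD.le
    have := mul_le_mul_of_nonneg_left hab hη
    linarith
  have h2 : P * (s0 + M) ≤ 1 * (s0 + M) := mul_le_mul_of_nonneg_right hcon hD.le
  rw [← hw] at hfin
  linarith

/-- the basic data: `w = ∑ S² - S_i² - S_j²` is at least `1/4`, and the two cells are large -/
theorem pair_large {a b w σ : ℝ} (ha0 : 0 ≤ a) (ha : a ≤ 1) (hb0 : 0 ≤ b) (hb : b ≤ 1)
    (hσ : 9 / 4 ≤ σ) (hw : w = σ - (a ^ 2 + b ^ 2)) :
    1 / 4 ≤ w ∧ 9 / 4 - w ≤ a ^ 2 + b ^ 2 ∧ (w ≤ 122 / 100 → 173 / 1000 ≤ a ∧ 173 / 1000 ≤ b) := by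
  have ha2 : a ^ 2 ≤ 1 := by nlinarith
  have hb2 : b ^ 2 ≤ 1 := by nlinarith
  refine ⟨by linarith, by linarith, fun h => ⟨?_, ?_⟩⟩
  · by_contra hcon
    push Not at hcon
    nlinarith
  · by_contra hcon
    push Not at hcon
    nlinarith

theorem sqrt_facts {w N : ℝ} (hN : 0 < N) (hw : 0 ≤ w) :
    0 ≤ Real.sqrt (w / N) ∧ w = N * Real.sqrt (w / N) ^ 2 := by
  refine ⟨Real.sqrt_nonneg _, ?_⟩
  rw [Real.sq_sqrt (div_nonneg hw hN.le)]
  field_simp

theorem sqrt_le_of {w N s : ℝ} (hN : 0 < N) (hs : 0 ≤ s) (h : w ≤ N * s ^ 2) :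
    Real.sqrt (w / N) ≤ s := by
  apply Real.sqrt_le_iff.2
  refine ⟨hs, ?_⟩
  rw [div_le_iff₀ hN]
  linarith

theorem le_sqrt_of {w N s : ℝ} (hN : 0 < N) (h : N * s ^ 2 ≤ w) :
    s ≤ Real.sqrt (w / N) := by
  apply Real.le_sqrt_of_sq_le
  rw [le_div_iff₀ hN]
  linarith

/-- end game for `k = 7` -/
theorem end7 {c : ℝ} (hc0 : 28209 / 100000 ≤ c) (hc1 : c ≤ 2821 / 10000) (S p : Fin 7 → ℝ)
    (hF : ∀ l, FH c (S l) (p l)) (hσ : 9 / 4 ≤ ∑ l, S l ^ 2) (i j : Fin 7) (hij : i ≠ j)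
    (h3 : ∀ l, ∑ m, S m ^ 2 - (S i ^ 2 + S j ^ 2) ≤ 42 * S l ^ 2) : 1 < ∑ l, p l := by
  have hcp : 0 ≤ c := by linarith
  obtain ⟨w, hw⟩ : ∃ w, w = ∑ m, S m ^ 2 - (S i ^ 2 + S j ^ 2) := ⟨_, rfl⟩
  obtain ⟨hw1, hw2, hw3⟩ := pair_large (hF i).s0 (hF i).s1 (hF j).s0 (hF j).s1 hσ hw
  rw [← hw] at h3
  rcases le_total w (122 / 100) with hle | hge
  · obtain ⟨hSi, hSj⟩ := hw3 hle
    obtain ⟨hm0, hmw⟩ := sqrt_facts (w := w) (N := 42) (by norm_num) (by linarith)
    have hmS : ∀ l, Real.sqrt (w / 42) ≤ S l := fun l =>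
      sqrt_le_of (by norm_num) (hF l).s0 (h3 l)
    have hma : 77 / 1000 ≤ Real.sqrt (w / 42) := le_sqrt_of (by norm_num) (by linarith)
    have hmb : Real.sqrt (w / 42) ≤ 341 / 2000 :=
      sqrt_le_of (by norm_num) (by norm_num) (by linarith)
    generalize Real.sqrt (w / 42) = m at hm0 hmw hmS hma hmb
    have hcast : ((7 : ℕ) : ℝ) - 2 = 5 := by norm_num
    rcases le_total m (14 / 125) with h | h
    · have ho := others S p i j hij (c := c) (s0 := 703 / 1000) (m := m)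
        (fun l => e7_oth0 (hF l) hcp hc1 hma h (hmS l))
      rw [← hw, hcast] at ho
      exact finish (by norm_num) hw2 hmw (e7_pair0 (hF i) hc0 hSi) (e7_pair0 (hF j) hc0 hSj)
        (by linarith) ho (e7_fin0 hc0 hma h)
    rcases le_total m (13 / 100) with h' | h'
    · have ho := others S p i j hij (c := c) (s0 := 697 / 1000) (m := m)
        (fun l => e7_oth1 (hF l) hcp hc1 h h' (hmS l))
      rw [← hw, hcast] at ho
      exact finish (by norm_num) hw2 hmw (e7_pair1 (hF i) hc0 hSi) (e7_pair1 (hF j) hc0 hSj)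
        (by linarith) ho (e7_fin1 hc0 h h')
    rcases le_total m (29 / 200) with h'' | h''
    · have ho := others S p i j hij (c := c) (s0 := 139 / 200) (m := m)
        (fun l => e7_oth2 (hF l) hcp hc1 h' h'' (hmS l))
      rw [← hw, hcast] at ho
      exact finish (by norm_num) hw2 hmw (e7_pair2 (hF i) hc0 hSi) (e7_pair2 (hF j) hc0 hSj)
        (by linarith) ho (e7_fin2 hc0 h' h'')
    · have ho := others S p i j hij (c := c) (s0 := 693 / 1000) (m := m)
        (fun l => e7_oth3 (hF l) hcp hc1 h'' hmb (hmS l))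
      rw [← hw, hcast] at ho
      exact finish (by norm_num) hw2 hmw (e7_pair3 (hF i) hc0 hSi) (e7_pair3 (hF j) hc0 hSj)
        (by linarith) ho (e7_fin3 hc0 h'' hmb)
  · have hmS : ∀ l, (1704 / 10000 : ℝ) ≤ S l := by
      intro l
      by_contra hcon
      push Not at hcon
      have := h3 l
      have := (hF l).s0
      nlinarith
    have ha := all_cells S p (c := c) (s0 := 693 / 1000) (m := 1704 / 10000)
      (fun l => e7_oth3 (hF l) hcp hc1 (by norm_num) (by norm_num) (hmS l))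
    by_contra hcon
    push Not at hcon
    push_cast at ha
    nlinarith

/-- end game for `k = 6` -/
theorem end6 {c : ℝ} (hc0 : 28209 / 100000 ≤ c) (hc1 : c ≤ 2821 / 10000) (S p : Fin 6 → ℝ)
    (hF : ∀ l, F6 c (S l) (p l)) (hσ : 9 / 4 ≤ ∑ l, S l ^ 2) (i j : Fin 6) (hij : i ≠ j)
    (h3 : ∀ l, ∑ m, S m ^ 2 - (S i ^ 2 + S j ^ 2) ≤ 30 * S l ^ 2) : 1 < ∑ l, p l := by
  have hcp : 0 ≤ c := by linarith
  obtain ⟨w, hw⟩ : ∃ w, w = ∑ m, S m ^ 2 - (S i ^ 2 + S j ^ 2) := ⟨_, rfl⟩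
  obtain ⟨hw1, hw2, hw3⟩ := pair_large (hF i).s0 (hF i).s1 (hF j).s0 (hF j).s1 hσ hw
  rw [← hw] at h3
  rcases le_total w (122 / 100) with hle | hge
  · obtain ⟨hSi, hSj⟩ := hw3 hle
    obtain ⟨hm0, hmw⟩ := sqrt_facts (w := w) (N := 30) (by norm_num) (by linarith)
    have hmS : ∀ l, Real.sqrt (w / 30) ≤ S l := fun l =>
      sqrt_le_of (by norm_num) (hF l).s0 (h3 l)
    have hma : 91 / 1000 ≤ Real.sqrt (w / 30) := le_sqrt_of (by norm_num) (by linarith)
    have hmb : Real.sqrt (w / 30) ≤ 2017 / 10000 :=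
      sqrt_le_of (by norm_num) (by norm_num) (by linarith)
    generalize Real.sqrt (w / 30) = m at hm0 hmw hmS hma hmb
    have hcast : ((6 : ℕ) : ℝ) - 2 = 4 := by norm_num
    rcases le_total m (3 / 20) with h | h
    · have ho := others S p i j hij (c := c) (s0 := 33 / 50) (m := m)
        (fun l => e6_oth0 (hF l) hcp hc1 hma h (hmS l))
      rw [← hw, hcast] at ho
      exact finish (by norm_num) hw2 hmw (e6_pair0 (hF i) hc0 hSi) (e6_pair0 (hF j) hc0 hSj)
        (by linarith) ho (e6_fin0 hc0 hma h)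
    · have ho := others S p i j hij (c := c) (s0 := 321 / 500) (m := m)
        (fun l => e6_oth1 (hF l) hcp hc1 h hmb (hmS l))
      rw [← hw, hcast] at ho
      exact finish (by norm_num) hw2 hmw (e6_pair1 (hF i) hc0 hSi) (e6_pair1 (hF j) hc0 hSj)
        (by linarith) ho (e6_fin1 hc0 h hmb)
  · have hmS : ∀ l, (2016 / 10000 : ℝ) ≤ S l := by
      intro l
      by_contra hcon
      push Not at hcon
      have := h3 l
      have := (hF l).s0
      nlinarith
    have ha := all_cells S p (c := c) (s0 := 321 / 500) (m := 2016 / 10000)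
      (fun l => e6_oth1 (hF l) hcp hc1 (by norm_num) (by norm_num) (hmS l))
    by_contra hcon
    push Not at hcon
    push_cast at ha
    nlinarith

/-- end game for `k = 5` -/
theorem end5 {c : ℝ} (hc0 : 28209 / 100000 ≤ c) (hc1 : c ≤ 2821 / 10000) (S p : Fin 5 → ℝ)
    (hF : ∀ l, F5 c (S l) (p l)) (hσ : 9 / 4 ≤ ∑ l, S l ^ 2) (i j : Fin 5) (hij : i ≠ j)
    (h3 : ∀ l, ∑ m, S m ^ 2 - (S i ^ 2 + S j ^ 2) ≤ 20 * S l ^ 2) : 1 < ∑ l, p l := by
  have hcp : 0 ≤ c := by linarith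
  obtain ⟨w, hw⟩ : ∃ w, w = ∑ m, S m ^ 2 - (S i ^ 2 + S j ^ 2) := ⟨_, rfl⟩
  obtain ⟨hw1, hw2, hw3⟩ := pair_large (hF i).s0 (hF i).s1 (hF j).s0 (hF j).s1 hσ hw
  rw [← hw] at h3
  rcases le_total w (122 / 100) with hle | hge
  · obtain ⟨hSi, hSj⟩ := hw3 hle
    obtain ⟨hm0, hmw⟩ := sqrt_facts (w := w) (N := 20) (by norm_num) (by linarith)
    have hmS : ∀ l, Real.sqrt (w / 20) ≤ S l := fun l =>
      sqrt_le_of (by norm_num) (hF l).s0 (h3 l)
    have hma : 559 / 5000 ≤ Real.sqrt (w / 20) := le_sqrt_of (by norm_num) (by linarith)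
    have hmb : Real.sqrt (w / 20) ≤ 247 / 1000 :=
      sqrt_le_of (by norm_num) (by norm_num) (by linarith)
    generalize Real.sqrt (w / 20) = m at hm0 hmw hmS hma hmb
    have hcast : ((5 : ℕ) : ℝ) - 2 = 3 := by norm_num
    rcases le_total m (4 / 25) with h | h
    · have ho := others S p i j hij (c := c) (s0 := 641 / 1000) (m := m)
        (fun l => e5_oth0 (hF l) hcp hc1 hma h (hmS l))
      rw [← hw, hcast] at ho
      exact finish (by norm_num) hw2 hmw (e5_pair0 (hF i) hc0 hSi) (e5_pair0 (hF j) hc0 hSj)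
        (by linarith) ho (e5_fin0 hc0 hma h)
    rcases le_total m (19 / 100) with h' | h'
    · have ho := others S p i j hij (c := c) (s0 := 31 / 50) (m := m)
        (fun l => e5_oth1 (hF l) hcp hc1 h h' (hmS l))
      rw [← hw, hcast] at ho
      exact finish (by norm_num) hw2 hmw (e5_pair1 (hF i) hc0 hSi) (e5_pair1 (hF j) hc0 hSj)
        (by linarith) ho (e5_fin1 hc0 h h')
    rcases le_total m (11 / 50) with h'' | h''
    · have ho := others S p i j hij (c := c) (s0 := 121 / 200) (m := m)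
        (fun l => e5_oth2 (hF l) hcp hc1 h' h'' (hmS l))
      rw [← hw, hcast] at ho
      exact finish (by norm_num) hw2 hmw (e5_pair2 (hF i) hc0 hSi) (e5_pair2 (hF j) hc0 hSj)
        (by linarith) ho (e5_fin2 hc0 h' h'')
    · have ho := others S p i j hij (c := c) (s0 := 591 / 1000) (m := m)
        (fun l => e5_oth3 (hF l) hcp hc1 h'' hmb (hmS l))
      rw [← hw, hcast] at ho
      exact finish (by norm_num) hw2 hmw (e5_pair3 (hF i) hc0 hSi) (e5_pair3 (hF j) hc0 hSj)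
        (by linarith) ho (e5_fin3 hc0 h'' hmb)
  · have hmS : ∀ l, (2469 / 10000 : ℝ) ≤ S l := by
      intro l
      by_contra hcon
      push Not at hcon
      have := h3 l
      have := (hF l).s0
      nlinarith
    have ha := all_cells S p (c := c) (s0 := 591 / 1000) (m := 2469 / 10000)
      (fun l => e5_oth3 (hF l) hcp hc1 (by norm_num) (by norm_num) (hmS l))
    by_contra hcon
    push Not at hcon
    push_cast at ha
    nlinarith

end P226
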