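import Vale.Agent.P226.PartAE

/-!
Final theorem modulo `PK k` for all `k` and the attainment by the propeller (helper5).
-/

namespace P226

open MeasureTheory ProbabilityTheory Set Vale.Agent.P226S
open scoped RealInnerProductSpace

theorem isPartition_of {d k : ℕ} {A : Fin k → Set (EuclideanSpace ℝ (Fin d))}
    (hA : ∀ i, MeasurableSet (A i)) (hd : Pairwise (Function.onFun Disjoint A))
    (hU : ⋃ i, A i = univ) : IsPartition A where
  measurable := hA
  disjoint := by
    intro i j hij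
    rw [(hd hij).inter_eq, measure_empty]
  cover := by rw [hU, compl_univ, measure_empty]

theorem final_thm (hPK : ∀ k, PK k)
    (hprop : ∀ d k : ℕ, 2 ≤ d → 3 ≤ k → ∃ A : Fin k → Set (EuclideanSpace ℝ (Fin d)),
      (∀ i, MeasurableSet (A i)) ∧ Pairwise (Function.onFun Disjoint A) ∧ (⋃ i, A i = univ) ∧
      ∑ i, ‖∫ x in A i, x ∂(stdGaussian (EuclideanSpace ℝ (Fin d)))‖ ^ 2 = 9 / (8 * Real.pi)) :
    (∀ (d k : ℕ) (A : Fin k → Set (EuclideanSpace ℝ (Fin d))), IsPartition A →
      functional A ≤ 9 / (8 * Real.pi)) ∧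
    (∀ d k : ℕ, 2 ≤ d → 3 ≤ k →
      (∃ A : Fin k → Set (EuclideanSpace ℝ (Fin d)), IsPartition A ∧
        functional A = 9 / (8 * Real.pi)) ∧
      M d k = 9 / (8 * Real.pi)) := by
  have h1 : ∀ (d k : ℕ) (A : Fin k → Set (EuclideanSpace ℝ (Fin d))), IsPartition A →
      functional A ≤ 9 / (8 * Real.pi) := fun d k A hA =>
    family_le hPK A hA.measurable hA.disjoint
  refine ⟨h1, fun d k hd hk => ?_⟩
  obtain ⟨A, hm, hdis, hU, hs⟩ := hprop d k hd hk
  have hf : functional A = 9 / (8 * Real.pi) := by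
    unfold functional
    rw [← hs]
    refine Finset.sum_congr rfl fun i _ => ?_
    rw [gaussMoment_eq _ (hm i)]
  have h2 : ∃ A : Fin k → Set (EuclideanSpace ℝ (Fin d)), IsPartition A ∧
        functional A = 9 / (8 * Real.pi) := ⟨A, isPartition_of hm hdis hU, hf⟩
  refine ⟨h2, ?_⟩
  have h3 : IsGreatest {r : ℝ | ∃ A : Fin k → Set (EuclideanSpace ℝ (Fin d)), IsPartition A ∧
      functional A = r} (9 / (8 * Real.pi)) := by
    refine ⟨h2, ?_⟩
    rintro r ⟨B, hB, rfl⟩
    exact h1 d k B hB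
  exact h3.csSup_eq

end P226
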