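import Vale.Agent.P226.Defs

/-!
M6, part 1: splitting the standard Gaussian along a direction, integration by parts in one
variable and in `E`.
-/

namespace P226

open MeasureTheory ProbabilityTheory Set Filter Topology
open scoped RealInnerProductSpace

section alg
variable {E : Type*} [NormedAddCommGroup E] [InnerProductSpace ℝ E]

theorem inner_prj_left (b x t : E) :
    ⟪prj b x, t⟫ = ⟪x, t⟫ - ⟪x, b⟫ / ‖b‖ ^ 2 * ⟪b, t⟫ := by
  simp [prj, inner_sub_left, inner_smul_left]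

theorem inner_prj_comm (b x t : E) : ⟪prj b x, t⟫ = ⟪x, prj b t⟫ := by
  rw [inner_prj_left, prj, inner_sub_right, inner_smul_right, real_inner_comm t b]
  ring

theorem inner_prj_self (b x : E) (hb : b ≠ 0) : ⟪prj b x, b⟫ = 0 := by
  have h : ‖b‖ ≠ 0 := norm_ne_zero_iff.mpr hb
  rw [inner_prj_left, real_inner_self_eq_norm_sq]
  field_simp
  ring

theorem norm_sq_prj (b t : E) (hb : b ≠ 0) :
    ‖prj b t‖ ^ 2 = ‖t‖ ^ 2 - ⟪t, b⟫ ^ 2 / ‖b‖ ^ 2 := by
  have h : ‖b‖ ≠ 0 := norm_ne_zero_iff.mpr hb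
  rw [← real_inner_self_eq_norm_sq, ← inner_prj_comm, prj, prj]
  simp only [inner_sub_left, inner_smul_left, real_inner_self_eq_norm_sq, RCLike.conj_to_real]
  rw [real_inner_comm b t]
  field_simp
  ring

theorem norm_prj_le (b t : E) : ‖prj b t‖ ≤ ‖t‖ := by
  by_cases hb : b = 0
  · simp [prj, hb]
  · have h := norm_sq_prj b t hb
    have h2 : ‖prj b t‖ ^ 2 ≤ ‖t‖ ^ 2 := by
      rw [h]
      have : 0 ≤ ⟪t, b⟫ ^ 2 / ‖b‖ ^ 2 := by positivity
      linarith
    exact le_of_sq_le_sq h2 (norm_nonneg _) 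

theorem prj_ne_zero (b m : E) (h : ∀ c : ℝ, m ≠ c • b) : prj b m ≠ 0 := by
  intro h0
  rw [prj, sub_eq_zero] at h0
  exact h _ h0

theorem continuous_prj (b : E) : Continuous (prj b) := by
  unfold prj
  fun_prop

end alg

theorem measurable_splitMap {E : Type*} [NormedAddCommGroup E] [InnerProductSpace ℝ E]
    [FiniteDimensional ℝ E] [MeasurableSpace E] [BorelSpace E] (a : E) :
    Measurable (fun p : E × ℝ => prj a p.1 + (p.2 / ‖a‖) • a) := by
  have h : Continuous (fun p : E × ℝ => prj a p.1 + (p.2 / ‖a‖) • a) := by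
    unfold prj
    fun_prop
  exact h.measurable

variable {E : Type*} [NormedAddCommGroup E] [InnerProductSpace ℝ E] [FiniteDimensional ℝ E]
  [MeasurableSpace E] [BorelSpace E]

theorem stdGaussian_split (a : E) (ha : a ≠ 0) :
    ((stdGaussian E).prod (gaussianReal 0 1)).map (fun p => prj a p.1 + (p.2 / ‖a‖) • a) =
      stdGaussian E := by
  have hna : ‖a‖ ≠ 0 := norm_ne_zero_iff.mpr ha
  have : IsProbabilityMeasure (((stdGaussian E).prod (gaussianReal 0 1)).map
      (fun p => prj a p.1 + (p.2 / ‖a‖) • a)) :=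
    Measure.isProbabilityMeasure_map (measurable_splitMap a).aemeasurable
  apply Measure.ext_of_charFun (E := E)
  ext t
  rw [charFun_apply, integral_map (measurable_splitMap a).aemeasurable
    (Measurable.aestronglyMeasurable (by fun_prop))]
  have h1 : ∀ p : E × ℝ, Complex.exp ((⟪prj a p.1 + (p.2 / ‖a‖) • a, t⟫ : ℝ) * Complex.I) =
      Complex.exp ((⟪p.1, prj a t⟫ : ℝ) * Complex.I) *
        Complex.exp ((⟪p.2, ⟪a, t⟫ / ‖a‖⟫ : ℝ) * Complex.I) := by
    intro p
    rw [← Complex.exp_add, inner_add_left, inner_prj_comm, inner_smul_left]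
    congr 1
    have : (⟪p.2, ⟪a, t⟫ / ‖a‖⟫ : ℝ) = ⟪a, t⟫ / ‖a‖ * p.2 := by simp
    rw [this]
    simp only [RCLike.conj_to_real]
    push_cast
    ring
  simp_rw [h1]
  rw [integral_prod_mul (fun x : E => Complex.exp ((⟪x, prj a t⟫ : ℝ) * Complex.I))
    (fun s : ℝ => Complex.exp ((⟪s, ⟪a, t⟫ / ‖a‖⟫ : ℝ) * Complex.I)),
    ← charFun_apply, ← charFun_apply, charFun_stdGaussian, charFun_stdGaussian,
    charFun_gaussianReal, ← Complex.exp_add]
  congr 1
  have h2 := norm_sq_prj a t ha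
  have h3 : ((‖prj a t‖ ^ 2 : ℝ) : ℂ) = ((‖t‖ ^ 2 - ⟪t, a⟫ ^ 2 / ‖a‖ ^ 2 : ℝ) : ℂ) := by rw [h2]
  rw [real_inner_comm a t] at h3
  push_cast at h3 ⊢
  rw [h3]
  field_simp
  ring

end P226
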