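import Vale.Agent.P226.GG1

/-!
M6, part 2: integration by parts.
-/

namespace P226

open MeasureTheory ProbabilityTheory Set Filter Topology
open scoped RealInnerProductSpace

/-- polynomially bounded functions are integrable for Gaussian measures. -/
theorem integrable_of_bound {G : Type*} [NormedAddCommGroup G] [NormedSpace ℝ G]
    [MeasurableSpace G] [BorelSpace G] [SecondCountableTopology G] [CompleteSpace G]
    (μ : Measure G) [IsGaussian μ] {f : G → ℝ} (hf : AEStronglyMeasurable f μ) (A : ℝ)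
    (hA : ∀ x, |f x| ≤ A * (1 + ‖x‖ ^ 2)) : Integrable f μ := by
  have h2 : Integrable (fun x : G => ‖x‖ ^ 2) μ :=
    (IsGaussian.memLp_two_id (μ := μ)).norm.integrable_sq
  have h3 : Integrable (fun x : G => A * (1 + ‖x‖ ^ 2)) μ :=
    ((integrable_const 1).add h2).const_mul A
  exact h3.mono' hf (ae_of_all _ fun x => by rw [Real.norm_eq_abs]; exact hA x)

theorem integrable_gaussianReal_iff {f : ℝ → ℝ} :
    Integrable f (gaussianReal 0 1) ↔ Integrable (fun x => gaussianPDFReal 0 1 x * f x) := by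
  have h1 : (1 : NNReal) ≠ 0 := one_ne_zero
  rw [gaussianReal_of_var_ne_zero _ h1,
    integrable_withDensity_iff_integrable_smul' (measurable_gaussianPDF _ _)
      (ae_of_all _ fun _ => gaussianPDF_lt_top)]
  simp [toReal_gaussianPDF]

theorem pdf_eq (t : ℝ) :
    gaussianPDFReal 0 1 t = (Real.sqrt (2 * Real.pi))⁻¹ * Real.exp (-t ^ 2 / 2) := by
  simp [gaussianPDFReal]

theorem hasDerivAt_pdf (t : ℝ) :
    HasDerivAt (gaussianPDFReal 0 1) (-t * gaussianPDFReal 0 1 t) t := by
  have h : (gaussianPDFReal 0 1) = fun t : ℝ =>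
      (Real.sqrt (2 * Real.pi))⁻¹ * Real.exp (-t ^ 2 / 2) := by
    ext t; exact pdf_eq t
  rw [pdf_eq, h]
  have h1 : HasDerivAt (fun t : ℝ => -t ^ 2 / 2) (-t) t := by
    have h := ((hasDerivAt_pow 2 t).neg).div_const 2
    have e : -(((2 : ℕ) : ℝ) * t ^ (2 - 1)) / 2 = -t := by norm_num; ring
    rw [e] at h
    exact h
  have h2 := (h1.exp).const_mul ((Real.sqrt (2 * Real.pi))⁻¹)
  have e : (Real.sqrt (2 * Real.pi))⁻¹ * (Real.exp (-t ^ 2 / 2) * -t) =
      -t * ((Real.sqrt (2 * Real.pi))⁻¹ * Real.exp (-t ^ 2 / 2)) := by ring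
  rw [e] at h2
  exact h2

/-- integration by parts for `N(0,1)`. -/
theorem ibp_real (h h' : ℝ → ℝ) (hh : ∀ t, HasDerivAt h (h' t) t)
    (i0 : Integrable h (gaussianReal 0 1)) (i1 : Integrable (fun t => t * h t) (gaussianReal 0 1))
    (i2 : Integrable h' (gaussianReal 0 1)) :
    ∫ t, t * h t ∂(gaussianReal 0 1) = ∫ t, h' t ∂(gaussianReal 0 1) := by
  have h1 : (1 : NNReal) ≠ 0 := one_ne_zero
  rw [integrable_gaussianReal_iff] at i0 i1 i2
  rw [integral_gaussianReal_eq_integral_smul h1, integral_gaussianReal_eq_integral_smul h1]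
  have key := integral_eq_zero_of_hasDerivAt_of_integrable
    (f := fun t => gaussianPDFReal 0 1 t * h t)
    (f' := fun t => gaussianPDFReal 0 1 t * h' t - gaussianPDFReal 0 1 t * (t * h t)) (by
      intro t
      have h2 := (hasDerivAt_pdf t).mul (hh t)
      have e : -t * gaussianPDFReal 0 1 t * h t + gaussianPDFReal 0 1 t * h' t =
        gaussianPDFReal 0 1 t * h' t - gaussianPDFReal 0 1 t * (t * h t) := by ring
      rw [e] at h2
      exact h2) (i2.sub i1) i0
  rw [integral_sub i2 i1] at key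
  simp only [smul_eq_mul]
  linarith

variable {E : Type*} [NormedAddCommGroup E] [InnerProductSpace ℝ E] [FiniteDimensional ℝ E]
  [MeasurableSpace E] [BorelSpace E]

theorem integral_split (a : E) (ha : a ≠ 0) (G : E → ℝ) (hG : Integrable G (stdGaussian E)) :
    Integrable (fun p : E × ℝ => G (prj a p.1 + (p.2 / ‖a‖) • a))
      ((stdGaussian E).prod (gaussianReal 0 1)) ∧
    ∫ x, G x ∂(stdGaussian E) =
      ∫ y, ∫ t, G (prj a y + (t / ‖a‖) • a) ∂(gaussianReal 0 1) ∂(stdGaussian E) := by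
  have hm := measurable_splitMap a
  have hs := stdGaussian_split a ha
  rw [← hs] at hG
  have hi : Integrable (fun p : E × ℝ => G (prj a p.1 + (p.2 / ‖a‖) • a))
      ((stdGaussian E).prod (gaussianReal 0 1)) := hG.comp_measurable hm
  refine ⟨hi, ?_⟩
  conv_lhs => rw [← hs]
  rw [integral_map hm.aemeasurable hG.aestronglyMeasurable, integral_prod _ hi]

/-- Gaussian integration by parts in direction `v`. -/
theorem ibp_gauss (v : E) (H DH : E → ℝ) (hH : Continuous H) (hDH : Continuous DH)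
    (hd : ∀ (x : E) (t : ℝ), HasDerivAt (fun s : ℝ => H (x + s • v)) (DH (x + t • v)) t)
    (A : ℝ) (hA : ∀ x, |H x| ≤ A * (1 + ‖x‖)) (hB : ∀ x, |DH x| ≤ A * (1 + ‖x‖)) :
    ∫ x, ⟪x, v⟫ * H x ∂(stdGaussian E) = ∫ x, DH x ∂(stdGaussian E) := by
  have hA0 : 0 ≤ A := by
    have := (abs_nonneg _).trans (hA 0)
    simpa using this
  by_cases hv : v = 0
  · subst hv
    have h0 : ∀ x, DH x = 0 := by
      intro x
      have h1 := hd x 0
      simp only [smul_zero, add_zero] at h1
      exact h1.unique (hasDerivAt_const _ _)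
    simp [h0]
  have hnv : 0 < ‖v‖ := norm_pos_iff.mpr hv
  have i1 : Integrable (fun x => ⟪x, v⟫ * H x) (stdGaussian E) := by
    apply integrable_of_bound _ (Continuous.aestronglyMeasurable (by fun_prop)) (2 * ‖v‖ * A)
    intro x
    rw [abs_mul]
    have h1 := abs_real_inner_le_norm x v
    have h2 := hA x
    calc |⟪x, v⟫| * |H x| ≤ (‖x‖ * ‖v‖) * (A * (1 + ‖x‖)) := by gcongr
      _ ≤ 2 * ‖v‖ * A * (1 + ‖x‖ ^ 2) := by
        have : ‖x‖ * (1 + ‖x‖) ≤ 2 * (1 + ‖x‖ ^ 2) := by nlinarith [sq_nonneg (‖x‖ - 1)]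
        have h3 : 0 ≤ ‖v‖ * A := by positivity
        nlinarith
  have i2 : Integrable DH (stdGaussian E) := by
    apply integrable_of_bound _ hDH.aestronglyMeasurable (2 * A)
    intro x
    have h2 := hB x
    have : (1 + ‖x‖) ≤ 2 * (1 + ‖x‖ ^ 2) := by nlinarith [sq_nonneg (‖x‖ - 1)]
    nlinarith
  obtain ⟨_, e1⟩ := integral_split v hv _ i1
  obtain ⟨_, e2⟩ := integral_split v hv _ i2
  rw [e1, e2]
  congr 1
  ext y
  have hin : ∀ t : ℝ, ⟪prj v y + (t / ‖v‖) • v, v⟫ = ‖v‖ * t := by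
    intro t
    rw [inner_add_left, inner_prj_self _ _ hv, inner_smul_left, real_inner_self_eq_norm_sq]
    simp only [RCLike.conj_to_real]
    field_simp
    ring
  have hnorm : ∀ t : ℝ, ‖prj v y + (t / ‖v‖) • v‖ ≤ ‖y‖ + |t| := by
    intro t
    refine (norm_add_le _ _).trans ?_
    rw [norm_smul, Real.norm_eq_abs, abs_div, abs_norm, div_mul_cancel₀ _ hnv.ne']
    gcongr
    exact norm_prj_le v y
  have hcont : Continuous (fun t : ℝ => prj v y + (t / ‖v‖) • v) := by fun_prop
  have hder : ∀ t : ℝ, HasDerivAt (fun t : ℝ => H (prj v y + (t / ‖v‖) • v))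
      (DH (prj v y + (t / ‖v‖) • v) * (1 / ‖v‖)) t := by
    intro t
    have h1 := hd (prj v y) (t / ‖v‖)
    have h2 : HasDerivAt (fun t : ℝ => t / ‖v‖) (1 / ‖v‖) t := (hasDerivAt_id t).div_const _
    exact HasDerivAt.comp t h1 h2
  have j0 : Integrable (fun t : ℝ => H (prj v y + (t / ‖v‖) • v)) (gaussianReal 0 1) := by
    apply integrable_of_bound _ (hH.comp hcont).aestronglyMeasurable (A * (2 + ‖y‖))
    intro t
    refine (hA _).trans ?_
    have h1 := hnorm t
    rw [Real.norm_eq_abs, mul_assoc]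
    have h2 : 1 + ‖prj v y + (t / ‖v‖) • v‖ ≤ (2 + ‖y‖) * (1 + |t| ^ 2) := by
      nlinarith [sq_nonneg (|t| - 1), norm_nonneg y, abs_nonneg t,
        mul_nonneg (norm_nonneg y) (sq_nonneg |t|)]
    exact mul_le_mul_of_nonneg_left h2 hA0
  have j1 : Integrable (fun t : ℝ => t * H (prj v y + (t / ‖v‖) • v)) (gaussianReal 0 1) := by
    apply integrable_of_bound _ (continuous_id.mul (hH.comp hcont)).aestronglyMeasurable
      (A * (2 + ‖y‖))
    intro t
    change |t * H (prj v y + (t / ‖v‖) • v)| ≤ _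
    rw [abs_mul]
    have h0 := hA (prj v y + (t / ‖v‖) • v)
    have h1 := hnorm t
    rw [Real.norm_eq_abs, mul_assoc]
    calc |t| * |H (prj v y + (t / ‖v‖) • v)| ≤ |t| * (A * (1 + (‖y‖ + |t|))) := by
          apply mul_le_mul_of_nonneg_left _ (abs_nonneg _)
          refine h0.trans ?_
          apply mul_le_mul_of_nonneg_left _ hA0
          linarith
      _ = A * (|t| * (1 + (‖y‖ + |t|))) := by ring
      _ ≤ A * ((2 + ‖y‖) * (1 + |t| ^ 2)) := by
          apply mul_le_mul_of_nonneg_left _ hA0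
          nlinarith [sq_nonneg (|t| - 1), norm_nonneg y, abs_nonneg t,
            mul_nonneg (norm_nonneg y) (sq_nonneg (|t| - 1)),
            mul_nonneg (norm_nonneg y) (sq_nonneg |t|)]
  have j2 : Integrable (fun t : ℝ => DH (prj v y + (t / ‖v‖) • v) * (1 / ‖v‖))
      (gaussianReal 0 1) := by
    apply Integrable.mul_const
    apply integrable_of_bound _ (hDH.comp hcont).aestronglyMeasurable (A * (2 + ‖y‖))
    intro t
    refine (hB _).trans ?_
    have h1 := hnorm t
    rw [Real.norm_eq_abs, mul_assoc]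
    have h2 : 1 + ‖prj v y + (t / ‖v‖) • v‖ ≤ (2 + ‖y‖) * (1 + |t| ^ 2) := by
      nlinarith [sq_nonneg (|t| - 1), norm_nonneg y, abs_nonneg t,
        mul_nonneg (norm_nonneg y) (sq_nonneg |t|)]
    exact mul_le_mul_of_nonneg_left h2 hA0
  have key := ibp_real _ _ hder j0 j1 j2
  simp_rw [hin, mul_assoc]
  rw [integral_const_mul, key, integral_mul_const]
  field_simp

end P226
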