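import Vale.Agent.P226.GG2

/-!
M6, part 3: the cut-off function and the boundary limit.
-/

namespace P226

open MeasureTheory ProbabilityTheory Set Filter Topology
open scoped RealInnerProductSpace


theorem hasDerivAt_eta (t : ℝ) : HasDerivAt Real.smoothTransition (deriv Real.smoothTransition t) t :=
  ((Real.smoothTransition.contDiff (n := 1)).differentiable (by norm_num) t).hasDerivAt

theorem continuous_deriv_eta : Continuous (deriv Real.smoothTransition) :=
  (Real.smoothTransition.contDiff (n := 1)).continuous_deriv (by norm_num)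

theorem deriv_eta_of_neg {t : ℝ} (ht : t < 0) : deriv Real.smoothTransition t = 0 := by
  have h : Real.smoothTransition =ᶠ[𝓝 t] fun _ => (0 : ℝ) := by
    filter_upwards [Iio_mem_nhds ht] with x hx
    exact Real.smoothTransition.zero_of_nonpos (le_of_lt hx)
  rw [h.deriv_eq]
  simp

theorem deriv_eta_of_gt {t : ℝ} (ht : 1 < t) : deriv Real.smoothTransition t = 0 := by
  have h : Real.smoothTransition =ᶠ[𝓝 t] fun _ => (1 : ℝ) := by
    filter_upwards [Ioi_mem_nhds ht] with x hx
    exact Real.smoothTransition.one_of_one_le (le_of_lt hx)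
  rw [h.deriv_eq]
  simp

theorem deriv_eta_of_notMem {t : ℝ} (ht : t ∉ Icc (0:ℝ) 1) : deriv Real.smoothTransition t = 0 := by
  rw [mem_Icc, not_and_or, not_le, not_le] at ht
  rcases ht with h | h
  · exact deriv_eta_of_neg h
  · exact deriv_eta_of_gt h

theorem exists_deriv_eta_bound : ∃ M : ℝ, 0 ≤ M ∧ ∀ t, |deriv Real.smoothTransition t| ≤ M := by
  obtain ⟨M, hM⟩ := (isCompact_Icc (a := (0:ℝ)) (b := 1)).exists_bound_of_continuousOn
    (f := deriv Real.smoothTransition) continuous_deriv_eta.continuousOn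
  refine ⟨M, (norm_nonneg _).trans (hM 0 (by simp)), fun t => ?_⟩
  by_cases ht : t ∈ Icc (0:ℝ) 1
  · exact hM t ht
  · rw [deriv_eta_of_notMem ht, abs_zero]
    exact (norm_nonneg _).trans (hM 0 (by simp))

theorem integral_deriv_eta : ∫ s in Icc (0:ℝ) 1, deriv Real.smoothTransition s = 1 := by
  rw [integral_Icc_eq_integral_Ioc, ← intervalIntegral.integral_of_le zero_le_one,
    intervalIntegral.integral_deriv_eq_sub (fun x _ => (hasDerivAt_eta x).differentiableAt)
      (continuous_deriv_eta.intervalIntegrable _ _)]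
  simp [Real.smoothTransition.one, Real.smoothTransition.zero]

theorem eta_prod_le_one {ι : Type*} (s : Finset ι) (f : ι → ℝ) : |∏ m ∈ s, Real.smoothTransition (f m)| ≤ 1 := by
  rw [abs_of_nonneg (Finset.prod_nonneg fun i _ => Real.smoothTransition.nonneg _)]
  exact Finset.prod_le_one (fun i _ => Real.smoothTransition.nonneg _)
    (fun i _ => Real.smoothTransition.le_one _)

/-- linear growth. -/
theorem abs_le_of_deriv (F F' : ℝ → ℝ) (hF : ∀ t, HasDerivAt F (F' t) t) (K : ℝ)
    (hK : ∀ t, |F' t| ≤ K) (t : ℝ) : |F t| ≤ |F 0| + K * |t| := by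
  have h := Convex.norm_image_sub_le_of_norm_hasDerivWithin_le (f := F) (f' := F') (C := K)
    (s := univ) (x := 0) (y := t) (fun x _ => (hF x).hasDerivWithinAt) (fun x _ => hK x)
    convex_univ (mem_univ _) (mem_univ _)
  rw [Real.norm_eq_abs, Real.norm_eq_abs, sub_zero] at h
  have h2 : |F t| ≤ |F t - F 0| + |F 0| := by
    have := abs_add_le (F t - F 0) (F 0)
    simpa using this
  linarith

/-- the sequence of scales. -/
noncomputable def eps (n : ℕ) : ℝ := 1 / ((n : ℝ) + 1)

theorem eps_pos (n : ℕ) : 0 < eps n := by unfold eps; positivity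

theorem eps_le_one (n : ℕ) : eps n ≤ 1 := by
  unfold eps
  rw [div_le_one (by positivity)]
  have : (0:ℝ) ≤ n := by positivity
  linarith

theorem tendsto_eps : Tendsto eps atTop (𝓝 0) := tendsto_one_div_add_atTop_nhds_zero_nat

theorem tendsto_inv_eps : Tendsto (fun n => (eps n)⁻¹) atTop atTop := by
  have : (fun n => (eps n)⁻¹) = fun n : ℕ => (n : ℝ) + 1 := by
    ext n; simp [eps]
  rw [this]
  exact tendsto_natCast_atTop_atTop.atTop_add tendsto_const_nhds

/-- limit of the cut-off. -/
theorem tendsto_eta (c d : ℝ) (hc : c ≠ 0) :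
    Tendsto (fun n => Real.smoothTransition (c / eps n + d)) atTop (𝓝 (if 0 < c then 1 else 0)) := by
  rcases lt_or_gt_of_ne hc with h | h
  · rw [if_neg (not_lt.mpr h.le)]
    have h1 : Tendsto (fun n => c / eps n + d) atTop atBot := by
      simp_rw [div_eq_mul_inv]
      exact (tendsto_inv_eps.const_mul_atTop_of_neg h).atBot_add tendsto_const_nhds
    refine tendsto_const_nhds.congr' ?_
    filter_upwards [h1.eventually (eventually_le_atBot 0)] with n hn
    exact (Real.smoothTransition.zero_of_nonpos hn).symm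
  · rw [if_pos h]
    have h1 : Tendsto (fun n => c / eps n + d) atTop atTop := by
      simp_rw [div_eq_mul_inv]
      exact (tendsto_inv_eps.const_mul_atTop h).atTop_add tendsto_const_nhds
    refine tendsto_const_nhds.congr' ?_
    filter_upwards [h1.eventually (eventually_ge_atTop 1)] with n hn
    exact (Real.smoothTransition.one_of_one_le hn).symm

theorem tendsto_eta' (c : ℝ) :
    Tendsto (fun n => Real.smoothTransition (c / eps n)) atTop (𝓝 (if 0 < c then 1 else 0)) := by
  by_cases hc : c = 0
  · subst hc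
    simp [Real.smoothTransition.zero]
  · simpa using tendsto_eta c 0 hc

open Classical in
theorem prod_ite_eq {ι : Type*} (s : Finset ι) (p : ι → Prop) :
    (∏ m ∈ s, (if p m then (1:ℝ) else 0)) = if ∀ m ∈ s, p m then 1 else 0 := by
  by_cases h : ∀ m ∈ s, p m
  · rw [if_pos h]
    exact Finset.prod_eq_one fun m hm => if_pos (h m hm)
  · rw [if_neg h]
    push Not at h
    obtain ⟨m, hm, hp⟩ := h
    exact Finset.prod_eq_zero hm (if_neg hp)

variable {E : Type*} [NormedAddCommGroup E] [InnerProductSpace ℝ E] [FiniteDimensional ℝ E]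
  [MeasurableSpace E] [BorelSpace E]

/-- hyperplanes are null. -/
theorem ae_inner_ne_zero (w : E) (hw : w ≠ 0) : ∀ᵐ x ∂(stdGaussian E), ⟪x, w⟫ ≠ 0 := by
  have h1 := IsGaussian.map_eq_gaussianReal (μ := stdGaussian E) (innerSL ℝ w)
  have h2 : Var[innerSL ℝ w; stdGaussian E] = ‖w‖ ^ 2 := by
    rw [variance_dual_stdGaussian]; simp
  rw [h2] at h1
  have h3 : (‖w‖ ^ 2).toNNReal ≠ 0 := by simpa using hw
  have h4 : NullSingletonClass (gaussianReal (∫ x, innerSL ℝ w x ∂(stdGaussian E))
      (‖w‖ ^ 2).toNNReal) := nullSingletonClass_gaussianReal h3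
  have h5 : ∀ᵐ z ∂((stdGaussian E).map (innerSL ℝ w)), z ≠ 0 := by
    rw [h1]
    exact Measure.ae_ne _ 0
  have h6 := ae_of_ae_map (by fun_prop) h5
  filter_upwards [h6] with x hx
  rw [real_inner_comm]
  exact hx

end P226
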