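import Vale.Agent.P226.GG3

/-!
M6, part 4: the boundary limit.
-/

namespace P226

open MeasureTheory ProbabilityTheory Set Filter Topology
open scoped RealInnerProductSpace


variable {E : Type*} [NormedAddCommGroup E] [InnerProductSpace ℝ E] [FiniteDimensional ℝ E]
  [MeasurableSpace E] [BorelSpace E]

/-- the boundary layer integrand -/
noncomputable def GI {ι : Type*} (s : Finset ι) (b : ι → E) (a u : E) (F : ℝ → ℝ) (e : ℝ)
    (x : E) : ℝ :=
  F ⟪x, u⟫ * ((∏ m ∈ s, Real.smoothTransition (⟪x, b m⟫ / e)) * (deriv Real.smoothTransition (⟪x, a⟫ / e) / e))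

/-- the rescaled integrand -/
noncomputable def JI {ι : Type*} (s : Finset ι) (b : ι → E) (a u : E) (F : ℝ → ℝ) (e : ℝ)
    (p : E × ℝ) : ℝ :=
  1 / ‖a‖ * (gaussianPDFReal 0 1 (e * p.2 / ‖a‖) *
    (F ⟪prj a p.1 + (e * p.2 / ‖a‖ / ‖a‖) • a, u⟫ *
      ((∏ m ∈ s, Real.smoothTransition (⟪prj a p.1 + (e * p.2 / ‖a‖ / ‖a‖) • a, b m⟫ / e)) * deriv Real.smoothTransition p.2)))

theorem continuous_eta : Continuous Real.smoothTransition := Real.smoothTransition.continuous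

theorem continuous_pdf : Continuous (gaussianPDFReal 0 1) := by
  have h : (gaussianPDFReal 0 1) = fun t : ℝ =>
      (Real.sqrt (2 * Real.pi))⁻¹ * Real.exp (-t ^ 2 / 2) := by
    ext t; exact pdf_eq t
  rw [h]
  fun_prop

theorem pdf_le_one (t : ℝ) : |gaussianPDFReal 0 1 t| ≤ 1 := by
  rw [abs_of_nonneg (gaussianPDFReal_nonneg _ _ _), pdf_eq]
  have h1 : Real.exp (-t ^ 2 / 2) ≤ 1 := by
    apply Real.exp_le_one_iff.mpr
    nlinarith [sq_nonneg t]
  have h2 : (Real.sqrt (2 * Real.pi))⁻¹ ≤ 1 := by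
    apply inv_le_one_of_one_le₀
    rw [Real.one_le_sqrt]
    linarith [Real.pi_gt_three]
  have h3 : 0 ≤ (Real.sqrt (2 * Real.pi))⁻¹ := by positivity
  calc (Real.sqrt (2 * Real.pi))⁻¹ * Real.exp (-t ^ 2 / 2) ≤ 1 * 1 := by
        gcongr
    _ = 1 := one_mul 1

theorem continuous_prjE (a : E) : Continuous (fun p : E × ℝ => prj a p.1) :=
  (continuous_prj a).comp continuous_fst

theorem continuous_JI {ι : Type*} (s : Finset ι) (b : ι → E) (a u : E) (F : ℝ → ℝ)
    (hF : Continuous F) (e : ℝ) : Continuous (JI s b a u F e) := by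
  have h1 := continuous_prjE a
  have h2 := continuous_pdf
  have h3 := continuous_eta
  have h4 := continuous_deriv_eta
  have h5 : Continuous (fun p : E × ℝ => prj a p.1 + (e * p.2 / ‖a‖ / ‖a‖) • a) := by fun_prop
  unfold JI
  refine continuous_const.mul ((h2.comp (by fun_prop)).mul ((hF.comp (by fun_prop)).mul
    (Continuous.mul ?_ (h4.comp continuous_snd))))
  exact continuous_finsetProd _ fun m _ => h3.comp (by fun_prop)

theorem norm_point_le (a y : E) (ha : a ≠ 0) (r : ℝ) :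
    ‖prj a y + (r / ‖a‖) • a‖ ≤ ‖y‖ + |r| := by
  have hnv : 0 < ‖a‖ := norm_pos_iff.mpr ha
  refine (norm_add_le _ _).trans ?_
  rw [norm_smul, Real.norm_eq_abs, abs_div, abs_norm, div_mul_cancel₀ _ hnv.ne']
  gcongr
  exact norm_prj_le a y

theorem bound_JI {ι : Type*} (s : Finset ι) (b : ι → E) (a u : E) (ha : a ≠ 0) (F : ℝ → ℝ)
    (K : ℝ) (hK0 : 0 ≤ K) (hK : ∀ t, |F t| ≤ |F 0| + K * |t|) (M : ℝ) (hM0 : 0 ≤ M)
    (hM : ∀ t, |deriv Real.smoothTransition t| ≤ M) (e : ℝ) (he : 0 < e) (he1 : e ≤ 1) (p : E × ℝ) :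
    |JI s b a u F e p| ≤ 1 / ‖a‖ * ((|F 0| + K * ‖u‖ * (1 + 1 / ‖a‖)) * (1 + ‖p.1‖) * M) := by
  have hnv : 0 < ‖a‖ := norm_pos_iff.mpr ha
  by_cases hp : p.2 ∈ Icc (0:ℝ) 1
  · unfold JI
    rw [abs_mul, abs_of_nonneg (by positivity : 0 ≤ 1 / ‖a‖)]
    apply mul_le_mul_of_nonneg_left _ (by positivity)
    rw [abs_mul, abs_mul, abs_mul]
    have h1 := pdf_le_one (e * p.2 / ‖a‖)
    have h2 := eta_prod_le_one s
      (fun m => ⟪prj a p.1 + (e * p.2 / ‖a‖ / ‖a‖) • a, b m⟫ / e)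
    have h3 := hM p.2
    have h4 := hK ⟪prj a p.1 + (e * p.2 / ‖a‖ / ‖a‖) • a, u⟫
    have h5 := abs_real_inner_le_norm (prj a p.1 + (e * p.2 / ‖a‖ / ‖a‖) • a) u
    have h6 := norm_point_le a p.1 ha (e * p.2 / ‖a‖)
    have h7 : |e * p.2 / ‖a‖| ≤ 1 / ‖a‖ := by
      rw [abs_div, abs_norm]
      gcongr
      rw [abs_mul, abs_of_pos he, abs_of_nonneg hp.1]
      calc e * p.2 ≤ 1 * 1 := by
            apply mul_le_mul he1 hp.2 hp.1 zero_le_one
        _ = 1 := one_mul 1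
    have h8 : |F ⟪prj a p.1 + (e * p.2 / ‖a‖ / ‖a‖) • a, u⟫| ≤
        (|F 0| + K * ‖u‖ * (1 + 1 / ‖a‖)) * (1 + ‖p.1‖) := by
      refine h4.trans ?_
      have h9 : |⟪prj a p.1 + (e * p.2 / ‖a‖ / ‖a‖) • a, u⟫| ≤ (‖p.1‖ + 1 / ‖a‖) * ‖u‖ := by
        refine h5.trans ?_
        gcongr
        exact h6.trans (by linarith)
      have h10 : K * |⟪prj a p.1 + (e * p.2 / ‖a‖ / ‖a‖) • a, u⟫| ≤
          K * ((‖p.1‖ + 1 / ‖a‖) * ‖u‖) := by gcongr
      have h11 : 0 ≤ |F 0| * ‖p.1‖ := by positivity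
      have h12 : 0 ≤ K * ‖u‖ * (1 + ‖p.1‖ * (1 / ‖a‖)) := by positivity
      nlinarith
    calc |gaussianPDFReal 0 1 (e * p.2 / ‖a‖)| *
          (|F ⟪prj a p.1 + (e * p.2 / ‖a‖ / ‖a‖) • a, u⟫| *
          (|∏ m ∈ s, Real.smoothTransition (⟪prj a p.1 + (e * p.2 / ‖a‖ / ‖a‖) • a, b m⟫ / e)| * |deriv Real.smoothTransition p.2|)) ≤
        1 * (((|F 0| + K * ‖u‖ * (1 + 1 / ‖a‖)) * (1 + ‖p.1‖)) * (1 * M)) := by
          gcongr
      _ = _ := by ring
  · have h0 : JI s b a u F e p = 0 := by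
      unfold JI
      rw [deriv_eta_of_notMem hp]
      ring
    rw [h0, abs_zero]
    positivity

theorem continuous_GI {ι : Type*} (s : Finset ι) (b : ι → E) (a u : E) (F : ℝ → ℝ)
    (hF : Continuous F) (e : ℝ) : Continuous (GI s b a u F e) := by
  have h3 := continuous_eta
  have h4 := continuous_deriv_eta
  unfold GI
  refine (hF.comp (by fun_prop)).mul (Continuous.mul ?_ ?_)
  · exact continuous_finsetProd _ fun m _ => h3.comp (by fun_prop)
  · exact (h4.comp (by fun_prop)).div_const _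

theorem integrable_GI {ι : Type*} (s : Finset ι) (b : ι → E) (a u : E) (F : ℝ → ℝ)
    (hF : Continuous F) (K : ℝ) (hK0 : 0 ≤ K) (hK : ∀ t, |F t| ≤ |F 0| + K * |t|)
    (e : ℝ) (he : 0 < e) :
    Integrable (GI s b a u F e) (stdGaussian E) := by
  obtain ⟨M, hM0, hM⟩ := exists_deriv_eta_bound
  apply integrable_of_bound _ (continuous_GI s b a u F hF e).aestronglyMeasurable
    ((|F 0| + K * ‖u‖) * 2 * (M / e))
  intro x
  unfold GI
  rw [abs_mul, abs_mul]
  have h2 := eta_prod_le_one s (fun m => ⟪x, b m⟫ / e)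
  have h3 : |deriv Real.smoothTransition (⟪x, a⟫ / e) / e| ≤ M / e := by
    rw [abs_div, abs_of_pos he]
    gcongr
    exact hM _
  have h4 := hK ⟪x, u⟫
  have h5 := abs_real_inner_le_norm x u
  have h6 : |F ⟪x, u⟫| ≤ (|F 0| + K * ‖u‖) * (1 + ‖x‖) := by
    have : K * |⟪x, u⟫| ≤ K * (‖x‖ * ‖u‖) := by gcongr
    have h7 : 0 ≤ |F 0| * ‖x‖ := by positivity
    have h8 : 0 ≤ K * ‖u‖ := by positivity
    nlinarith
  have h7 : (1 + ‖x‖) ≤ 2 * (1 + ‖x‖ ^ 2) := by nlinarith [sq_nonneg (‖x‖ - 1)]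
  calc |F ⟪x, u⟫| * (|∏ m ∈ s, Real.smoothTransition (⟪x, b m⟫ / e)| * |deriv Real.smoothTransition (⟪x, a⟫ / e) / e|) ≤
      ((|F 0| + K * ‖u‖) * (2 * (1 + ‖x‖ ^ 2))) * (1 * (M / e)) := by
        gcongr
        exact h6.trans (by gcongr)
    _ = _ := by ring

theorem GI_eq_JI {ι : Type*} (s : Finset ι) (b : ι → E) (a u : E) (ha : a ≠ 0) (F : ℝ → ℝ)
    (hF : Continuous F) (K : ℝ) (hK0 : 0 ≤ K) (hK : ∀ t, |F t| ≤ |F 0| + K * |t|)
    (e : ℝ) (he : 0 < e) (he1 : e ≤ 1) :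
    ∫ x, GI s b a u F e x ∂(stdGaussian E) =
      ∫ p, JI s b a u F e p ∂((stdGaussian E).prod (volume.restrict (Icc (0:ℝ) 1))) := by
  obtain ⟨M, hM0, hM⟩ := exists_deriv_eta_bound
  have hna : 0 < ‖a‖ := norm_pos_iff.mpr ha
  have hint : Integrable (JI s b a u F e)
      ((stdGaussian E).prod (volume.restrict (Icc (0:ℝ) 1))) := by
    have h1 : Integrable (fun y : E => 1 / ‖a‖ * ((|F 0| + K * ‖u‖ * (1 + 1 / ‖a‖)) *
        (1 + ‖y‖) * M)) (stdGaussian E) := by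
      apply Integrable.const_mul
      apply Integrable.mul_const
      apply Integrable.const_mul
      exact (integrable_const _).add (IsGaussian.integrable_id (μ := stdGaussian E)).norm
    have h2 := h1.comp_fst (ν := volume.restrict (Icc (0:ℝ) 1))
    exact h2.mono' (continuous_JI s b a u F hF e).aestronglyMeasurable
      (ae_of_all _ fun p => by
        rw [Real.norm_eq_abs]
        exact bound_JI s b a u ha F K hK0 hK M hM0 hM e he he1 p)
  rw [integral_prod _ hint]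
  obtain ⟨_, e1⟩ := integral_split a ha _ (integrable_GI s b a u F hF K hK0 hK e he)
  rw [e1]
  congr 1
  ext y
  rw [integral_gaussianReal_eq_integral_smul one_ne_zero]
  have hc : 0 < e / ‖a‖ := by positivity
  have h1 := Measure.integral_comp_mul_left
    (fun t : ℝ => gaussianPDFReal 0 1 t • GI s b a u F e (prj a y + (t / ‖a‖) • a)) (e / ‖a‖)
  have h2 : ∫ t : ℝ, gaussianPDFReal 0 1 t • GI s b a u F e (prj a y + (t / ‖a‖) • a) =
      ∫ t : ℝ, JI s b a u F e (y, t) := by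
    have h3 : ∀ t : ℝ, JI s b a u F e (y, t) = (e / ‖a‖) *
        (gaussianPDFReal 0 1 (e / ‖a‖ * t) •
          GI s b a u F e (prj a y + ((e / ‖a‖ * t) / ‖a‖) • a)) := by
      intro t
      have e2 : e / ‖a‖ * t = e * t / ‖a‖ := by ring
      rw [e2]
      have h4 : ⟪prj a y + (e * t / ‖a‖ / ‖a‖) • a, a⟫ / e = t := by
        rw [inner_add_left, inner_prj_self _ _ ha, inner_smul_left, real_inner_self_eq_norm_sq]
        simp only [RCLike.conj_to_real]
        field_simp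
        ring
      unfold JI GI
      rw [h4]
      simp only [smul_eq_mul]
      field_simp
    simp_rw [h3]
    rw [integral_const_mul, h1, abs_of_pos (inv_pos.mpr hc), smul_eq_mul, ← mul_assoc,
      mul_inv_cancel₀ hc.ne', one_mul]
  rw [h2]
  symm
  apply setIntegral_eq_integral_of_forall_compl_eq_zero
  intro t ht
  unfold JI
  simp only
  rw [deriv_eta_of_notMem ht]
  ring

theorem boundary_limit {ι : Type*} (s : Finset ι) (b : ι → E) (a u : E) (ha : a ≠ 0)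
    (hb : ∀ m ∈ s, ∀ c : ℝ, b m ≠ c • a) (F : ℝ → ℝ)
    (hF : Continuous F) (K : ℝ) (hK0 : 0 ≤ K) (hK : ∀ t, |F t| ≤ |F 0| + K * |t|) :
    Tendsto (fun n => ∫ x, GI s b a u F (eps n) x ∂(stdGaussian E)) atTop
      (𝓝 (1 / (Real.sqrt (2 * Real.pi) * ‖a‖) *
        ∫ x in {x | ∀ m ∈ s, 0 < ⟪prj a x, b m⟫}, F ⟪prj a x, u⟫ ∂(stdGaussian E))) := by
  classical
  obtain ⟨M, hM0, hM⟩ := exists_deriv_eta_bound
  have hna : 0 < ‖a‖ := norm_pos_iff.mpr ha
  have hrw : ∀ n, ∫ x, GI s b a u F (eps n) x ∂(stdGaussian E) =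
      ∫ p, JI s b a u F (eps n) p ∂((stdGaussian E).prod (volume.restrict (Icc (0:ℝ) 1))) :=
    fun n => GI_eq_JI s b a u ha F hF K hK0 hK (eps n) (eps_pos n) (eps_le_one n)
  simp_rw [hrw]
  have h1 : Integrable (fun y : E => 1 / ‖a‖ * ((|F 0| + K * ‖u‖ * (1 + 1 / ‖a‖)) *
      (1 + ‖y‖) * M)) (stdGaussian E) := by
    apply Integrable.const_mul
    apply Integrable.mul_const
    apply Integrable.const_mul
    exact (integrable_const _).add (IsGaussian.integrable_id (μ := stdGaussian E)).norm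
  have h2 := h1.comp_fst (ν := volume.restrict (Icc (0:ℝ) 1))
  -- good points
  have hgood : ∀ᵐ y ∂(stdGaussian E), ∀ m ∈ s, ⟪prj a y, b m⟫ ≠ 0 := by
    rw [Filter.eventually_all_finset]
    intro m hm
    have := ae_inner_ne_zero (prj a (b m)) (prj_ne_zero a (b m) (hb m hm))
    filter_upwards [this] with y hy
    rwa [inner_prj_comm]
  have hgood2 : ∀ᵐ p ∂((stdGaussian E).prod (volume.restrict (Icc (0:ℝ) 1))),
      ∀ m ∈ s, ⟪prj a p.1, b m⟫ ≠ 0 := Measure.quasiMeasurePreserving_fst.ae hgood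
  have hlim := tendsto_integral_of_dominated_convergence
    (μ := (stdGaussian E).prod (volume.restrict (Icc (0:ℝ) 1)))
    (F := fun n => JI s b a u F (eps n))
    (f := fun p => (1 / ‖a‖ * gaussianPDFReal 0 1 0) * ((F ⟪prj a p.1, u⟫ *
      (if ∀ m ∈ s, 0 < ⟪prj a p.1, b m⟫ then 1 else 0)) * deriv Real.smoothTransition p.2))
    (fun p => 1 / ‖a‖ * ((|F 0| + K * ‖u‖ * (1 + 1 / ‖a‖)) * (1 + ‖p.1‖) * M))
    (fun n => (continuous_JI s b a u F hF (eps n)).aestronglyMeasurable) h2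
    (fun n => ae_of_all _ fun p => by
      rw [Real.norm_eq_abs]
      exact bound_JI s b a u ha F K hK0 hK M hM0 hM _ (eps_pos n) (eps_le_one n) p)
    (by
      filter_upwards [hgood2] with p hp
      have t1 : Tendsto (fun n => eps n * p.2 / ‖a‖) atTop (𝓝 0) := by
        have := (tendsto_eps.mul_const p.2).div_const ‖a‖
        simpa using this
      have t2 : Tendsto (fun n => gaussianPDFReal 0 1 (eps n * p.2 / ‖a‖)) atTop
          (𝓝 (gaussianPDFReal 0 1 0)) := (continuous_pdf.tendsto 0).comp t1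
      have t3 : Tendsto (fun n => F ⟪prj a p.1 + (eps n * p.2 / ‖a‖ / ‖a‖) • a, u⟫) atTop
          (𝓝 (F ⟪prj a p.1, u⟫)) := by
        have hc : Continuous (fun r : ℝ => F ⟪prj a p.1 + (r / ‖a‖) • a, u⟫) :=
          hF.comp (by fun_prop)
        have := (hc.tendsto 0).comp t1
        simp only [zero_div, zero_smul, add_zero] at this
        exact this
      have t4 : Tendsto (fun n => ∏ m ∈ s,
          Real.smoothTransition (⟪prj a p.1 + (eps n * p.2 / ‖a‖ / ‖a‖) • a, b m⟫ / eps n)) atTop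
          (𝓝 (∏ m ∈ s, (if 0 < ⟪prj a p.1, b m⟫ then (1:ℝ) else 0))) := by
        apply tendsto_finsetProd
        intro m hm
        have e1 : ∀ n, ⟪prj a p.1 + (eps n * p.2 / ‖a‖ / ‖a‖) • a, b m⟫ / eps n =
            ⟪prj a p.1, b m⟫ / eps n + p.2 / ‖a‖ / ‖a‖ * ⟪a, b m⟫ := by
          intro n
          have := (eps_pos n).ne'
          rw [inner_add_left, inner_smul_left]
          simp only [RCLike.conj_to_real]
          field_simp
        simp_rw [e1]
        exact tendsto_eta _ _ (hp m hm)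
      rw [prod_ite_eq] at t4
      have t5 := ((t2.mul (t3.mul (t4.mul_const (deriv Real.smoothTransition p.2))))).const_mul (1 / ‖a‖)
      have e3 : (1 / ‖a‖ * gaussianPDFReal 0 1 0) * ((F ⟪prj a p.1, u⟫ *
          (if ∀ m ∈ s, 0 < ⟪prj a p.1, b m⟫ then 1 else 0)) * deriv Real.smoothTransition p.2) =
          1 / ‖a‖ * (gaussianPDFReal 0 1 0 * (F ⟪prj a p.1, u⟫ *
          ((if ∀ m ∈ s, 0 < ⟪prj a p.1, b m⟫ then 1 else 0) * deriv Real.smoothTransition p.2))) := by ring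
      rw [e3]
      exact t5)
  have e4 : ∫ p : E × ℝ, (1 / ‖a‖ * gaussianPDFReal 0 1 0) * ((F ⟪prj a p.1, u⟫ *
      (if ∀ m ∈ s, 0 < ⟪prj a p.1, b m⟫ then 1 else 0)) * deriv Real.smoothTransition p.2)
        ∂((stdGaussian E).prod (volume.restrict (Icc (0:ℝ) 1))) =
      (1 / (Real.sqrt (2 * Real.pi) * ‖a‖) *
        ∫ x in {x | ∀ m ∈ s, 0 < ⟪prj a x, b m⟫}, F ⟪prj a x, u⟫ ∂(stdGaussian E)) := by
    rw [integral_const_mul, integral_prod_mul (fun y : E => F ⟪prj a y, u⟫ *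
      (if ∀ m ∈ s, 0 < ⟪prj a y, b m⟫ then (1:ℝ) else 0)) (fun t => deriv Real.smoothTransition t),
      integral_deriv_eta, mul_one, pdf_eq]
    have hms : MeasurableSet {x : E | ∀ m ∈ s, 0 < ⟪prj a x, b m⟫} := by
      have : {x : E | ∀ m ∈ s, 0 < ⟪prj a x, b m⟫} = ⋂ m ∈ s, {x | 0 < ⟪prj a x, b m⟫} := by
        ext x; simp
      rw [this]
      apply Finset.measurableSet_biInter
      intro m _
      have hc : Continuous (fun x : E => ⟪prj a x, b m⟫) := (continuous_prj a).inner continuous_const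
      exact (isOpen_Ioi.preimage hc).measurableSet
    rw [← integral_indicator hms]
    have e5 : (fun y : E => F ⟪prj a y, u⟫ *
      (if ∀ m ∈ s, 0 < ⟪prj a y, b m⟫ then (1:ℝ) else 0)) =
      {x : E | ∀ m ∈ s, 0 < ⟪prj a x, b m⟫}.indicator (fun x => F ⟪prj a x, u⟫) := by
      ext y
      by_cases hy : ∀ m ∈ s, 0 < ⟪prj a y, b m⟫
      · rw [if_pos hy, indicator_of_mem (by exact hy), mul_one]
      · rw [if_neg hy, indicator_of_notMem (by exact hy), mul_zero]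
    rw [e5]
    simp
  rw [e4] at hlim
  exact hlim

end P226
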