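import Vale.Agent.P226.Defs
import Vale.Agent.P226.GG4

/-!
M6: Gauss-Green formula on polyhedral cones for ridge functions.
-/

namespace P226

open MeasureTheory ProbabilityTheory Set Filter Topology
open scoped RealInnerProductSpace

variable {E : Type*} [NormedAddCommGroup E] [InnerProductSpace ℝ E] [FiniteDimensional ℝ E]
  [MeasurableSpace E] [BorelSpace E]

theorem bound_GI {E : Type*} [NormedAddCommGroup E] [InnerProductSpace ℝ E]
    {ι : Type*} (s : Finset ι) (b : ι → E) (a u : E) (F : ℝ → ℝ)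
    (K : ℝ) (hK0 : 0 ≤ K) (hK : ∀ t, |F t| ≤ |F 0| + K * |t|) (M : ℝ)
    (hM : ∀ t, |deriv Real.smoothTransition t| ≤ M)
    (e : ℝ) (he : 0 < e) (x : E) :
    |GI s b a u F e x| ≤ (|F 0| + K * ‖u‖) * (M / e) * (1 + ‖x‖) := by
  unfold GI
  rw [abs_mul, abs_mul]
  have h2 := eta_prod_le_one s (fun m => ⟪x, b m⟫ / e)
  have h3 : |deriv Real.smoothTransition (⟪x, a⟫ / e) / e| ≤ M / e := by
    rw [abs_div, abs_of_pos he]
    gcongr
    exact hM _
  have h4 := hK ⟪x, u⟫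
  have h5 := abs_real_inner_le_norm x u
  have h6 : |F ⟪x, u⟫| ≤ (|F 0| + K * ‖u‖) * (1 + ‖x‖) := by
    have : K * |⟪x, u⟫| ≤ K * (‖x‖ * ‖u‖) := by gcongr
    have h7 : 0 ≤ |F 0| * ‖x‖ := by positivity
    have h8 : 0 ≤ K * ‖u‖ := by positivity
    nlinarith
  calc |F ⟪x, u⟫| * (|∏ m ∈ s, Real.smoothTransition (⟪x, b m⟫ / e)| *
        |deriv Real.smoothTransition (⟪x, a⟫ / e) / e|) ≤
      ((|F 0| + K * ‖u‖) * (1 + ‖x‖)) * (1 * (M / e)) := by
        gcongr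
    _ = _ := by ring

theorem hasDerivAt_line {E : Type*} [NormedAddCommGroup E] [InnerProductSpace ℝ E]
    (x v w : E) (t : ℝ) :
    HasDerivAt (fun s : ℝ => ⟪x + s • v, w⟫) ⟪v, w⟫ t := by
  have h : (fun s : ℝ => ⟪x + s • v, w⟫) = fun s : ℝ => ⟪x, w⟫ + s * ⟪v, w⟫ := by
    ext s
    rw [inner_add_left, inner_smul_left]
    simp
  rw [h]
  have := ((hasDerivAt_id t).mul_const ⟪v, w⟫).const_add ⟪x, w⟫
  simpa using this

/-- the smoothed identity -/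
theorem gauss_green_eps {ι : Type*} [Fintype ι] [DecidableEq ι] (b : ι → E) (F F' : ℝ → ℝ)
    (hF : ∀ t, HasDerivAt F (F' t) t) (hF' : Continuous F') (K : ℝ) (hK : ∀ t, |F' t| ≤ K)
    (u v : E) (e : ℝ) (he : 0 < e) :
    ∫ x, ((⟪x, v⟫ * F ⟪x, u⟫ - ⟪u, v⟫ * F' ⟪x, u⟫) *
        ∏ l, Real.smoothTransition (⟪x, b l⟫ / e)) ∂(stdGaussian E) =
      ∑ l, ⟪b l, v⟫ * ∫ x, GI (Finset.univ.erase l) b (b l) u F e x ∂(stdGaussian E) := by
  obtain ⟨M, hM0, hM⟩ := exists_deriv_eta_bound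
  have hK0 : 0 ≤ K := (abs_nonneg _).trans (hK 0)
  have hFc : Continuous F :=
    continuous_iff_continuousAt.mpr fun t => (hF t).continuousAt
  have hFb : ∀ t, |F t| ≤ |F 0| + K * |t| := abs_le_of_deriv F F' hF K hK
  have hec := continuous_eta
  have hPc : Continuous (fun x : E => ∏ l, Real.smoothTransition (⟪x, b l⟫ / e)) :=
    continuous_finsetProd _ fun m _ => hec.comp (by fun_prop)
  have hGc : ∀ l, Continuous (GI (Finset.univ.erase l) b (b l) u F e) :=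
    fun l => continuous_GI _ _ _ _ _ hFc _
  have hFxu : ∀ x : E, |F ⟪x, u⟫| ≤ (|F 0| + K * ‖u‖) * (1 + ‖x‖) := by
    intro x
    have h4 := hFb ⟪x, u⟫
    have h5 := abs_real_inner_le_norm x u
    have : K * |⟪x, u⟫| ≤ K * (‖x‖ * ‖u‖) := by gcongr
    have h7 : 0 ≤ |F 0| * ‖x‖ := by positivity
    have h8 : 0 ≤ K * ‖u‖ := by positivity
    nlinarith
  set A1 : ℝ := |F 0| + K * ‖u‖ with hA1
  have hA10 : 0 ≤ A1 := by positivity
  set A2 : ℝ := |⟪u, v⟫| * K + ∑ l, |⟪b l, v⟫| * (A1 * (M / e)) with hA2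
  have hA20 : 0 ≤ A2 := by positivity
  have key := ibp_gauss v
    (fun x : E => F ⟪x, u⟫ * ∏ l, Real.smoothTransition (⟪x, b l⟫ / e))
    (fun x : E => (⟪u, v⟫ * F' ⟪x, u⟫) * ∏ l, Real.smoothTransition (⟪x, b l⟫ / e) +
      ∑ l, ⟪b l, v⟫ * GI (Finset.univ.erase l) b (b l) u F e x)
    ((hFc.comp (by fun_prop)).mul hPc)
    (((continuous_const.mul (hF'.comp (by fun_prop))).mul hPc).add
      (continuous_finsetSum _ fun l _ => continuous_const.mul (hGc l)))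
    (by
      intro x t
      have h1 : HasDerivAt (fun s : ℝ => F ⟪x + s • v, u⟫) (F' ⟪x + t • v, u⟫ * ⟪v, u⟫) t :=
        (hF _).comp t (hasDerivAt_line x v u t)
      have h2 : ∀ l ∈ (Finset.univ : Finset ι),
          HasDerivAt (fun s : ℝ => Real.smoothTransition (⟪x + s • v, b l⟫ / e))
          (deriv Real.smoothTransition (⟪x + t • v, b l⟫ / e) * (⟪v, b l⟫ / e)) t := by
        intro l _
        exact (hasDerivAt_eta _).comp t ((hasDerivAt_line x v (b l) t).div_const e)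
      have h3 := HasDerivAt.finsetProd h2
      have h4 := h1.mul h3
      have e1 : (fun s : ℝ => F ⟪x + s • v, u⟫ *
          ∏ l, Real.smoothTransition (⟪x + s • v, b l⟫ / e)) =
          (fun s : ℝ => F ⟪x + s • v, u⟫) *
          ∏ l, (fun s : ℝ => Real.smoothTransition (⟪x + s • v, b l⟫ / e)) := by
        ext s
        simp [Finset.prod_apply]
      rw [e1]
      refine h4.congr_deriv ?_
      simp only [Finset.prod_apply, smul_eq_mul, GI]
      rw [Finset.mul_sum]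
      congr 1
      · rw [real_inner_comm v u]; ring
      · apply Finset.sum_congr rfl
        intro l _
        rw [real_inner_comm v (b l)]
        ring)
    (A1 + A2)
    (by
      intro x
      rw [abs_mul]
      have h2 := eta_prod_le_one Finset.univ (fun m => ⟪x, b m⟫ / e)
      calc |F ⟪x, u⟫| * |∏ l, Real.smoothTransition (⟪x, b l⟫ / e)| ≤
          (A1 * (1 + ‖x‖)) * 1 := by
            gcongr
            exact hFxu x
        _ ≤ (A1 + A2) * (1 + ‖x‖) := by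
            have : 0 ≤ A2 * (1 + ‖x‖) := by positivity
            nlinarith)
    (by
      intro x
      have h2 := eta_prod_le_one Finset.univ (fun m => ⟪x, b m⟫ / e)
      have h3 : |(⟪u, v⟫ * F' ⟪x, u⟫) * ∏ l, Real.smoothTransition (⟪x, b l⟫ / e)| ≤
          |⟪u, v⟫| * K * (1 + ‖x‖) := by
        rw [abs_mul, abs_mul]
        calc |⟪u, v⟫| * |F' ⟪x, u⟫| * |∏ l, Real.smoothTransition (⟪x, b l⟫ / e)| ≤
            |⟪u, v⟫| * K * 1 := by
              gcongr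
              exact hK _
          _ ≤ |⟪u, v⟫| * K * (1 + ‖x‖) := by
              gcongr
              linarith [norm_nonneg x]
      have h4 : |∑ l, ⟪b l, v⟫ * GI (Finset.univ.erase l) b (b l) u F e x| ≤
          (∑ l, |⟪b l, v⟫| * (A1 * (M / e))) * (1 + ‖x‖) := by
        refine (Finset.abs_sum_le_sum_abs _ _).trans ?_
        rw [Finset.sum_mul]
        apply Finset.sum_le_sum
        intro l _
        rw [abs_mul, mul_assoc]
        apply mul_le_mul_of_nonneg_left _ (abs_nonneg _)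
        exact bound_GI _ _ _ _ _ K hK0 hFb M hM e he x
      refine (abs_add_le _ _).trans ?_
      have : 0 ≤ A1 * (1 + ‖x‖) := by positivity
      nlinarith)
  -- integrability
  have i1 : Integrable (fun x : E => ⟪x, v⟫ * (F ⟪x, u⟫ *
      ∏ l, Real.smoothTransition (⟪x, b l⟫ / e))) (stdGaussian E) := by
    apply integrable_of_bound _ (Continuous.aestronglyMeasurable
      ((continuous_id.inner continuous_const).mul ((hFc.comp (by fun_prop)).mul hPc)))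
      (‖v‖ * A1 * 2)
    intro x
    have h2 := eta_prod_le_one Finset.univ (fun m => ⟪x, b m⟫ / e)
    have h7 : ‖x‖ * (1 + ‖x‖) ≤ 2 * (1 + ‖x‖ ^ 2) := by nlinarith [sq_nonneg (‖x‖ - 1)]
    change |⟪x, v⟫ * (F ⟪x, u⟫ * ∏ l, Real.smoothTransition (⟪x, b l⟫ / e))| ≤ _
    rw [abs_mul, abs_mul]
    calc |⟪x, v⟫| * (|F ⟪x, u⟫| * |∏ l, Real.smoothTransition (⟪x, b l⟫ / e)|) ≤
        (‖x‖ * ‖v‖) * ((A1 * (1 + ‖x‖)) * 1) := by
          gcongr
          · exact abs_real_inner_le_norm x v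
          · exact hFxu x
      _ = ‖v‖ * A1 * (‖x‖ * (1 + ‖x‖)) := by ring
      _ ≤ ‖v‖ * A1 * (2 * (1 + ‖x‖ ^ 2)) := by gcongr
      _ = _ := by ring
  have i2 : Integrable (fun x : E => (⟪u, v⟫ * F' ⟪x, u⟫) *
      ∏ l, Real.smoothTransition (⟪x, b l⟫ / e)) (stdGaussian E) := by
    apply integrable_of_bound _ (Continuous.aestronglyMeasurable
      ((continuous_const.mul (hF'.comp (by fun_prop))).mul hPc)) (|⟪u, v⟫| * K)
    intro x
    have h2 := eta_prod_le_one Finset.univ (fun m => ⟪x, b m⟫ / e)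
    change |(⟪u, v⟫ * F' ⟪x, u⟫) * ∏ l, Real.smoothTransition (⟪x, b l⟫ / e)| ≤ _
    rw [abs_mul, abs_mul]
    calc |⟪u, v⟫| * |F' ⟪x, u⟫| * |∏ l, Real.smoothTransition (⟪x, b l⟫ / e)| ≤
        |⟪u, v⟫| * K * 1 := by
          gcongr
          exact hK _
      _ ≤ |⟪u, v⟫| * K * (1 + ‖x‖ ^ 2) := by
          gcongr
          nlinarith [sq_nonneg ‖x‖]
  have i3 : ∀ l ∈ (Finset.univ : Finset ι), Integrable (fun x : E =>
      ⟪b l, v⟫ * GI (Finset.univ.erase l) b (b l) u F e x) (stdGaussian E) :=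
    fun l _ => (integrable_GI _ _ _ _ _ hFc K hK0 hFb e he).const_mul _
  rw [integral_add i2 (integrable_finsetSum _ i3), integral_finsetSum _ i3] at key
  simp_rw [integral_const_mul] at key
  have e2 : ∀ x : E, ((⟪x, v⟫ * F ⟪x, u⟫ - ⟪u, v⟫ * F' ⟪x, u⟫) *
        ∏ l, Real.smoothTransition (⟪x, b l⟫ / e)) =
      ⟪x, v⟫ * (F ⟪x, u⟫ * ∏ l, Real.smoothTransition (⟪x, b l⟫ / e)) -
      (⟪u, v⟫ * F' ⟪x, u⟫) * ∏ l, Real.smoothTransition (⟪x, b l⟫ / e) := by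
    intro x; ring
  simp_rw [e2]
  rw [integral_sub i1 i2, key]
  ring

/-- M6 -/
theorem gauss_green {ι : Type*} [Fintype ι] [DecidableEq ι] (b : ι → E) (hb0 : ∀ l, b l ≠ 0)
    (hb : ∀ l m, l ≠ m → ∀ c : ℝ, b m ≠ c • b l) (F F' : ℝ → ℝ)
    (hF : ∀ t, HasDerivAt F (F' t) t) (hF' : Continuous F') (K : ℝ) (hK : ∀ t, |F' t| ≤ K)
    (u v : E) :
    ∫ x in {x | ∀ l, 0 < ⟪x, b l⟫}, (⟪x, v⟫ * F ⟪x, u⟫ - ⟪u, v⟫ * F' ⟪x, u⟫) ∂(stdGaussian E) =
      ∑ l, ⟪b l, v⟫ / (Real.sqrt (2 * Real.pi) * ‖b l‖) *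
        ∫ x in {x | ∀ m, m ≠ l → 0 < ⟪prj (b l) x, b m⟫}, F ⟪prj (b l) x, u⟫ ∂(stdGaussian E) := by
  have hK0 : 0 ≤ K := (abs_nonneg _).trans (hK 0)
  have hFc : Continuous F :=
    continuous_iff_continuousAt.mpr fun t => (hF t).continuousAt
  have hFb : ∀ t, |F t| ≤ |F 0| + K * |t| := abs_le_of_deriv F F' hF K hK
  have hec := continuous_eta
  have hFxu : ∀ x : E, |F ⟪x, u⟫| ≤ (|F 0| + K * ‖u‖) * (1 + ‖x‖) := by
    intro x
    have h4 := hFb ⟪x, u⟫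
    have h5 := abs_real_inner_le_norm x u
    have : K * |⟪x, u⟫| ≤ K * (‖x‖ * ‖u‖) := by gcongr
    have h7 : 0 ≤ |F 0| * ‖x‖ := by positivity
    have h8 : 0 ≤ K * ‖u‖ := by positivity
    nlinarith
  have hxv : Continuous (fun x : E => ⟪x, v⟫ * F ⟪x, u⟫ - ⟪u, v⟫ * F' ⟪x, u⟫) :=
    ((continuous_id.inner continuous_const).mul (hFc.comp (by fun_prop))).sub
      (continuous_const.mul (hF'.comp (by fun_prop)))
  set A1 : ℝ := |F 0| + K * ‖u‖ with hA1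
  have hA10 : 0 ≤ A1 := by positivity
  have hbd : ∀ x : E, |⟪x, v⟫ * F ⟪x, u⟫ - ⟪u, v⟫ * F' ⟪x, u⟫| ≤
      (‖v‖ * A1 * 2 + |⟪u, v⟫| * K) * (1 + ‖x‖ ^ 2) := by
    intro x
    have h7 : ‖x‖ * (1 + ‖x‖) ≤ 2 * (1 + ‖x‖ ^ 2) := by nlinarith [sq_nonneg (‖x‖ - 1)]
    refine (abs_sub _ _).trans ?_
    rw [abs_mul, abs_mul]
    have h8 : |⟪x, v⟫| * |F ⟪x, u⟫| ≤ ‖v‖ * A1 * 2 * (1 + ‖x‖ ^ 2) := by
      calc |⟪x, v⟫| * |F ⟪x, u⟫| ≤ (‖x‖ * ‖v‖) * (A1 * (1 + ‖x‖)) := by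
            gcongr
            · exact abs_real_inner_le_norm x v
            · exact hFxu x
        _ = ‖v‖ * A1 * (‖x‖ * (1 + ‖x‖)) := by ring
        _ ≤ ‖v‖ * A1 * (2 * (1 + ‖x‖ ^ 2)) := by gcongr
        _ = _ := by ring
    have h9 : |⟪u, v⟫| * |F' ⟪x, u⟫| ≤ |⟪u, v⟫| * K * (1 + ‖x‖ ^ 2) := by
      calc |⟪u, v⟫| * |F' ⟪x, u⟫| ≤ |⟪u, v⟫| * K * 1 := by
            rw [mul_one]
            gcongr
            exact hK _
        _ ≤ |⟪u, v⟫| * K * (1 + ‖x‖ ^ 2) := by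
            gcongr
            nlinarith [sq_nonneg ‖x‖]
    nlinarith
  have hI : Integrable (fun x : E => ⟪x, v⟫ * F ⟪x, u⟫ - ⟪u, v⟫ * F' ⟪x, u⟫) (stdGaussian E) :=
    integrable_of_bound _ hxv.aestronglyMeasurable _ hbd
  -- limit of the left side
  have hL : Tendsto (fun n => ∫ x, ((⟪x, v⟫ * F ⟪x, u⟫ - ⟪u, v⟫ * F' ⟪x, u⟫) *
        ∏ l, Real.smoothTransition (⟪x, b l⟫ / eps n)) ∂(stdGaussian E)) atTop
      (𝓝 (∫ x, ((⟪x, v⟫ * F ⟪x, u⟫ - ⟪u, v⟫ * F' ⟪x, u⟫) *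
        ∏ l, (if 0 < ⟪x, b l⟫ then (1:ℝ) else 0)) ∂(stdGaussian E))) := by
    apply tendsto_integral_of_dominated_convergence
      (fun x : E => |⟪x, v⟫ * F ⟪x, u⟫ - ⟪u, v⟫ * F' ⟪x, u⟫|)
    · intro n
      exact (hxv.mul (continuous_finsetProd _ fun m _ =>
        hec.comp (by fun_prop))).aestronglyMeasurable
    · exact hI.abs
    · intro n
      refine ae_of_all _ fun x => ?_
      rw [Real.norm_eq_abs, abs_mul]
      have h2 := eta_prod_le_one Finset.univ (fun m => ⟪x, b m⟫ / eps n)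
      exact mul_le_of_le_one_right (abs_nonneg _) h2
    · refine ae_of_all _ fun x => ?_
      apply Tendsto.const_mul
      apply tendsto_finsetProd
      intro m _
      exact tendsto_eta' _
  have hR : Tendsto (fun n => ∑ l, ⟪b l, v⟫ * ∫ x, GI (Finset.univ.erase l) b (b l) u F (eps n) x
        ∂(stdGaussian E)) atTop
      (𝓝 (∑ l, ⟪b l, v⟫ * (1 / (Real.sqrt (2 * Real.pi) * ‖b l‖) *
        ∫ x in {x | ∀ m ∈ Finset.univ.erase l, 0 < ⟪prj (b l) x, b m⟫},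
          F ⟪prj (b l) x, u⟫ ∂(stdGaussian E)))) := by
    apply tendsto_finsetSum
    intro l _
    apply Tendsto.const_mul
    apply boundary_limit _ _ _ _ (hb0 l) _ _ hFc K hK0 hFb
    intro m hm c
    exact hb l m (Ne.symm (Finset.ne_of_mem_erase hm)) c
  have hEq : ∀ n, ∫ x, ((⟪x, v⟫ * F ⟪x, u⟫ - ⟪u, v⟫ * F' ⟪x, u⟫) *
        ∏ l, Real.smoothTransition (⟪x, b l⟫ / eps n)) ∂(stdGaussian E) =
      ∑ l, ⟪b l, v⟫ * ∫ x, GI (Finset.univ.erase l) b (b l) u F (eps n) x ∂(stdGaussian E) :=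
    fun n => gauss_green_eps b F F' hF hF' K hK u v (eps n) (eps_pos n)
  simp_rw [hEq] at hL
  have hU := tendsto_nhds_unique hL hR
  have hms : MeasurableSet {x : E | ∀ l, 0 < ⟪x, b l⟫} := by
    rw [Set.ofPred_forall]
    apply MeasurableSet.iInter
    intro l
    have hc : Continuous (fun x : E => ⟪x, b l⟫) := continuous_id.inner continuous_const
    exact (isOpen_Ioi.preimage hc).measurableSet
  rw [← integral_indicator hms]
  have e1 : ({x : E | ∀ l, 0 < ⟪x, b l⟫}.indicator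
      (fun x => ⟪x, v⟫ * F ⟪x, u⟫ - ⟪u, v⟫ * F' ⟪x, u⟫)) =
      fun x => (⟪x, v⟫ * F ⟪x, u⟫ - ⟪u, v⟫ * F' ⟪x, u⟫) *
        ∏ l, (if 0 < ⟪x, b l⟫ then (1:ℝ) else 0) := by
    ext x
    by_cases hx : ∀ l, 0 < ⟪x, b l⟫
    · rw [indicator_of_mem (by exact hx), Finset.prod_eq_one (fun l _ => if_pos (hx l)), mul_one]
    · rw [indicator_of_notMem (by exact hx)]
      push Not at hx
      obtain ⟨l, hl⟩ := hx
      rw [Finset.prod_eq_zero (Finset.mem_univ l) (if_neg (not_lt.mpr hl)), mul_zero]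
  rw [e1, hU]
  apply Finset.sum_congr rfl
  intro l _
  have e2 : {x : E | ∀ m ∈ Finset.univ.erase l, 0 < ⟪prj (b l) x, b m⟫} =
      {x | ∀ m, m ≠ l → 0 < ⟪prj (b l) x, b m⟫} := by
    ext x; simp
  rw [e2]
  ring

end P226
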