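import Vale.Agent.P226.Density

/-!
Differentiation of exponentially tilted Gaussian integrals at the origin.
-/

namespace P226

open MeasureTheory ProbabilityTheory Set
open scoped RealInnerProductSpace ENNReal Topology

variable {E : Type*} [NormedAddCommGroup E] [InnerProductSpace ℝ E] [FiniteDimensional ℝ E]
  [MeasurableSpace E] [BorelSpace E]

/-- polynomial growth of degree 4 is integrable (with exponential square margin). -/
lemma integrable_of_growth (f : E → ℝ) (hf : AEStronglyMeasurable f (stdGaussian E)) (K : ℝ)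
    (hK : ∀ x, |f x| ≤ K * (1 + ‖x‖ ^ 2) ^ 2) : Integrable f (stdGaussian E) := by
  obtain ⟨C, hC, hint⟩ := IsGaussian.exists_integrable_exp_sq (stdGaussian E)
  have h2 : Integrable (fun x : E => (|K| * (2 / C ^ 2) * Real.exp C) * Real.exp (C * ‖x‖ ^ 2))
      (stdGaussian E) := hint.const_mul _
  refine h2.mono' hf (Filter.Eventually.of_forall fun x => ?_)
  rw [Real.norm_eq_abs]
  refine (hK x).trans ?_
  have h3 : (C * (1 + ‖x‖ ^ 2)) ^ 2 / 2 ≤ Real.exp (C * (1 + ‖x‖ ^ 2)) := by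
    have := Real.quadratic_le_exp_of_nonneg (x := C * (1 + ‖x‖ ^ 2)) (by positivity)
    nlinarith [show 0 ≤ C * (1 + ‖x‖ ^ 2) by positivity]
  have h4 : (1 + ‖x‖ ^ 2) ^ 2 ≤ 2 / C ^ 2 * (Real.exp C * Real.exp (C * ‖x‖ ^ 2)) := by
    rw [← Real.exp_add, show C + C * ‖x‖ ^ 2 = C * (1 + ‖x‖ ^ 2) by ring, div_mul_eq_mul_div,
      le_div_iff₀ (by positivity)]
    nlinarith
  calc K * (1 + ‖x‖ ^ 2) ^ 2 ≤ |K| * (1 + ‖x‖ ^ 2) ^ 2 := by
        gcongr; exact le_abs_self K
    _ ≤ |K| * (2 / C ^ 2 * (Real.exp C * Real.exp (C * ‖x‖ ^ 2))) := by gcongr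
    _ = _ := by ring

theorem hasDerivAt_kappa (f P Q : E → ℝ) (hf : AEStronglyMeasurable f (stdGaussian E))
    (hP : AEStronglyMeasurable P (stdGaussian E)) (hQ : AEStronglyMeasurable Q (stdGaussian E))
    (K : ℝ) (hfK : ∀ x, |f x| ≤ K * (1 + ‖x‖ ^ 2)) (hPK : ∀ x, |P x| ≤ K * (1 + ‖x‖ ^ 2))
    (hQ0 : ∀ x, 0 ≤ Q x) (hQK : ∀ x, Q x ≤ K * (1 + ‖x‖ ^ 2)) :
    HasDerivAt (fun s : ℝ => ∫ x, f x * Real.exp (s * P x - s ^ 2 / 2 * Q x) ∂(stdGaussian E))
      (∫ x, f x * P x ∂(stdGaussian E)) 0 := by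
  obtain ⟨C, hC, hint⟩ := IsGaussian.exists_integrable_exp_sq (stdGaussian E)
  have hK0 : 0 ≤ K := by
    have := (abs_nonneg _).trans (hfK 0)
    simpa using this
  set δ : ℝ := min 1 (C / (2 * (K + 1))) with hδ
  have hδ0 : 0 < δ := by positivity
  have hδ1 : δ ≤ 1 := min_le_left _ _
  have hδ2 : δ * K ≤ C / 2 := by
    have h1 : δ ≤ C / (2 * (K + 1)) := min_le_right _ _
    have h2 : δ * (K + 1) ≤ C / 2 := by
      rw [le_div_iff₀ (by positivity)] at h1
      linarith
    nlinarith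
  set F : ℝ → E → ℝ := fun s x => f x * Real.exp (s * P x - s ^ 2 / 2 * Q x) with hF
  set F' : ℝ → E → ℝ := fun s x => f x * ((P x - s * Q x) *
    Real.exp (s * P x - s ^ 2 / 2 * Q x)) with hF'
  have hmeas : ∀ s, AEStronglyMeasurable (F s) (stdGaussian E) := by
    intro s
    refine hf.mul (Real.continuous_exp.comp_aestronglyMeasurable ?_)
    exact (hP.const_mul s).sub (hQ.const_mul _)
  have hmeas' : ∀ s, AEStronglyMeasurable (F' s) (stdGaussian E) := by
    intro s
    refine hf.mul ((hP.sub (hQ.const_mul s)).mul (Real.continuous_exp.comp_aestronglyMeasurable ?_))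
    exact (hP.const_mul s).sub (hQ.const_mul _)
  have hint2 : Integrable (fun x : E => (2 * K ^ 2 * (8 / C ^ 2) * Real.exp C) *
      Real.exp (C * ‖x‖ ^ 2)) (stdGaussian E) := hint.const_mul _
  have key := hasDerivAt_integral_of_dominated_loc_of_deriv_le (μ := stdGaussian E) (F := F)
    (F' := F') (x₀ := (0:ℝ)) (s := Metric.ball 0 δ) (bound := fun x : E =>
      (2 * K ^ 2 * (8 / C ^ 2) * Real.exp C) * Real.exp (C * ‖x‖ ^ 2))
    (Metric.ball_mem_nhds _ hδ0) (Filter.Eventually.of_forall hmeas)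
    ?_ (hmeas' 0) ?_ hint2 ?_
  · have h2 := key.2
    simpa [hF'] using h2
  · -- integrability at 0
    simp only [hF]
    have : (fun x : E => f x * Real.exp (0 * P x - 0 ^ 2 / 2 * Q x)) = f := by
      ext x; simp
    rw [this]
    refine integrable_of_growth f hf K fun x => (hfK x).trans ?_
    have h1 : (1:ℝ) ≤ 1 + ‖x‖ ^ 2 := by nlinarith [sq_nonneg ‖x‖]
    have h2 : (1 + ‖x‖ ^ 2) ≤ (1 + ‖x‖ ^ 2) ^ 2 := by nlinarith
    exact mul_le_mul_of_nonneg_left h2 hK0
  · refine Filter.Eventually.of_forall fun x s hs => ?_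
    rw [mem_ball_zero_iff, Real.norm_eq_abs] at hs
    simp only [hF', Real.norm_eq_abs, abs_mul, Real.abs_exp]
    set r := 1 + ‖x‖ ^ 2 with hr
    have hr1 : 1 ≤ r := by rw [hr]; nlinarith [sq_nonneg ‖x‖]
    have h1 : |P x - s * Q x| ≤ 2 * K * r := by
      have : |s * Q x| ≤ K * r := by
        rw [abs_mul, abs_of_nonneg (hQ0 x)]
        have := hQK x
        have h0 := hQ0 x
        nlinarith [abs_nonneg s]
      calc |P x - s * Q x| ≤ |P x| + |s * Q x| := abs_sub _ _
        _ ≤ K * r + K * r := add_le_add (hPK x) this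
        _ = 2 * K * r := by ring
    have h2 : Real.exp (s * P x - s ^ 2 / 2 * Q x) ≤ Real.exp (C / 2 * r) := by
      apply Real.exp_le_exp.2
      have h3 : s * P x ≤ C / 2 * r := by
        calc s * P x ≤ |s * P x| := le_abs_self _
          _ = |s| * |P x| := abs_mul _ _
          _ ≤ δ * (K * r) := mul_le_mul hs.le (hPK x) (abs_nonneg _) hδ0.le
          _ = (δ * K) * r := by ring
          _ ≤ C / 2 * r := by gcongr
      have h4 : 0 ≤ s ^ 2 / 2 * Q x := by
        have := hQ0 x; positivity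
      linarith
    have h3 : r ^ 2 ≤ 8 / C ^ 2 * Real.exp (C / 2 * r) := by
      have := Real.quadratic_le_exp_of_nonneg (x := C / 2 * r) (by positivity)
      rw [div_mul_eq_mul_div, le_div_iff₀ (by positivity)]
      nlinarith [show 0 ≤ C / 2 * r by positivity]
    calc |f x| * (|P x - s * Q x| * Real.exp (s * P x - s ^ 2 / 2 * Q x))
        ≤ (K * r) * ((2 * K * r) * Real.exp (C / 2 * r)) := by
          gcongr
          exact hfK x
      _ = 2 * K ^ 2 * r ^ 2 * Real.exp (C / 2 * r) := by ring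
      _ ≤ 2 * K ^ 2 * (8 / C ^ 2 * Real.exp (C / 2 * r)) * Real.exp (C / 2 * r) := by
          gcongr
      _ = 2 * K ^ 2 * (8 / C ^ 2) * (Real.exp (C / 2 * r) * Real.exp (C / 2 * r)) := by ring
      _ = 2 * K ^ 2 * (8 / C ^ 2) * Real.exp C * Real.exp (C * ‖x‖ ^ 2) := by
          rw [← Real.exp_add, mul_assoc (2 * K ^ 2 * (8 / C ^ 2)), ← Real.exp_add, hr]
          congr 2; ring
  · refine Filter.Eventually.of_forall fun x s _ => ?_
    simp only [hF, hF']
    have h1 : HasDerivAt (fun s : ℝ => s * P x - s ^ 2 / 2 * Q x) (P x - s * Q x) s := by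
      have h2 := ((hasDerivAt_id s).mul_const (P x)).sub
        ((((hasDerivAt_pow 2 s).div_const 2)).mul_const (Q x))
      refine h2.congr_deriv ?_
      norm_num
    have h2 := h1.exp.const_mul (f x)
    refine h2.congr_deriv ?_
    ring

end P226
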