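import Vale.Agent.P226.Basic

/-!
M3, M4: existence of a maximiser of `Psi w - (1/2) ∑ |w i|^2`, its structure, merging.
-/

namespace P226

open MeasureTheory ProbabilityTheory Set
open scoped RealInnerProductSpace

variable {E : Type*} [NormedAddCommGroup E] [InnerProductSpace ℝ E] [FiniteDimensional ℝ E]
  [MeasurableSpace E] [BorelSpace E]

namespace Mx

lemma integrable_inner (u : E) : Integrable (fun x : E => ⟪x, u⟫) (stdGaussian E) :=
  (IsGaussian.integrable_id (μ := stdGaussian E)).inner_const (𝕜 := ℝ) u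

lemma integral_inner_zero (u : E) : ∫ x, ⟪x, u⟫ ∂(stdGaussian E) = 0 := by
  have h := integral_inner (𝕜 := ℝ) (IsGaussian.integrable_id (μ := stdGaussian E)) u
  have h2 : ∫ x, id x ∂(stdGaussian E) = 0 := integral_id_stdGaussian
  rw [h2, inner_zero_right] at h
  rw [← h]
  exact integral_congr_ae (ae_of_all _ fun x => by simp [real_inner_comm])

lemma setIntegral_inner (s : Set E) (u : E) :
    ∫ x in s, ⟪x, u⟫ ∂(stdGaussian E) = ⟪u, ∫ x in s, x ∂(stdGaussian E)⟫ := by
  have h := integral_inner (𝕜 := ℝ)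
    ((IsGaussian.integrable_id (μ := stdGaussian E)).restrict (s := s)) u
  simp only [id] at h
  rw [← h]
  exact integral_congr_ae (ae_of_all _ fun x => by simp [real_inner_comm])

lemma gmax_le_iff {k : ℕ} (hk : 0 < k) (w : Fin k → E) (x : E) (c : ℝ) :
    gmax w x ≤ c ↔ ∀ i, ⟪x, w i⟫ ≤ c := by
  have : Nonempty (Fin k) := ⟨⟨0, hk⟩⟩
  unfold gmax
  exact ciSup_le_iff (Set.finite_range _).bddAbove

lemma gmax_eq_of_mem {k : ℕ} (w : Fin k → E) (x : E) (i : Fin k) (h : x ∈ cell w i) :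
    gmax w x = ⟪x, w i⟫ := by
  apply le_antisymm
  · rw [gmax_le_iff (Fin.pos i)]
    intro l
    by_cases hl : l = i
    · rw [hl]
    · exact (h l hl).le
  · exact inner_le_gmax w x i

lemma measurableSet_cell {k : ℕ} (w : Fin k → E) (i : Fin k) : MeasurableSet (cell w i) := by
  have : cell w i = ⋂ l, {x | l ≠ i → ⟪x, w l⟫ < ⟪x, w i⟫} := by
    ext x; simp [cell]
  rw [this]
  refine MeasurableSet.iInter fun l => ?_
  by_cases hl : l = i
  · simp [hl]
  · simp only [ne_eq, hl, not_false_eq_true, forall_const]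
    exact measurableSet_lt (by fun_prop) (by fun_prop)

lemma disjoint_cell {k : ℕ} (w : Fin k → E) (i l : Fin k) (h : i ≠ l) :
    Disjoint (cell w i) (cell w l) := by
  rw [Set.disjoint_left]
  intro x hi hl
  exact lt_asymm (hi l h.symm) (hl i h)

lemma null_hyperplane (u : E) (hu : u ≠ 0) : (stdGaussian E) {x | ⟪x, u⟫ = 0} = 0 := by
  let L : StrongDual ℝ E := innerSL ℝ u
  have h1 := IsGaussian.map_eq_gaussianReal (μ := stdGaussian E) L
  have hv : Var[L; stdGaussian E] = ‖L‖ ^ 2 := variance_dual_stdGaussian L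
  have hL : ‖L‖ = ‖u‖ := innerSL_apply_norm ℝ u
  have hne : (Var[L; stdGaussian E]).toNNReal ≠ 0 := by
    rw [hv, hL]
    have : 0 < ‖u‖ ^ 2 := by positivity
    simpa using this.ne'
  have h2 : (stdGaussian E) (L ⁻¹' {0}) = 0 := by
    rw [← Measure.map_apply L.continuous.measurable (measurableSet_singleton _), h1]
    have := nullSingletonClass_gaussianReal (μ := (stdGaussian E)[L]) hne
    exact measure_singleton _
  convert h2 using 2
  ext x
  simp [L, real_inner_comm]

end Mx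

open Mx

/-- a.e. point is in exactly one of the open cells, if the vectors are distinct. -/
theorem ae_mem_cell {k : ℕ} (hk : 0 < k) (w : Fin k → E) (hw : Function.Injective w) :
    ∀ᵐ x ∂(stdGaussian E), ∃ i, x ∈ cell w i := by
  have h : ∀ᵐ x ∂(stdGaussian E), ∀ i l, i ≠ l → ⟪x, w i - w l⟫ ≠ 0 := by
    rw [ae_all_iff]; intro i
    rw [ae_all_iff]; intro l
    by_cases hil : i = l
    · simp [hil]
    · have hne : w i - w l ≠ 0 := sub_ne_zero.2 fun hh => hil (hw hh)
      have := null_hyperplane (w i - w l) hne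
      have h2 : ∀ᵐ x ∂(stdGaussian E), ⟪x, w i - w l⟫ ≠ 0 := by
        rw [ae_iff]; simpa using this
      filter_upwards [h2] with x hx _ using hx
  have : Nonempty (Fin k) := ⟨⟨0, hk⟩⟩
  filter_upwards [h] with x hx
  obtain ⟨i, hi⟩ := Finite.exists_max (fun i => ⟪x, w i⟫)
  refine ⟨i, fun l hl => lt_of_le_of_ne (hi l) fun he => hx l i hl ?_⟩
  rw [inner_sub_right]
  simpa using sub_eq_zero.2 he

/-- for every assignment of the cells of `w` to vectors `u`, the linear lower bound. -/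
theorem Psi_ge {k k' : ℕ} (w : Fin k' → E) (hw : Function.Injective w) (hk' : 0 < k')
    (u : Fin k → E) (π : Fin k' → Fin k) :
    ∑ m, ⟪u (π m), ∫ x in cell w m, x ∂(stdGaussian E)⟫ ≤ Psi u := by
  have h1 : ∑ m, ⟪u (π m), ∫ x in cell w m, x ∂(stdGaussian E)⟫
      = ∫ x, ∑ m, (cell w m).indicator (fun x => ⟪x, u (π m)⟫) x ∂(stdGaussian E) := by
    rw [integral_finsetSum]
    · refine Finset.sum_congr rfl fun m _ => ?_
      rw [integral_indicator (measurableSet_cell w m), setIntegral_inner]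
    · intro m _
      exact (integrable_inner _).indicator (measurableSet_cell w m)
  rw [h1]
  unfold Psi
  refine integral_mono_ae ?_ (integrable_gmax u) ?_
  · exact integrable_finsetSum _ fun m _ =>
      (integrable_inner _).indicator (measurableSet_cell w m)
  · filter_upwards [ae_mem_cell hk' w hw] with x hx
    obtain ⟨i, hi⟩ := hx
    rw [Finset.sum_eq_single i]
    · rw [Set.indicator_of_mem hi]
      exact inner_le_gmax u x (π i)
    · intro m _ hm
      refine Set.indicator_of_notMem (fun hmem => ?_) _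
      exact Set.disjoint_left.1 (disjoint_cell w m i hm) hmem hi
    · simp

/-- M3b: `Psi w = ∑ ⟨w i, z i⟩`, with `z i` the moment of the cell. -/
theorem Psi_eq_sum {k : ℕ} (w : Fin k → E) (hw : Function.Injective w) :
    Psi w = ∑ i, ⟪w i, ∫ x in cell w i, x ∂(stdGaussian E)⟫ := by
  rcases Nat.eq_zero_or_pos k with hk | hk
  · subst hk
    simp [Psi, gmax]
  apply le_antisymm
  · have h1 : ∑ m, ⟪w m, ∫ x in cell w m, x ∂(stdGaussian E)⟫
        = ∫ x, ∑ m, (cell w m).indicator (fun x => ⟪x, w m⟫) x ∂(stdGaussian E) := by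
      rw [integral_finsetSum]
      · refine Finset.sum_congr rfl fun m _ => ?_
        rw [integral_indicator (measurableSet_cell w m), setIntegral_inner]
      · intro m _
        exact (integrable_inner _).indicator (measurableSet_cell w m)
    rw [h1]
    unfold Psi
    refine integral_mono_ae (integrable_gmax w) ?_ ?_
    · exact integrable_finsetSum _ fun m _ =>
        (integrable_inner _).indicator (measurableSet_cell w m)
    · filter_upwards [ae_mem_cell hk w hw] with x hx
      obtain ⟨i, hi⟩ := hx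
      rw [Finset.sum_eq_single i]
      · rw [Set.indicator_of_mem hi, gmax_eq_of_mem w x i hi]
      · intro m _ hm
        refine Set.indicator_of_notMem (fun hmem => ?_) _
        exact Set.disjoint_left.1 (disjoint_cell w m i hm) hmem hi
      · simp
  · exact Psi_ge w hw hk w id

/-- M3c: the maximiser satisfies `w i = z i`. -/
theorem maximiser_moment {k : ℕ} (w : Fin k → E) (hw : Function.Injective w)
    (hmax : ∀ w' : Fin k → E,
      Psi w' - 1 / 2 * ∑ i, ‖w' i‖ ^ 2 ≤ Psi w - 1 / 2 * ∑ i, ‖w i‖ ^ 2) (i : Fin k) :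
    w i = ∫ x in cell w i, x ∂(stdGaussian E) := by
  have hk : 0 < k := Fin.pos i
  set z : Fin k → E := fun i => ∫ x in cell w i, x ∂(stdGaussian E) with hz
  have h1 := hmax z
  have h2 : ∑ m, ⟪z m, z m⟫ ≤ Psi z := Psi_ge w hw hk z id
  have h3 := Psi_eq_sum w hw
  have h4 : ∑ m, ‖w m - z m‖ ^ 2 ≤ 0 := by
    have e : ∀ m, ‖w m - z m‖ ^ 2 = ‖w m‖ ^ 2 - 2 * ⟪w m, z m⟫ + ‖z m‖ ^ 2 :=
      fun m => norm_sub_sq_real _ _
    simp_rw [e]
    rw [Finset.sum_add_distrib, Finset.sum_sub_distrib, ← Finset.mul_sum]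
    simp_rw [real_inner_self_eq_norm_sq] at h2
    have h3' : Psi w = ∑ i, ⟪w i, z i⟫ := h3
    linarith
  have h5 : ‖w i - z i‖ ^ 2 ≤ 0 :=
    (Finset.single_le_sum (f := fun m => ‖w m - z m‖ ^ 2) (fun m _ => by positivity)
      (Finset.mem_univ i)).trans h4
  have h6 : ‖w i - z i‖ = 0 := by nlinarith [norm_nonneg (w i - z i)]
  exact sub_eq_zero.1 (norm_eq_zero.1 h6)

namespace Mx

lemma gmax_sub_le {k : ℕ} (hk : 0 < k) (w w' : Fin k → E) (x : E) :
    gmax w x ≤ gmax w' x + ‖x‖ * ‖w - w'‖ := by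
  rw [gmax_le_iff hk]
  intro i
  have h1 := inner_le_gmax w' x i
  have h2 : ⟪x, w i - w' i⟫ ≤ ‖x‖ * ‖w i - w' i‖ := real_inner_le_norm _ _
  have h3 : ‖w i - w' i‖ ≤ ‖w - w'‖ := norm_le_pi_norm (w - w') i
  have h4 : ‖x‖ * ‖w i - w' i‖ ≤ ‖x‖ * ‖w - w'‖ := by gcongr
  rw [inner_sub_right] at h2
  linarith

lemma Psi_sub_le {k : ℕ} (hk : 0 < k) (w w' : Fin k → E) :
    Psi w ≤ Psi w' + (∫ x, ‖x‖ ∂(stdGaussian E)) * ‖w - w'‖ := by
  have hint : Integrable (fun x : E => ‖x‖) (stdGaussian E) :=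
    (IsGaussian.integrable_id (μ := stdGaussian E)).norm
  unfold Psi
  rw [← integral_mul_const, ← integral_add (integrable_gmax w') (hint.mul_const _)]
  exact integral_mono (integrable_gmax w) ((integrable_gmax w').add (hint.mul_const _))
    fun x => gmax_sub_le hk w w' x

lemma Psi_zero' {k : ℕ} : Psi (0 : Fin k → E) = 0 := by
  unfold Psi gmax
  rcases Nat.eq_zero_or_pos k with hk | hk
  · subst hk; simp
  · have : Nonempty (Fin k) := ⟨⟨0, hk⟩⟩
    simp

lemma Psi_nonneg {k : ℕ} (hk : 0 < k) (w : Fin k → E) : 0 ≤ Psi w := by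
  have h := integral_mono (integrable_inner (w ⟨0, hk⟩)) (integrable_gmax w)
    (fun x => inner_le_gmax w x ⟨0, hk⟩)
  rw [integral_inner_zero] at h
  exact h

lemma continuous_Psi {k : ℕ} : Continuous (fun w : Fin k → E => Psi w) := by
  rcases Nat.eq_zero_or_pos k with hk | hk
  · subst hk
    exact continuous_of_const fun x y => by rw [Subsingleton.elim x y]
  · have hM : 0 ≤ ∫ x, ‖x‖ ∂(stdGaussian E) := integral_nonneg fun _ => norm_nonneg _
    refine (LipschitzWith.of_le_add_mul (Real.toNNReal (∫ x, ‖x‖ ∂(stdGaussian E)))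
      fun w w' => ?_).continuous
    rw [Real.coe_toNNReal _ hM, dist_eq_norm]
    exact Psi_sub_le hk w w'

lemma gmax_smul {k : ℕ} (hk : 0 < k) (w : Fin k → E) (t : ℝ) (ht : 0 ≤ t) (x : E) :
    gmax (t • w) x = t * gmax w x := by
  have : Nonempty (Fin k) := ⟨⟨0, hk⟩⟩
  unfold gmax
  rw [Real.mul_iSup_of_nonneg ht]
  simp [inner_smul_right]

lemma Psi_smul {k : ℕ} (hk : 0 < k) (w : Fin k → E) (t : ℝ) (ht : 0 ≤ t) :
    Psi (t • w) = t * Psi w := by
  unfold Psi
  simp_rw [gmax_smul hk w t ht]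
  exact integral_const_mul _ _

end Mx

/-- M3a: a failing instance gives a maximiser of `Psi w - (1/2) ∑ |w i|^2` with value above
`CC / 2`. -/
theorem exists_maximiser {k : ℕ}
    (hfail : ∃ w : Fin k → E, CC * ∑ i, ‖w i‖ ^ 2 < Psi w ^ 2) :
    ∃ w : Fin k → E, CC < 2 * (Psi w - 1 / 2 * ∑ i, ‖w i‖ ^ 2) ∧
      ∀ w' : Fin k → E, Psi w' - 1 / 2 * ∑ i, ‖w' i‖ ^ 2 ≤ Psi w - 1 / 2 * ∑ i, ‖w i‖ ^ 2 := by
  obtain ⟨w0, hw0⟩ := hfail
  rcases Nat.eq_zero_or_pos k with hk | hk
  · subst hk
    exfalso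
    have : Psi w0 = 0 := by simp [Psi, gmax]
    rw [this] at hw0
    simp at hw0
  set J : (Fin k → E) → ℝ := fun w => Psi w - 1 / 2 * ∑ i, ‖w i‖ ^ 2 with hJ
  set m : ℝ := ∫ x, ‖x‖ ∂(stdGaussian E) with hm
  have hm0 : 0 ≤ m := integral_nonneg fun _ => norm_nonneg _
  have hJc : Continuous J := by
    refine continuous_Psi.sub (continuous_const.mul ?_)
    fun_prop
  have hbd : ∀ w : Fin k → E, J w ≤ m * ‖w‖ - 1 / 2 * ‖w‖ ^ 2 := by
    intro w
    have h1 := Psi_sub_le hk w 0
    rw [Psi_zero', sub_zero, zero_add] at h1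
    have h2 : ‖w‖ ^ 2 ≤ ∑ i, ‖w i‖ ^ 2 := by
      have : Nonempty (Fin k) := ⟨⟨0, hk⟩⟩
      obtain ⟨i, hi⟩ := Finite.exists_max (fun i => ‖w i‖)
      have h3 : ‖w‖ ≤ ‖w i‖ := (pi_norm_le_iff_of_nonneg (norm_nonneg _)).2 hi
      have h4 : ‖w‖ ^ 2 ≤ ‖w i‖ ^ 2 := by gcongr
      exact h4.trans (Finset.single_le_sum (f := fun m => ‖w m‖ ^ 2) (fun m _ => by positivity)
        (Finset.mem_univ i))
    simp only [hJ]
    linarith
  have hJ0 : J 0 = 0 := by simp [hJ, Psi_zero']
  obtain ⟨w, hwmem, hwmax⟩ := (isCompact_closedBall (0 : Fin k → E) (2 * m)).exists_isMaxOn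
    ⟨0, by simp [hm0]⟩ hJc.continuousOn
  have hmax : ∀ w', J w' ≤ J w := by
    intro w'
    by_cases hw' : w' ∈ Metric.closedBall (0 : Fin k → E) (2 * m)
    · exact hwmax hw'
    · have h1 : 2 * m < ‖w'‖ := by simpa using hw'
      have h2 := hbd w'
      have h3 : J 0 ≤ J w := hwmax (by simp [hm0])
      have h4 : m * ‖w'‖ - 1 / 2 * ‖w'‖ ^ 2 ≤ 0 := by nlinarith [norm_nonneg w']
      linarith
  refine ⟨w, ?_, hmax⟩
  have hCC : 0 < CC := by unfold CC; positivity
  set S := ∑ i, ‖w0 i‖ ^ 2 with hS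
  set P := Psi w0 with hP
  have hP0 : 0 ≤ P := Psi_nonneg hk w0
  have hSpos : 0 < S := by
    have hS0 : 0 ≤ S := Finset.sum_nonneg fun i _ => by positivity
    rcases hS0.lt_or_eq with h | h
    · exact h
    · exfalso
      have h1 : w0 = 0 := by
        funext i
        have h2 : ‖w0 i‖ ^ 2 ≤ S := Finset.single_le_sum (f := fun m => ‖w0 m‖ ^ 2)
          (fun m _ => by positivity) (Finset.mem_univ i)
        have h3 : ‖w0 i‖ = 0 := by nlinarith [norm_nonneg (w0 i)]
        simpa using h3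
      have h4 : P = 0 := by rw [hP, h1]; exact Psi_zero'
      rw [h4, ← h] at hw0
      simp at hw0
  have hmain := hmax ((P / S) • w0)
  have hJs : J ((P / S) • w0) = P ^ 2 / (2 * S) := by
    simp only [hJ]
    rw [Psi_smul hk w0 _ (by positivity)]
    have e : ∑ i, ‖((P / S) • w0) i‖ ^ 2 = (P / S) ^ 2 * S := by
      rw [hS, Finset.mul_sum]
      refine Finset.sum_congr rfl fun i _ => ?_
      rw [Pi.smul_apply, norm_smul, mul_pow, Real.norm_eq_abs, sq_abs]
    rw [e]
    field_simp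
    ring
  rw [hJs] at hmain
  have h5 : CC / 2 < P ^ 2 / (2 * S) := by
    rw [lt_div_iff₀ (by positivity)]
    linarith
  have h6 : CC / 2 < J w := lt_of_lt_of_le h5 hmain
  simp only [hJ] at h6
  linarith

/-- removing one copy of a repeated vector does not change `Psi`. -/
lemma Mx.Psi_remove {k : ℕ} (hk : 1 ≤ k) (w : Fin (k + 1) → E) (i l : Fin (k + 1)) (hil : i ≠ l)
    (h : w i = w l) : Psi w = Psi (fun j => w (l.succAbove j)) := by
  unfold Psi
  congr 1
  funext x
  apply le_antisymm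
  · rw [gmax_le_iff (by omega)]
    intro m
    by_cases hm : m = l
    · subst hm
      obtain ⟨j, hj⟩ := Fin.exists_succAbove_eq hil
      rw [← h, ← hj]
      exact inner_le_gmax (fun j => w (m.succAbove j)) x j
    · obtain ⟨j, hj⟩ := Fin.exists_succAbove_eq hm
      rw [← hj]
      exact inner_le_gmax (fun j => w (l.succAbove j)) x j
  · rw [gmax_le_iff hk]
    intro j
    exact inner_le_gmax w x _

/-- M4: if `PK (k)` holds and the inequality fails for `k+1` vectors in dimension `D`, there is a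
critical configuration of `k + 1` vectors. -/
theorem exists_crit {k D : ℕ} (hP : PK k) (hk : 1 ≤ k)
    (hfail : ∃ w : Fin (k + 1) → EuclideanSpace ℝ (Fin D), CC * ∑ i, ‖w i‖ ^ 2 < Psi w ^ 2) :
    ∃ w : Fin (k + 1) → EuclideanSpace ℝ (Fin D), Crit w := by
  obtain ⟨w, hw1, hw2⟩ := exists_maximiser hfail
  have hCC : 0 < CC := by unfold CC; positivity
  -- distinctness
  have hinj : Function.Injective w := by
    intro i l h
    by_contra hil
    have h1 := Mx.Psi_remove hk w i l hil h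
    have h2 := hP D (fun j => w (l.succAbove j))
    rw [← h1] at h2
    have h3 : ∑ j, ‖w (l.succAbove j)‖ ^ 2 ≤ ∑ m, ‖w m‖ ^ 2 := by
      rw [Fin.sum_univ_succAbove _ l]
      have : 0 ≤ ‖w l‖ ^ 2 := by positivity
      linarith
    set S := ∑ m, ‖w m‖ ^ 2
    have h4 : Psi w ^ 2 ≤ CC * S := h2.trans (by gcongr)
    have hS : 0 ≤ S := Finset.sum_nonneg fun i _ => by positivity
    nlinarith [sq_nonneg (Psi w - CC), sq_nonneg (S - CC)]
  have hmom := maximiser_moment w hinj hw2
  have hpsi : Psi w = ∑ i, ‖w i‖ ^ 2 := by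
    rw [Psi_eq_sum w hinj]
    refine Finset.sum_congr rfl fun i _ => ?_
    rw [← hmom i, real_inner_self_eq_norm_sq]
  have hbig : CC < ∑ i, ‖w i‖ ^ 2 := by
    rw [hpsi] at hw1; linarith
  refine ⟨w, ?_, hmom, ?_, hbig, hpsi, ?_⟩
  · -- negativity
    intro i l hil
    obtain ⟨j0, hj0⟩ := Fin.exists_succAbove_eq hil
    set u : Fin k → EuclideanSpace ℝ (Fin D) :=
      fun j => w (l.succAbove j) + (if j = j0 then w l else 0) with hu
    -- assignment
    let π : Fin (k + 1) → Fin k := fun m =>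
      if h : m = l then j0 else (Fin.exists_succAbove_eq h).choose
    have hπl : π l = j0 := by simp [π]
    have hπ : ∀ j, π (l.succAbove j) = j := by
      intro j
      have hne : l.succAbove j ≠ l := Fin.succAbove_ne l j
      simp only [π, hne, dif_neg, not_false_eq_true]
      exact Fin.succAbove_right_injective (Fin.exists_succAbove_eq hne).choose_spec
    have h1 := Psi_ge w hinj (Nat.succ_pos k) u π
    simp_rw [← hmom] at h1
    rw [Fin.sum_univ_succAbove _ l, hπl] at h1
    simp_rw [hπ] at h1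
    -- the sum of squares
    have h2 : ∑ j, ‖u j‖ ^ 2 = ⟪u j0, w l⟫ + ∑ j, ⟪u j, w (l.succAbove j)⟫ := by
      have e : ∀ j, ‖u j‖ ^ 2 = ⟪u j, w (l.succAbove j)⟫ + (if j = j0 then ⟪u j0, w l⟫ else 0) := by
        intro j
        rw [← real_inner_self_eq_norm_sq]
        conv_lhs => rw [show (⟪u j, u j⟫ : ℝ) = ⟪u j, w (l.succAbove j)
          + (if j = j0 then w l else 0)⟫ from rfl]
        rw [inner_add_right]
        split_ifs with h
        · rw [h]
        · simp
      simp_rw [e]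
      rw [Finset.sum_add_distrib, Finset.sum_ite_eq' Finset.univ j0]
      simp [add_comm]
    rw [← h2] at h1
    have h3 := hP D u
    set Q := ∑ j, ‖u j‖ ^ 2
    have hQ : 0 ≤ Q := Finset.sum_nonneg fun i _ => by positivity
    have hQ2 : Q ^ 2 ≤ CC * Q := (by gcongr : Q ^ 2 ≤ Psi u ^ 2).trans h3
    have hQ3 : Q ≤ CC := by
      rcases hQ.lt_or_eq with h | h
      · nlinarith
      · linarith
    -- Q = S + 2 <w i, w l>
    have h4 : Q = ∑ m, ‖w m‖ ^ 2 + 2 * ⟪w i, w l⟫ := by
      have e : ∀ j, ‖u j‖ ^ 2 = ‖w (l.succAbove j)‖ ^ 2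
          + (if j = j0 then 2 * ⟪w i, w l⟫ + ‖w l‖ ^ 2 else 0) := by
        intro j
        simp only [hu]
        split_ifs with h
        · rw [h, hj0, norm_add_sq_real]; ring
        · simp
      show ∑ j, ‖u j‖ ^ 2 = _
      simp_rw [e]
      rw [Finset.sum_add_distrib, Finset.sum_ite_eq' Finset.univ j0,
        Fin.sum_univ_succAbove (fun m => ‖w m‖ ^ 2) l]
      simp only [Finset.mem_univ, if_true]
      ring
    linarith
  · -- sum zero
    have h1 : ∑ i, w i = ∑ i, ∫ x in cell w i, x ∂(stdGaussian (EuclideanSpace ℝ (Fin D))) :=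
      Finset.sum_congr rfl fun i _ => hmom i
    rw [h1]
    have hid : Integrable (fun x : EuclideanSpace ℝ (Fin D) => x)
        (stdGaussian (EuclideanSpace ℝ (Fin D))) := IsGaussian.integrable_id
    rw [← integral_iUnion_fintype (fun i => Mx.measurableSet_cell w i)
      (fun i l h => Mx.disjoint_cell w i l h) (fun i => hid.integrableOn)]
    have h2 : (⋃ i, cell w i : Set (EuclideanSpace ℝ (Fin D)))
        =ᵐ[stdGaussian (EuclideanSpace ℝ (Fin D))] univ := by
      rw [Filter.eventuallyEq_univ]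
      filter_upwards [ae_mem_cell (Nat.succ_pos k) w hinj] with x hx
      simpa using hx
    rw [setIntegral_congr_set h2, setIntegral_univ]
    exact integral_id_stdGaussian
  · intro w'
    have h1 := hw2 w'
    rw [hpsi] at h1
    linarith

end P226
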