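import Vale.Agent.P226.Basic
import Vale.Agent.P226.GaussTools

/-!
A3: `PK 2`, `PK 3`.
-/

namespace P226

open MeasureTheory ProbabilityTheory Set
open scoped RealInnerProductSpace

variable {E : Type*} [NormedAddCommGroup E] [InnerProductSpace ℝ E] [FiniteDimensional ℝ E]
  [MeasurableSpace E] [BorelSpace E]

omit [FiniteDimensional ℝ E] [MeasurableSpace E] [BorelSpace E] in
lemma gmax_two (w : Fin 2 → E) (x : E) : gmax w x = max ⟪x, w 0⟫ ⟪x, w 1⟫ := by
  unfold gmax
  apply le_antisymm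
  · apply ciSup_le
    intro i
    fin_cases i
    · exact le_max_left _ _
    · exact le_max_right _ _
  · apply max_le
    · exact le_ciSup (f := fun i => ⟪x, w i⟫) (Finite.bddAbove_range _) 0
    · exact le_ciSup (f := fun i => ⟪x, w i⟫) (Finite.bddAbove_range _) 1

omit [FiniteDimensional ℝ E] [MeasurableSpace E] [BorelSpace E] in
lemma gmax_three (w : Fin 3 → E) (x : E) :
    gmax w x = max (max ⟪x, w 0⟫ ⟪x, w 1⟫) ⟪x, w 2⟫ := by
  unfold gmax
  apply le_antisymm
  · apply ciSup_le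
    intro i
    fin_cases i
    · exact (le_max_left _ _).trans (le_max_left _ _)
    · exact (le_max_right _ _).trans (le_max_left _ _)
    · exact le_max_right _ _
  · apply max_le
    · apply max_le
      · exact le_ciSup (f := fun i => ⟪x, w i⟫) (Finite.bddAbove_range _) 0
      · exact le_ciSup (f := fun i => ⟪x, w i⟫) (Finite.bddAbove_range _) 1
    · exact le_ciSup (f := fun i => ⟪x, w i⟫) (Finite.bddAbove_range _) 2

lemma integral_neg_gauss (f : E → ℝ) :
    ∫ x, f (-x) ∂(stdGaussian E) = ∫ x, f x ∂(stdGaussian E) := by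
  have h : (stdGaussian E).map (fun x => -x) = stdGaussian E :=
    stdGaussian_map (LinearIsometryEquiv.neg ℝ (E := E))
  conv_rhs => rw [← h]
  exact ((MeasurableEquiv.neg E).measurableEmbedding.integral_map f).symm

lemma cc_eq (x : ℝ) : CC * x = 9 * x / (8 * Real.pi) := by unfold CC; ring

theorem PK_two : PK 2 := by
  intro D w
  have h1 : Psi w = ‖w 0 - w 1‖ / Real.sqrt (2 * Real.pi) := by
    unfold Psi
    have e : ∀ x, gmax w x = 1 / 2 * ⟪x, w 0 + w 1⟫ + 1 / 2 * |⟪x, w 0 - w 1⟫| := by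
      intro x
      rw [gmax_two, inner_add_right, inner_sub_right]
      rcases le_total ⟪x, w 0⟫ ⟪x, w 1⟫ with h | h
      · rw [max_eq_right h, abs_of_nonpos (by linarith)]; ring
      · rw [max_eq_left h, abs_of_nonneg (by linarith)]; ring
    simp_rw [e]
    rw [integral_add ((integrable_inner_gauss _).const_mul _)
      ((integrable_inner_gauss _).abs.const_mul _), integral_const_mul, integral_const_mul,
      integral_inner_gauss, integral_abs_inner_gauss]
    ring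
  rw [h1, div_pow, Real.sq_sqrt (by positivity), Fin.sum_univ_two, cc_eq]
  have h2 : ‖w 0 - w 1‖ ^ 2 ≤ 2 * (‖w 0‖ ^ 2 + ‖w 1‖ ^ 2) := by
    have := norm_add_sq_real (w 0) (w 1)
    have := norm_sub_sq_real (w 0) (w 1)
    nlinarith [sq_nonneg ‖w 0 + w 1‖]
  rw [div_le_div_iff₀ (by positivity) (by positivity)]
  have : 0 < Real.pi := Real.pi_pos
  nlinarith [mul_le_mul_of_nonneg_right h2 this.le, sq_nonneg ‖w 0‖, sq_nonneg ‖w 1‖,
    mul_nonneg this.le (sq_nonneg ‖w 0‖), mul_nonneg this.le (sq_nonneg ‖w 1‖)]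

theorem PK_three : PK 3 := by
  intro D w
  have h1 : Psi w = (‖w 0 - w 1‖ + ‖w 1 - w 2‖ + ‖w 0 - w 2‖) / (2 * Real.sqrt (2 * Real.pi)) := by
    have hs : Psi w = ∫ x, gmax w (-x) ∂(stdGaussian _) := (integral_neg_gauss _).symm
    have hint : ∀ u : EuclideanSpace ℝ (Fin D),
        Integrable (fun x => |⟪x, u⟫|) (stdGaussian (EuclideanSpace ℝ (Fin D))) :=
      fun u => (integrable_inner_gauss _).abs
    have e : ∀ x, gmax w x + gmax w (-x) = 1 / 2 * |⟪x, w 0 - w 1⟫| + 1 / 2 * |⟪x, w 1 - w 2⟫|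
        + 1 / 2 * |⟪x, w 0 - w 2⟫| := by
      intro x
      rw [gmax_three, gmax_three, inner_sub_right, inner_sub_right, inner_sub_right, inner_neg_left,
        inner_neg_left, inner_neg_left]
      generalize ⟪x, w 0⟫ = a
      generalize ⟪x, w 1⟫ = b
      generalize ⟪x, w 2⟫ = c
      rcases le_total a b with h1 | h1 <;> rcases le_total b c with h2 | h2 <;>
        rcases le_total a c with h3 | h3 <;>
        simp only [abs_of_nonneg, abs_of_nonpos, sub_nonneg, sub_nonpos, h1, h2, h3,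
          max_eq_left, max_eq_right, neg_le_neg_iff] <;>
        linarith
    have h2 : 2 * Psi w = ∫ x, (gmax w x + gmax w (-x)) ∂(stdGaussian _) := by
      have hi1 : Integrable (fun x => gmax w x) (stdGaussian (EuclideanSpace ℝ (Fin D))) := by
        exact integrable_gmax w
      have hi2 : Integrable (fun x => gmax w (-x)) (stdGaussian (EuclideanSpace ℝ (Fin D))) := by
        have h3 : Integrable (fun x => (1 / 2 * |⟪x, w 0 - w 1⟫| + 1 / 2 * |⟪x, w 1 - w 2⟫|
          + 1 / 2 * |⟪x, w 0 - w 2⟫|) - gmax w x) (stdGaussian (EuclideanSpace ℝ (Fin D))) :=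
          ((((hint _).const_mul _).add ((hint _).const_mul _)).add ((hint _).const_mul _)).sub hi1
        refine h3.congr (Filter.Eventually.of_forall fun x => ?_)
        have := e x
        simp only
        linarith
      rw [integral_add hi1 hi2, ← hs]
      unfold Psi
      ring
    have h4 : ∫ x, (gmax w x + gmax w (-x)) ∂(stdGaussian _) =
        1 / 2 * (2 * (‖w 0 - w 1‖ / Real.sqrt (2 * Real.pi))) +
        1 / 2 * (2 * (‖w 1 - w 2‖ / Real.sqrt (2 * Real.pi))) +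
        1 / 2 * (2 * (‖w 0 - w 2‖ / Real.sqrt (2 * Real.pi))) := by
      simp_rw [e]
      have i1 := (hint (w 0 - w 1)).const_mul (1 / 2)
      have i2 := (hint (w 1 - w 2)).const_mul (1 / 2)
      have i3 := (hint (w 0 - w 2)).const_mul (1 / 2)
      have s12 : Integrable (fun x => 1 / 2 * |⟪x, w 0 - w 1⟫| + 1 / 2 * |⟪x, w 1 - w 2⟫|)
        (stdGaussian (EuclideanSpace ℝ (Fin D))) := i1.add i2
      rw [integral_add s12 i3, integral_add i1 i2, integral_const_mul,
        integral_const_mul, integral_const_mul, integral_abs_inner_gauss,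
        integral_abs_inner_gauss, integral_abs_inner_gauss]
    rw [h4] at h2
    have h5 := sqrt_two_pi_pos
    field_simp at h2 ⊢
    linarith
  rw [h1, div_pow, mul_pow, Real.sq_sqrt (by positivity), Fin.sum_univ_three, cc_eq]
  have h2 : ‖w 0 - w 1‖ ^ 2 + ‖w 1 - w 2‖ ^ 2 + ‖w 0 - w 2‖ ^ 2 ≤
      3 * (‖w 0‖ ^ 2 + ‖w 1‖ ^ 2 + ‖w 2‖ ^ 2) := by
    have a1 := norm_sub_sq_real (w 0) (w 1)
    have a2 := norm_sub_sq_real (w 1) (w 2)
    have a3 := norm_sub_sq_real (w 0) (w 2)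
    have a4 : ‖w 0 + w 1 + w 2‖ ^ 2 = ‖w 0‖ ^ 2 + ‖w 1‖ ^ 2 + ‖w 2‖ ^ 2 + 2 * ⟪w 0, w 1⟫
        + 2 * ⟪w 1, w 2⟫ + 2 * ⟪w 0, w 2⟫ := by
      rw [norm_add_sq_real, norm_add_sq_real, inner_add_left]; ring
    nlinarith [sq_nonneg ‖w 0 + w 1 + w 2‖]
  have h3 : (‖w 0 - w 1‖ + ‖w 1 - w 2‖ + ‖w 0 - w 2‖) ^ 2 ≤
      9 * (‖w 0‖ ^ 2 + ‖w 1‖ ^ 2 + ‖w 2‖ ^ 2) := by
    nlinarith [sq_nonneg (‖w 0 - w 1‖ - ‖w 1 - w 2‖), sq_nonneg (‖w 0 - w 1‖ - ‖w 0 - w 2‖),
      sq_nonneg (‖w 1 - w 2‖ - ‖w 0 - w 2‖)]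
  rw [show (2:ℝ) ^ 2 * (2 * Real.pi) = 8 * Real.pi by ring]
  exact div_le_div_of_nonneg_right h3 (by positivity)

end P226
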