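import Vale.Agent.P226.Basic
import Vale.Agent.P226.Three
import Vale.Agent.P226.Maximiser
import Vale.Agent.P226.SecondVar
import Vale.Agent.P226.Deletion
import Vale.Agent.P226.Caps
import Vale.Agent.P226.CapHalf

/-!
MAIN (helper5): assembly.
-/

namespace P226

open MeasureTheory ProbabilityTheory Set
open scoped RealInnerProductSpace

/-- induction on the number of vectors. -/
theorem PK_all_of (hno : ∀ k : ℕ, 3 ≤ k → PK k →
    ∀ w : Fin (k + 1) → EuclideanSpace ℝ (Fin k), ¬ Crit w) : ∀ k, PK k := by
  intro k
  induction k with
  | zero => exact PK_zero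
  | succ k ih =>
    rcases Nat.lt_or_ge k 3 with hk | hk
    · interval_cases k
      · exact PK_one
      · exact PK_two
      · exact PK_three
    · refine PK_of_dim (D := k) le_rfl ?_
      by_contra hcon
      push Not at hcon
      obtain ⟨w, hw⟩ := exists_crit ih (by omega) hcon
      exact hno k hk ih w hw

end P226
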