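import Mathlib

/-!
END, case `k = 4` of the real inequality.
-/

namespace P226

namespace Num4

lemma univ_eq : ∀ a b c d : Fin 4, a ≠ b → a ≠ c → a ≠ d → b ≠ c → b ≠ d → c ≠ d →
    (Finset.univ : Finset (Fin 4)) = {a, b, c, d} := by decide

lemma erase_eq : ∀ a b c d : Fin 4, a ≠ b → a ≠ c → a ≠ d → b ≠ c → b ≠ d → c ≠ d →
    (Finset.univ.erase a : Finset (Fin 4)) = {b, c, d} := by decide

lemma erase2_eq : ∀ a b c d : Fin 4, a ≠ b → a ≠ c → a ≠ d → b ≠ c → b ≠ d → c ≠ d →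
    ((Finset.univ.erase a).erase b : Finset (Fin 4)) = {c, d} := by decide

lemma exists_fourth : ∀ a b c : Fin 4, a ≠ b → a ≠ c → b ≠ c →
    ∃ d : Fin 4, a ≠ d ∧ b ≠ d ∧ c ≠ d := by decide

lemma exists_three : ∀ a : Fin 4, ∃ b c d : Fin 4, a ≠ b ∧ a ≠ c ∧ a ≠ d ∧ b ≠ c ∧ b ≠ d ∧
    c ≠ d := by decide

lemma exists_two : ∀ a b : Fin 4, a ≠ b → ∃ c d : Fin 4, a ≠ c ∧ a ≠ d ∧ b ≠ c ∧ b ≠ d ∧
    c ≠ d := by decide

lemma sum4 (F : Fin 4 → ℝ) {a b c d : Fin 4} (h1 : a ≠ b) (h2 : a ≠ c) (h3 : a ≠ d) (h4 : b ≠ c)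
    (h5 : b ≠ d) (h6 : c ≠ d) : ∑ i, F i = F a + F b + F c + F d := by
  rw [univ_eq a b c d h1 h2 h3 h4 h5 h6, Finset.sum_insert, Finset.sum_insert, Finset.sum_insert,
    Finset.sum_singleton]
  · ring
  · simpa using h6
  · simp [h4, h5]
  · simp [h1, h2, h3]

lemma sum3 (F : Fin 4 → ℝ) {a b c d : Fin 4} (h1 : a ≠ b) (h2 : a ≠ c) (h3 : a ≠ d) (h4 : b ≠ c)
    (h5 : b ≠ d) (h6 : c ≠ d) : ∑ i ∈ Finset.univ.erase a, F i = F b + F c + F d := by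
  rw [erase_eq a b c d h1 h2 h3 h4 h5 h6, Finset.sum_insert, Finset.sum_insert,
    Finset.sum_singleton]
  · ring
  · simpa using h6
  · simp [h4, h5]

lemma sum2 (F : Fin 4 → ℝ) {a b c d : Fin 4} (h1 : a ≠ b) (h2 : a ≠ c) (h3 : a ≠ d) (h4 : b ≠ c)
    (h5 : b ≠ d) (h6 : c ≠ d) : ∑ i ∈ (Finset.univ.erase a).erase b, F i = F c + F d := by
  rw [erase2_eq a b c d h1 h2 h3 h4 h5 h6, Finset.sum_insert, Finset.sum_singleton]
  simpa using h6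

/-- `16 f(p)` -/
noncomputable def ff (p : ℝ) : ℝ := 16 * (p ^ 2 * (1 - p) ^ 2)

lemma ff_A {p : ℝ} (h1 : 0.138 ≤ p) (h2 : p ≤ 1 / 2) : ff p ≤ 9 / 16 + 3 * (p - 1 / 4) := by
  have h : ff p - (9 / 16 + 3 * (p - 1 / 4)) =
      16 * ((p - 1 / 4) ^ 2 * (p ^ 2 - 3 / 2 * p + 3 / 16)) := by unfold ff; ring
  have h3 : p ^ 2 - 3 / 2 * p + 3 / 16 ≤ 0 := by nlinarith
  have h4 := mul_nonpos_of_nonneg_of_nonpos (sq_nonneg (p - 1 / 4)) h3
  linarith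

lemma ff_tan (p p1 : ℝ) : ff p = ff p1 + 32 * (p1 * (1 - p1) * (1 - 2 * p1)) * (p - p1) +
    16 * ((p - p1) ^ 2 * (p ^ 2 + 2 * (p1 - 1) * p + (3 * p1 ^ 2 - 4 * p1 + 1))) := by
  unfold ff; ring

lemma ff_B {p : ℝ} (h1 : 0 ≤ p) (h2 : p ≤ 1 / 2) : ff p ≤ 0.9495 + 1.247232 * (p - 0.42) := by
  have h3 : p ^ 2 + 2 * (0.42 - 1) * p + (3 * 0.42 ^ 2 - 4 * 0.42 + 1) ≤ 0 := by nlinarith
  have h4 := mul_nonpos_of_nonneg_of_nonpos (sq_nonneg (p - 0.42)) h3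
  have h5 := ff_tan p 0.42
  have h6 : ff 0.42 ≤ 0.9495 := by unfold ff; norm_num
  norm_num at h4 h5 h6 ⊢
  linarith

lemma ff_Bm {p : ℝ} (h1 : 0 ≤ p) (h2 : p ≤ 0.138) : ff p ≤ 1.642 * p := by
  have h3 : p * (1 - p) ^ 2 ≤ 0.1026 := by nlinarith [mul_nonneg h1 (sub_nonneg.2 h2)]
  have : ff p = 16 * p * (p * (1 - p) ^ 2) := by unfold ff; ring
  rw [this]
  nlinarith

lemma ff_Bj {p : ℝ} (h1 : 0 ≤ p) (h2 : p ≤ 0.1) : ff p ≤ 1.3 * p := by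
  have h3 : p * (1 - p) ^ 2 ≤ 0.08125 := by nlinarith [mul_nonneg h1 (sub_nonneg.2 h2)]
  have : ff p = 16 * p * (p * (1 - p) ^ 2) := by unfold ff; ring
  rw [this]
  nlinarith

lemma ff_0 {p : ℝ} (h1 : 0 ≤ p) (h2 : p ≤ 1 / 2) : ff p ≤ 2.38 * p := by
  have h3 : p * (1 - p) ^ 2 ≤ 0.14875 := by
    nlinarith [mul_nonneg h1 (sq_nonneg (p - 1/3)), sq_nonneg (p - 1/3)]
  have : ff p = 16 * p * (p * (1 - p) ^ 2) := by unfold ff; ring
  rw [this]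
  nlinarith

lemma ff_C1 {p : ℝ} (h1 : 0.1 ≤ p) (h2 : p ≤ 1 / 2) : ff p ≤ 0.7056 + 2.688 * (p - 0.3) := by
  have h3 : p ^ 2 + 2 * (0.3 - 1) * p + (3 * 0.3 ^ 2 - 4 * 0.3 + 1) ≤ 0 := by nlinarith
  have h4 := mul_nonpos_of_nonneg_of_nonpos (sq_nonneg (p - 0.3)) h3
  have h5 := ff_tan p 0.3
  have h6 : ff 0.3 = 0.7056 := by unfold ff; norm_num
  rw [h6] at h5
  norm_num at h4 h5 ⊢
  linarith

/-- general bound with multiplier. -/
lemma ff_K {p c ν K p1 η : ℝ} (h1 : 0.1 ≤ p) (h2 : p ≤ 1 / 2) (hη : 0 < η)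
    (hQ1 : (0.1:ℝ) ^ 2 + 2 * (p1 - 1) * 0.1 + (3 * p1 ^ 2 - 4 * p1 + 1) ≤ -η) (hp2 : p1 ≤ 0.4)
    (hK : c * ff p1 - ν * p1 + (c * (32 * (p1 * (1 - p1) * (1 - 2 * p1))) - ν) ^ 2 / (64 * η * c)
      ≤ K) (hc0 : 0 < c) : c * ff p ≤ K + ν * p := by
  set e := c * (32 * (p1 * (1 - p1) * (1 - 2 * p1))) - ν with he
  have h3 : p ^ 2 + 2 * (p1 - 1) * p + (3 * p1 ^ 2 - 4 * p1 + 1) ≤ -η := by nlinarith
  have h4 : (p - p1) ^ 2 * (p ^ 2 + 2 * (p1 - 1) * p + (3 * p1 ^ 2 - 4 * p1 + 1)) ≤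
      (p - p1) ^ 2 * (-η) := mul_le_mul_of_nonneg_left h3 (sq_nonneg _)
  have h5 := ff_tan p p1
  have h6 : c * ff p = c * ff p1 + (e + ν) * (p - p1) +
      16 * c * ((p - p1) ^ 2 * (p ^ 2 + 2 * (p1 - 1) * p + (3 * p1 ^ 2 - 4 * p1 + 1))) := by
    rw [h5, he]; ring
  have h7 : 16 * c * ((p - p1) ^ 2 * (p ^ 2 + 2 * (p1 - 1) * p + (3 * p1 ^ 2 - 4 * p1 + 1))) ≤
      16 * c * ((p - p1) ^ 2 * (-η)) := mul_le_mul_of_nonneg_left h4 (by positivity)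
  have h8 : e * (p - p1) - 16 * η * c * (p - p1) ^ 2 ≤ e ^ 2 / (64 * η * c) := by
    rw [le_div_iff₀ (by positivity)]
    nlinarith [sq_nonneg (e - 32 * η * c * (p - p1))]
  nlinarith

lemma C3_5 {p : ℝ} (h1 : 0.1 ≤ p) (h2 : p ≤ 1 / 2) : 5 * ff p ≤ 1.146 + 8.68 * p := by
  refine ff_K (p1 := 0.385) (η := 0.05) h1 h2 (by norm_num) ?_ (by norm_num) ?_ (by norm_num)
  · norm_num
  · unfold ff; norm_num

lemma C3_4 {p : ℝ} (h1 : 0.1 ≤ p) (h2 : p ≤ 1 / 2) : 4 * ff p ≤ 0.278 + 8.68 * p := by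
  refine ff_K (p1 := 0.351) (η := 0.05) h1 h2 (by norm_num) ?_ (by norm_num) ?_ (by norm_num)
  · norm_num
  · unfold ff; norm_num

lemma C3_3 {p : ℝ} (h1 : 0.1 ≤ p) (h2 : p ≤ 1 / 2) : 3 * ff p ≤ -0.475 + 8.68 * p := by
  have h3 : 0 ≤ -48 * p ^ 2 + 69.984 * p - 6.5135 := by nlinarith
  have h4 := mul_nonneg (sq_nonneg (p - 0.271)) h3
  unfold ff
  nlinarith

lemma C10_12 {p : ℝ} (h1 : 0.1 ≤ p) (h2 : p ≤ 1 / 2) : 12 * ff p ≤ -0.069 + 28.66 * p := by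
  refine ff_K (p1 := 0.332) (η := 0.05) h1 h2 (by norm_num) ?_ (by norm_num) ?_ (by norm_num)
  · norm_num
  · unfold ff; norm_num

lemma C10_11 {p : ℝ} (h1 : 0.1 ≤ p) (h2 : p ≤ 1 / 2) : 11 * ff p ≤ -0.829 + 28.66 * p := by
  refine ff_K (p1 := 0.309) (η := 0.05) h1 h2 (by norm_num) ?_ (by norm_num) ?_ (by norm_num)
  · norm_num
  · unfold ff; norm_num

lemma C10_10 {p : ℝ} (h1 : 0.1 ≤ p) (h2 : p ≤ 1 / 2) : 10 * ff p ≤ -1.52 + 28.66 * p := by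
  refine ff_K (p1 := 0.276) (η := 0.01) h1 h2 (by norm_num) ?_ (by norm_num) ?_ (by norm_num)
  · norm_num
  · unfold ff; norm_num

/-- core: three big cells. `x` are squares, `m` is the small cell. -/
lemma core {pm pa pb pn xm xa xb xn : ℝ} (hm0 : 0 ≤ pm) (hm : pm < 0.138)
    (ha : 0.1 ≤ pa) (hb : 0.1 ≤ pb) (hn : 0.1 ≤ pn)
    (ha2 : pa ≤ 1 / 2) (hb2 : pb ≤ 1 / 2) (hn2 : pn ≤ 1 / 2)
    (hsum : pm + pa + pb + pn = 1) (hxa : xa ≤ ff pa) (hxb : xb ≤ ff pb) (hxn : xn ≤ ff pn)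
    (hxm : xm ≤ ff pm) (hxm2 : xm ≤ 12.5664 * pm ^ 2) (hV : 9 / 4 ≤ xm + xa + xb + xn)
    (h3 : 9 / 8 - (xa - xn) ≤ 12 * xm ∨ 5 / 4 ≤ 13 * xm) : 
    xm + xa + xb + xn ≤ 9 / 4 := by
  by_cases hc : 0.083 ≤ pm
  · -- case C1
    have h1 := ff_C1 ha ha2
    have h2 := ff_C1 hb hb2
    have h4 := ff_C1 hn hn2
    have key : xm - 2.688 * pm ≤ -0.1356 := by
      by_cases hc2 : pm ≤ 0.1138
      · nlinarith [mul_nonneg (sub_nonneg.2 hc) (sub_nonneg.2 hc2)]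
      · push Not at hc2
        have h5 : ff pm - 2.688 * pm ≤ -0.1356 := by
          unfold ff
          nlinarith [mul_nonneg (sub_nonneg.2 hc2.le) (sub_nonneg.2 hm.le),
            mul_nonneg (mul_nonneg (sub_nonneg.2 hc2.le) (sub_nonneg.2 hm.le)) hm0]
        linarith
    nlinarith
  · push Not at hc
    rcases h3 with h3 | h3
    · exfalso
      by_cases hc2 : pm ≤ 0.07
      · have h1 := C3_5 ha ha2
        have h2 := C3_4 hb hb2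
        have h4 := C3_3 hn hn2
        have : 3 * (xm + xa + xb + xn) + (13 * xm + 2 * xa + xb) ≥ 27 / 4 + 27 / 8 := by linarith
        have h5 : 16 * xm ≤ 201.0624 * pm ^ 2 := by linarith
        nlinarith [mul_nonneg hm0 (sub_nonneg.2 hc2)]
      · push Not at hc2
        have h1 := C10_12 ha ha2
        have h2 := C10_11 hb hb2
        have h4 := C10_10 hn hn2
        have : 10 * (xm + xa + xb + xn) + (13 * xm + 2 * xa + xb) ≥ 90 / 4 + 27 / 8 := by linarith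
        have h5 : 23 * xm ≤ 289.0272 * pm ^ 2 := by linarith
        nlinarith [mul_nonneg (sub_nonneg.2 hc2.le) (sub_nonneg.2 hc.le)]
    · exfalso
      nlinarith

/-- another small cell is impossible. -/
lemma two_small {pm pj pr ps xm xj xr xs : ℝ} (hm0 : 0 ≤ pm) (hm : pm ≤ 0.138)
    (hj0 : 0 ≤ pj) (hj : pj ≤ 0.1) (hr0 : 0 ≤ pr) (hs0 : 0 ≤ ps) (hr2 : pr ≤ 1 / 2)
    (hs2 : ps ≤ 1 / 2) (hsum : pm + pj + pr + ps = 1) (hxm : xm ≤ ff pm) (hxj : xj ≤ ff pj)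
    (hxr : xr ≤ ff pr) (hxs : xs ≤ ff ps) : xm + xj + xr + xs < 9 / 4 := by
  have h1 := ff_Bm hm0 hm
  have h2 := ff_Bj hj0 hj
  have h3 := ff_B hr0 hr2
  have h4 := ff_B hs0 hs2
  nlinarith

end Num4

open Num4 in
theorem num4 (S p : Fin 4 → ℝ) (g : Fin 4 → Fin 4 → ℝ) (hS0 : ∀ i, 0 ≤ S i) (hp0 : ∀ i, 0 ≤ p i)
    (hp : ∑ i, p i = 1) (hgs : ∀ i j, g i j = g j i) (hg0 : ∀ i j, i ≠ j → 0 ≤ g i j)
    (hrow : ∀ i, ∑ j ∈ Finset.univ.erase i, g i j = S i ^ 2)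
    (h1 : ∀ i, S i ≤ Real.sqrt (4 * Real.pi) * p i)
    (h2 : ∀ i (c : ℝ), 0 ≤ c → c ≤ 1 → S i ≤ 1 + c ^ 2 - 4 * c * (1 / 2 - p i))
    (i0 j0 : Fin 4) (hne : i0 ≠ j0)
    (h3 : ∀ l, ∑ i, S i ^ 2 - (S i0 ^ 2 + S j0 ^ 2 -
      ∑ m ∈ (Finset.univ.erase i0).erase j0, min (g i0 m) (g j0 m)) ≤ 12 * S l ^ 2) :
    ∑ i, S i ^ 2 ≤ 9 / 4 := by
  by_contra hcon
  push Not at hcon
  have hS1 : ∀ i, S i ≤ 1 := fun i => by
    have := h2 i 0 le_rfl zero_le_one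
    linarith
  have hx1 : ∀ i, S i ^ 2 ≤ 1 := fun i => by nlinarith [hS0 i, hS1 i]
  have hxpi : ∀ i, S i ^ 2 ≤ 12.5664 * p i ^ 2 := by
    intro i
    have hpi : Real.pi < 3.1416 := Real.pi_lt_d4
    have h4 : S i ^ 2 ≤ (Real.sqrt (4 * Real.pi) * p i) ^ 2 :=
      pow_le_pow_left₀ (hS0 i) (h1 i) 2
    rw [mul_pow, Real.sq_sqrt (by positivity)] at h4
    nlinarith [sq_nonneg (p i)]
  have hxf : ∀ i, p i ≤ 1 / 2 → S i ^ 2 ≤ ff (p i) := by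
    intro i hi
    have h4 := h2 i (1 - 2 * p i) (by linarith) (by linarith [hp0 i])
    have h5 : S i ≤ 4 * p i * (1 - p i) := by nlinarith
    have h6 : S i ^ 2 ≤ (4 * p i * (1 - p i)) ^ 2 := pow_le_pow_left₀ (hS0 i) h5 2
    unfold ff
    linarith [h6, show (4 * p i * (1 - p i)) ^ 2 = 16 * (p i ^ 2 * (1 - p i) ^ 2) by ring]
  -- no cell has probability above 1/2
  have hhalf : ∀ i, p i ≤ 1 / 2 := by
    intro i
    by_contra hi
    push Not at hi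
    obtain ⟨b, c, d, hb, hc, hd, hbc, hbd, hcd⟩ := exists_three i
    rw [sum4 _ hb hc hd hbc hbd hcd] at hp hcon
    have hb2 : p b ≤ 1 / 2 := by linarith [hp0 c, hp0 d]
    have hc2 : p c ≤ 1 / 2 := by linarith [hp0 b, hp0 d]
    have hd2 : p d ≤ 1 / 2 := by linarith [hp0 b, hp0 c]
    have e1 := ff_0 (hp0 b) hb2
    have e2 := ff_0 (hp0 c) hc2
    have e3 := ff_0 (hp0 d) hd2
    have e4 := hxf b hb2
    have e5 := hxf c hc2
    have e6 := hxf d hd2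
    have e7 := hx1 i
    nlinarith
  have hxf' : ∀ i, S i ^ 2 ≤ ff (p i) := fun i => hxf i (hhalf i)
  -- case A
  by_cases hA : ∀ i, 0.138 ≤ p i
  · have : ∑ i, S i ^ 2 ≤ ∑ i, (9 / 16 + 3 * (p i - 1 / 4)) :=
      Finset.sum_le_sum fun i _ => (hxf' i).trans (ff_A (hA i) (hhalf i))
    rw [Finset.sum_add_distrib, ← Finset.mul_sum, Finset.sum_sub_distrib, hp] at this
    simp at this
    linarith
  · push Not at hA
    obtain ⟨m, hm⟩ := hA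
    -- all others are at least 0.1
    have hbig : ∀ j, j ≠ m → 0.1 ≤ p j := by
      intro j hj
      by_contra hjc
      push Not at hjc
      obtain ⟨c, d, hc, hd, hc', hd', hcd⟩ := exists_two m j (Ne.symm hj)
      rw [sum4 _ (Ne.symm hj) hc hd hc' hd' hcd] at hp hcon
      have := two_small (hp0 m) hm.le (hp0 j) hjc.le (hp0 c) (hp0 d) (hhalf c) (hhalf d)
        (by linarith) (hxf' m) (hxf' j) (hxf' c) (hxf' d)
      linarith
    -- the constraint from the second variation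
    have hcons : ∃ a n : Fin 4, a ≠ m ∧ n ≠ m ∧ a ≠ n ∧
        (9 / 8 - (S a ^ 2 - S n ^ 2) ≤ 12 * S m ^ 2 ∨ 5 / 4 ≤ 13 * S m ^ 2) := by
      have h3m := h3 m
      have hmin0 : 0 ≤ ∑ q ∈ (Finset.univ.erase i0).erase j0, min (g i0 q) (g j0 q) := by
        refine Finset.sum_nonneg fun q hq => ?_
        rw [Finset.mem_erase, Finset.mem_erase] at hq
        exact le_min (hg0 _ _ (Ne.symm hq.2.1)) (hg0 _ _ (Ne.symm hq.1))
      by_cases hi : i0 = m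
      · obtain ⟨c, d, hc, hd, hc', hd', hcd⟩ := exists_two i0 j0 hne
        refine ⟨j0, c, fun h => hne (hi.trans h.symm), fun h => hc (hi.trans h.symm), hc',
          Or.inr ?_⟩
        have := hx1 j0
        rw [hi] at h3m hmin0
        linarith
      · by_cases hj : j0 = m
        · obtain ⟨c, d, hc, hd, hc', hd', hcd⟩ := exists_two i0 j0 hne
          refine ⟨i0, c, hi, fun h => hc' (hj.trans h.symm), hc, Or.inr ?_⟩
          have := hx1 i0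
          rw [hj] at h3m hmin0
          linarith
        · obtain ⟨n, hn1, hn2, hn3⟩ := exists_fourth i0 j0 m hne hi hj
          have r1 := hrow i0
          have r2 := hrow j0
          have r3 := hrow m
          have r4 := hrow n
          rw [sum3 _ hne hi hn1 hj hn2 hn3] at r1
          rw [sum3 _ (Ne.symm hne) hj hn2 hi hn1 hn3] at r2
          rw [sum3 _ (Ne.symm hi) (Ne.symm hj) hn3 hne hn1 hn2] at r3
          rw [sum3 _ (Ne.symm hn1) (Ne.symm hn2) (Ne.symm hn3) hne hi hj] at r4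
          rw [sum4 _ hne hi hn1 hj hn2 hn3] at h3m hcon
          rw [sum2 _ hne hi hn1 hj hn2 hn3] at h3m
          have g1 := hgs j0 i0
          have g2 := hgs m i0
          have g3 := hgs m j0
          have g4 := hgs n i0
          have g5 := hgs n j0
          have g6 := hgs n m
          have p1 := hg0 i0 m hi
          have p2 := hg0 j0 m hj
          have p3 := hg0 i0 n hn1
          have p4 := hg0 j0 n hn2
          have q1 : 0 ≤ min (g i0 m) (g j0 m) := le_min p1 p2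
          rcases le_total (S i0 ^ 2) (S j0 ^ 2) with hle | hle
          · refine ⟨j0, n, hj, Ne.symm hn3, hn2, Or.inl ?_⟩
            have q2 : S i0 ^ 2 + S n ^ 2 -
                (S i0 ^ 2 + S j0 ^ 2 + S m ^ 2 + S n ^ 2) / 2 ≤ min (g i0 n) (g j0 n) :=
              le_min (by linarith) (by linarith)
            linarith
          · refine ⟨i0, n, hi, Ne.symm hn3, hn1, Or.inl ?_⟩
            have q2 : S j0 ^ 2 + S n ^ 2 -
                (S i0 ^ 2 + S j0 ^ 2 + S m ^ 2 + S n ^ 2) / 2 ≤ min (g i0 n) (g j0 n) :=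
              le_min (by linarith) (by linarith)
            linarith
    obtain ⟨a, n, ham, hnm, han, hcase⟩ := hcons
    obtain ⟨b, hb1, hb2, hb3⟩ := exists_fourth m a n (Ne.symm ham) (Ne.symm hnm) han
    rw [sum4 _ (Ne.symm ham) hb1 (Ne.symm hnm) hb2 han (Ne.symm hb3)] at hp hcon
    have := core (hp0 m) hm (hbig a ham) (hbig b (Ne.symm hb1)) (hbig n hnm) (hhalf a) (hhalf b)
      (hhalf n) (by linarith) (hxf' a) (hxf' b) (hxf' n) (hxf' m) (hxpi m) (by linarith) hcase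
    linarith

end P226
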