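import Mathlib

/-!
END, `k ≥ 7` (helper5): pure real-number statement.
-/

namespace P226.N7

/-- the facts about one cell used for `k ≥ 7`. -/
structure Fct (S p : ℝ) : Prop where
  nn : 0 ≤ S
  le1 : S ≤ 1
  lin : 28209 / 100000 * S ≤ p
  cap : ∀ t : ℝ, 0 ≤ t → t ≤ 1 → 250662 / 100000 * t * (1 / 2 - p) ≤
    1 + t ^ 2 / 2 - t ^ 4 / 24 + t ^ 6 / 240 - S

lemma seg {S p : ℝ} (h : Fct S p) (t α β u v : ℝ) (ht0 : 0 < t) (ht1 : t ≤ 1) (hα : 0 ≤ α)
    (huv : u < v)
    (hu : 1 + t ^ 2 / 2 - t ^ 4 / 24 + t ^ 6 / 240 - u ≤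
      250662 / 100000 * t * (1 / 2 - (α * u ^ 2 + β)))
    (hv : 1 + t ^ 2 / 2 - t ^ 4 / 24 + t ^ 6 / 240 - v ≤
      250662 / 100000 * t * (1 / 2 - (α * v ^ 2 + β)))
    (hSu : u ≤ S) (hSv : S ≤ v) : α * S ^ 2 + β ≤ p := by
  have h1 := h.cap t ht0.le ht1
  set q := 1 + t ^ 2 / 2 - t ^ 4 / 24 + t ^ 6 / 240 with hq
  set R := 250662 / 100000 * t with hR
  have hRpos : 0 < R := by rw [hR]; positivity
  have h2 : q - S ≤ R * (1 / 2 - (α * S ^ 2 + β)) := by
    have h3 : 0 ≤ (v - S) * (R * (1 / 2 - (α * u ^ 2 + β)) - (q - u)) :=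
      mul_nonneg (by linarith) (by linarith)
    have h4 : 0 ≤ (S - u) * (R * (1 / 2 - (α * v ^ 2 + β)) - (q - v)) :=
      mul_nonneg (by linarith) (by linarith)
    have h5 : 0 ≤ (v - u) * (R * α * ((S - u) * (v - S))) := by
      apply mul_nonneg (by linarith)
      apply mul_nonneg (mul_nonneg hRpos.le hα)
      exact mul_nonneg (by linarith) (by linarith)
    have h6 : (v - u) * (R * (1 / 2 - (α * S ^ 2 + β)) - (q - S)) =
        (v - S) * (R * (1 / 2 - (α * u ^ 2 + β)) - (q - u)) +
        (S - u) * (R * (1 / 2 - (α * v ^ 2 + β)) - (q - v)) +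
        (v - u) * (R * α * ((S - u) * (v - S))) := by ring
    have h7 : 0 ≤ (v - u) * (R * (1 / 2 - (α * S ^ 2 + β)) - (q - S)) := by
      rw [h6]; linarith
    have h8 : 0 < v - u := by linarith
    have h9 := nonneg_of_mul_nonneg_right h7 h8
    linarith
  have h10 : R * (1 / 2 - p) ≤ R * (1 / 2 - (α * S ^ 2 + β)) := h1.trans h2
  have h11 := le_of_mul_le_mul_left h10 hRpos
  linarith

/-- segment covered by the linear bound. -/
lemma segc {S p : ℝ} (h : Fct S p) (α β u v : ℝ) (hα : 0 ≤ α) (huv : u < v)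
    (hu : α * u ^ 2 + β ≤ 28209 / 100000 * u) (hv : α * v ^ 2 + β ≤ 28209 / 100000 * v)
    (hSu : u ≤ S) (hSv : S ≤ v) : α * S ^ 2 + β ≤ p := by
  refine le_trans ?_ h.lin
  have h3 : 0 ≤ (v - S) * (28209 / 100000 * u - (α * u ^ 2 + β)) :=
    mul_nonneg (by linarith) (by linarith)
  have h4 : 0 ≤ (S - u) * (28209 / 100000 * v - (α * v ^ 2 + β)) :=
    mul_nonneg (by linarith) (by linarith)
  have h5 : 0 ≤ (v - u) * (α * ((S - u) * (v - S))) := by
    apply mul_nonneg (by linarith)
    apply mul_nonneg hα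
    exact mul_nonneg (by linarith) (by linarith)
  have h7 : 0 ≤ (v - u) * (28209 / 100000 * S - (α * S ^ 2 + β)) := by
    nlinarith
  have h8 : 0 < v - u := by linarith
  have h9 := nonneg_of_mul_nonneg_right h7 h8
  linarith

/-- validity of the lower bound `p ≥ κ (S² - a²) + c a` for `a ≤ b`. -/
def Valid (κ b : ℝ) : Prop :=
  ∀ S p : ℝ, Fct S p → ∀ a : ℝ, 0 ≤ a → a ≤ b → a ≤ S →
    κ * (S ^ 2 - a ^ 2) + 28209 / 100000 * a ≤ p

lemma valid_of {κ b u : ℝ} (hκ : 0 < κ) (_hb : 0 ≤ b) (hu : κ * (u + b) ≤ 28209 / 100000)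
    (hb2 : 2 * κ * b ≤ 28209 / 100000)
    (hcov : ∀ S p : ℝ, Fct S p → u ≤ S →
      κ * S ^ 2 + (28209 / 100000 * b - κ * b ^ 2) ≤ p) : Valid κ b := by
  intro S p h a ha0 hab haS
  rcases le_total S u with hS | hS
  · refine le_trans ?_ h.lin
    have h1 : κ * (S + a) ≤ 28209 / 100000 := by
      refine le_trans ?_ hu
      apply mul_le_mul_of_nonneg_left _ hκ.le
      linarith
    nlinarith [mul_nonneg (sub_nonneg.2 haS) (sub_nonneg.2 h1)]
  · have h1 := hcov S p h hS
    have h2 : κ * (a + b) ≤ 28209 / 100000 := by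
      have : κ * (a + b) ≤ κ * (2 * b) := mul_le_mul_of_nonneg_left (by linarith) hκ.le
      linarith
    nlinarith [mul_nonneg (sub_nonneg.2 hab) (sub_nonneg.2 h2)]

section main

variable {k : ℕ} {S p : Fin k → ℝ} {i₀ j₀ : Fin k} {a b : ℝ}

/-- the setting after normalisation. -/
structure Setup (k : ℕ) (S p : Fin k → ℝ) (i₀ j₀ : Fin k) (a b : ℝ) : Prop where
  hk : 7 ≤ k
  fct : ∀ i, Fct (S i) (p i)
  hij : i₀ ≠ j₀
  sum : ∑ i, S i ^ 2 = 9 / 4
  a0 : 0 ≤ a
  b0 : 0 ≤ b
  hb : 42 * b ^ 2 = 9 / 4 - S i₀ ^ 2 - S j₀ ^ 2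
  ha : (k : ℝ) * (k - 1) * a ^ 2 = 42 * b ^ 2
  haS : ∀ l, a ≤ S l

lemma Setup.a_le_b (h : Setup k S p i₀ j₀ a b) : a ≤ b := by
  have hk : (7 : ℝ) ≤ k := by exact_mod_cast h.hk
  have h1 : (42 : ℝ) ≤ (k : ℝ) * (k - 1) := by nlinarith
  have h2 : 42 * a ^ 2 ≤ 42 * b ^ 2 := by
    rw [← h.ha]
    exact mul_le_mul_of_nonneg_right h1 (sq_nonneg a)
  have h3 : a ^ 2 ≤ b ^ 2 := by linarith
  exact abs_le_of_sq_le_sq' h3 h.b0 |>.2

lemma Setup.five (h : Setup k S p i₀ j₀ a b) : 5 * b ≤ ((k : ℝ) - 2) * a := by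
  have hk : (7 : ℝ) ≤ k := by exact_mod_cast h.hk
  have ha := h.ha
  have hkk : 0 < (k : ℝ) * (k - 1) := by nlinarith
  have h1 : (5 * b) ^ 2 ≤ (((k : ℝ) - 2) * a) ^ 2 := by
    have e1 : (k : ℝ) * (k - 1) * ((((k : ℝ) - 2) * a) ^ 2) = (k - 2) ^ 2 * (42 * b ^ 2) := by
      rw [← ha]; ring
    have e2 : (k : ℝ) * (k - 1) * (5 * b) ^ 2 ≤ (k : ℝ) * (k - 1) * ((((k : ℝ) - 2) * a) ^ 2) := by
      rw [e1]
      have : 25 * ((k : ℝ) * (k - 1)) ≤ 42 * (k - 2) ^ 2 := by nlinarith
      nlinarith [mul_le_mul_of_nonneg_right this (sq_nonneg b)]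
    exact le_of_mul_le_mul_left e2 hkk
  exact abs_le_of_sq_le_sq' h1 (mul_nonneg (by linarith) h.a0) |>.2

lemma Setup.five' (h : Setup k S p i₀ j₀ a b) : ((k : ℝ) - 2) * a ^ 2 ≤ 5 * b ^ 2 := by
  have hk : (7 : ℝ) ≤ k := by exact_mod_cast h.hk
  have ha := h.ha
  have hkk : 0 < (k : ℝ) * (k - 1) := by nlinarith
  have e1 : (k : ℝ) * (k - 1) * (((k : ℝ) - 2) * a ^ 2) = (k - 2) * (42 * b ^ 2) := by
    rw [← ha]; ring
  have e2 : (k : ℝ) * (k - 1) * (((k : ℝ) - 2) * a ^ 2) ≤ (k : ℝ) * (k - 1) * (5 * b ^ 2) := by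
    rw [e1]
    have : 42 * ((k : ℝ) - 2) ≤ 5 * (k * (k - 1)) := by nlinarith
    nlinarith [mul_le_mul_of_nonneg_right this (sq_nonneg b)]
  exact le_of_mul_le_mul_left e2 hkk

lemma Setup.sum_rest (h : Setup k S p i₀ j₀ a b) :
    ∑ l ∈ (Finset.univ.erase i₀).erase j₀, S l ^ 2 = 42 * b ^ 2 := by
  have e1 := Finset.add_sum_erase Finset.univ (fun l => S l ^ 2) (Finset.mem_univ i₀)
  have e2 := Finset.add_sum_erase (Finset.univ.erase i₀) (fun l => S l ^ 2)
    (Finset.mem_erase.2 ⟨h.hij.symm, Finset.mem_univ j₀⟩)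
  have e3 := h.sum
  have e4 := h.hb
  linarith

lemma Setup.card_rest (h : Setup k S p i₀ j₀ a b) :
    (((Finset.univ.erase i₀).erase j₀).card : ℝ) = k - 2 := by
  have hk := h.hk
  rw [Finset.card_erase_of_mem (Finset.mem_erase.2 ⟨h.hij.symm, Finset.mem_univ j₀⟩),
    Finset.card_erase_of_mem (Finset.mem_univ i₀), Finset.card_univ, Fintype.card_fin,
    Nat.sub_sub, Nat.cast_sub (by omega)]
  norm_num

/-- regime A. -/
lemma pieceA (h : Setup k S p i₀ j₀ a b) {b₁ b₂ κ φ₀ φ₁ x₀ : ℝ} (hb1 : b₁ ≤ b) (hb2 : b ≤ b₂)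
    (hb₁ : 0 ≤ b₁) (hκ : 0 < κ) (hV : Valid κ b₂)
    (hφ : ∀ S p : ℝ, Fct S p → 5 / 4 - 42 * b₂ ^ 2 ≤ S ^ 2 → φ₁ * S ^ 2 + (φ₀ - φ₁ * x₀) ≤ p)
    (hc : 37 * κ ≤ 42 * φ₁)
    (hT1 : 1 < 37 * κ * b₁ ^ 2 + 5 * (28209 / 100000) * b₁ + 2 * φ₀ +
      φ₁ * (9 / 4 - 42 * b₁ ^ 2 - 2 * x₀))
    (hT2 : 1 < 37 * κ * b₂ ^ 2 + 5 * (28209 / 100000) * b₂ + 2 * φ₀ +
      φ₁ * (9 / 4 - 42 * b₂ ^ 2 - 2 * x₀)) : 1 < ∑ i, p i := by
  have hab := h.a_le_b
  have h5 := h.five
  have h5' := h.five'
  have e1 := Finset.add_sum_erase Finset.univ (fun l => p l) (Finset.mem_univ i₀)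
  have e2 := Finset.add_sum_erase (Finset.univ.erase i₀) (fun l => p l)
    (Finset.mem_erase.2 ⟨h.hij.symm, Finset.mem_univ j₀⟩)
  have e3 : ∑ l ∈ (Finset.univ.erase i₀).erase j₀,
      (κ * (S l ^ 2 - a ^ 2) + 28209 / 100000 * a) ≤
      ∑ l ∈ (Finset.univ.erase i₀).erase j₀, p l := by
    apply Finset.sum_le_sum
    intro l _
    exact hV (S l) (p l) (h.fct l) a h.a0 (hab.trans hb2) (h.haS l)
  have e4 : ∑ l ∈ (Finset.univ.erase i₀).erase j₀,
      (κ * (S l ^ 2 - a ^ 2) + 28209 / 100000 * a) =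
      κ * (42 * b ^ 2 - (k - 2) * a ^ 2) + (k - 2) * (28209 / 100000 * a) := by
    rw [Finset.sum_add_distrib, ← Finset.mul_sum, Finset.sum_sub_distrib, h.sum_rest,
      Finset.sum_const, Finset.sum_const, nsmul_eq_mul, nsmul_eq_mul, h.card_rest]
  rw [e4] at e3
  have hx : S i₀ ^ 2 ≤ 1 ∧ S j₀ ^ 2 ≤ 1 := by
    constructor
    · have h1 := (h.fct i₀).nn; have h2 := (h.fct i₀).le1; nlinarith
    · have h1 := (h.fct j₀).nn; have h2 := (h.fct j₀).le1; nlinarith
  have hbb : b ^ 2 ≤ b₂ ^ 2 := by nlinarith [h.b0]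
  have hb' := h.hb
  have f1 := hφ (S i₀) (p i₀) (h.fct i₀) (by nlinarith [hx.2])
  have f2 := hφ (S j₀) (p j₀) (h.fct j₀) (by nlinarith [hx.1])
  have g1 : κ * (42 * b ^ 2 - 5 * b ^ 2) ≤ κ * (42 * b ^ 2 - (k - 2) * a ^ 2) :=
    mul_le_mul_of_nonneg_left (by linarith) hκ.le
  -- concavity
  have hconc : 1 < 37 * κ * b ^ 2 + 5 * (28209 / 100000) * b + 2 * φ₀ +
      φ₁ * (9 / 4 - 42 * b ^ 2 - 2 * x₀) := by
    by_contra hcon
    push Not at hcon
    rcases eq_or_lt_of_le hb1 with hb1' | hb1'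
    · rw [← hb1'] at hcon; linarith
    rcases eq_or_lt_of_le hb2 with hb2' | hb2'
    · rw [hb2'] at hcon; linarith
    have m1 := mul_pos (sub_pos.2 hb2') (sub_pos.2 hT1)
    have m2 := mul_pos (sub_pos.2 hb1') (sub_pos.2 hT2)
    have m3 : 0 ≤ (b₂ - b₁) * ((42 * φ₁ - 37 * κ) * ((b - b₁) * (b₂ - b))) := by
      apply mul_nonneg (by linarith)
      exact mul_nonneg (by linarith) (mul_nonneg (by linarith) (by linarith))
    have m4 : 0 ≤ (b₂ - b₁) * (1 - (37 * κ * b ^ 2 + 5 * (28209 / 100000) * b + 2 * φ₀ +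
      φ₁ * (9 / 4 - 42 * b ^ 2 - 2 * x₀))) := mul_nonneg (by linarith) (by linarith)
    have m5 : (b₂ - b₁) * (1 - (37 * κ * b ^ 2 + 5 * (28209 / 100000) * b + 2 * φ₀ +
      φ₁ * (9 / 4 - 42 * b ^ 2 - 2 * x₀))) =
      -((b₂ - b) * (37 * κ * b₁ ^ 2 + 5 * (28209 / 100000) * b₁ + 2 * φ₀ +
      φ₁ * (9 / 4 - 42 * b₁ ^ 2 - 2 * x₀) - 1) + (b - b₁) * (37 * κ * b₂ ^ 2 +
      5 * (28209 / 100000) * b₂ + 2 * φ₀ + φ₁ * (9 / 4 - 42 * b₂ ^ 2 - 2 * x₀) - 1) +
      (b₂ - b₁) * ((42 * φ₁ - 37 * κ) * ((b - b₁) * (b₂ - b)))) := by ring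
    linarith
  have g2 : φ₁ * (9 / 4 - 42 * b ^ 2 - 2 * x₀) =
      φ₁ * S i₀ ^ 2 + φ₁ * S j₀ ^ 2 - 2 * (φ₁ * x₀) := by rw [hb']; ring
  rw [g2] at hconc
  linarith

/-- regime B. -/
lemma pieceB (h : Setup k S p i₀ j₀ a b) {b₁ b₂ κ : ℝ} (hb1 : b₁ ≤ b) (hb2 : b ≤ b₂)
    (_hb₁ : 0 ≤ b₁) (hκ : 0 < κ) (hV : Valid κ b₂) (h7 : 28209 / 100000 ≤ κ * (7 * b₁))
    (hT1 : 1 < κ * (9 / 4 - 7 * b₁ ^ 2) + 7 * (28209 / 100000) * b₁)
    (hT2 : 1 < κ * (9 / 4 - 7 * b₂ ^ 2) + 7 * (28209 / 100000) * b₂) : 1 < ∑ i, p i := by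
  have hk : (7 : ℝ) ≤ k := by exact_mod_cast h.hk
  have hab := h.a_le_b
  have e3 : ∑ l, (κ * (S l ^ 2 - a ^ 2) + 28209 / 100000 * a) ≤ ∑ l, p l := by
    apply Finset.sum_le_sum
    intro l _
    exact hV (S l) (p l) (h.fct l) a h.a0 (hab.trans hb2) (h.haS l)
  have e4 : ∑ l, (κ * (S l ^ 2 - a ^ 2) + 28209 / 100000 * a) =
      κ * (9 / 4 - k * a ^ 2) + k * (28209 / 100000 * a) := by
    rw [Finset.sum_add_distrib, ← Finset.mul_sum, Finset.sum_sub_distrib, h.sum,
      Finset.sum_const, Finset.sum_const, nsmul_eq_mul, nsmul_eq_mul, Finset.card_univ,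
      Fintype.card_fin]
  rw [e4] at e3
  -- compare with k = 7
  have key : 7 * (28209 / 100000 * b - κ * b ^ 2) ≤ k * (28209 / 100000 * a - κ * a ^ 2) := by
    have hbpos : 0 ≤ b := h.b0
    have ha := h.ha
    have hk1 : 0 < (k : ℝ) - 1 := by linarith
    -- κ (7 b² - k a²) ≥ c (7 b - k a)
    have h1 : 0 ≤ 7 * b ^ 2 - k * a ^ 2 := by
      have : (k - 1) * (7 * b ^ 2 - k * a ^ 2) = 7 * (k - 7) * b ^ 2 := by linarith
      have h2 : 0 ≤ ((k : ℝ) - 1) * (7 * b ^ 2 - k * a ^ 2) := by
        rw [this]; exact mul_nonneg (mul_nonneg (by norm_num) (by linarith)) (sq_nonneg b)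
      exact nonneg_of_mul_nonneg_right h2 hk1
    have h3 : (7 * b - k * a) * (7 * b + k * a) = 7 * (7 * b ^ 2 - k * a ^ 2) -
        k * (k - 7) * a ^ 2 := by ring
    have hbb : 28209 / 100000 ≤ κ * (7 * b) := by
      refine h7.trans ?_
      exact mul_le_mul_of_nonneg_left (by linarith) hκ.le
    rcases le_total (7 * b) (k * a) with hle | hle
    · nlinarith [mul_nonneg hκ.le h1]
    · -- c (7b - ka) ≤ κ 7 b (7 b - k a) ≤ κ (7b+ka)(7b-ka) and (49 b² - k² a²) ≤ 7 b² - k a²
      have h4 : 49 * b ^ 2 - k ^ 2 * a ^ 2 ≤ 7 * b ^ 2 - k * a ^ 2 := by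
        have h5 : (k : ℝ) * (k - 1) * a ^ 2 = k ^ 2 * a ^ 2 - k * a ^ 2 := by ring
        linarith
      have h6 : 28209 / 100000 * (7 * b - k * a) ≤ κ * (7 * b) * (7 * b - k * a) :=
        mul_le_mul_of_nonneg_right hbb (by linarith)
      have h8 : κ * (7 * b) * (7 * b - k * a) ≤ κ * (7 * b + k * a) * (7 * b - k * a) := by
        apply mul_le_mul_of_nonneg_right _ (by linarith)
        apply mul_le_mul_of_nonneg_left _ hκ.le
        have := mul_nonneg (by linarith : (0:ℝ) ≤ k) h.a0
        linarith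
      have h9 : κ * (7 * b + k * a) * (7 * b - k * a) = κ * (49 * b ^ 2 - k ^ 2 * a ^ 2) := by ring
      have h10 := mul_le_mul_of_nonneg_left h4 hκ.le
      nlinarith
  have hconc : 1 < κ * (9 / 4 - 7 * b ^ 2) + 7 * (28209 / 100000) * b := by
    by_contra hcon
    push Not at hcon
    rcases eq_or_lt_of_le hb1 with hb1' | hb1'
    · rw [← hb1'] at hcon; linarith
    rcases eq_or_lt_of_le hb2 with hb2' | hb2'
    · rw [hb2'] at hcon; linarith
    have m1 := mul_pos (sub_pos.2 hb2') (sub_pos.2 hT1)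
    have m2 := mul_pos (sub_pos.2 hb1') (sub_pos.2 hT2)
    have m3 : 0 ≤ (b₂ - b₁) * ((7 * κ) * ((b - b₁) * (b₂ - b))) := by
      apply mul_nonneg (by linarith)
      exact mul_nonneg (by linarith) (mul_nonneg (by linarith) (by linarith))
    have m4 : 0 ≤ (b₂ - b₁) * (1 - (κ * (9 / 4 - 7 * b ^ 2) + 7 * (28209 / 100000) * b)) :=
      mul_nonneg (by linarith) (by linarith)
    nlinarith
  linarith

end main


lemma vK1 : Valid (179 / 500) (9 / 100) := by
  apply valid_of (u := (697 / 1000)) (by norm_num) (by norm_num) (by norm_num) (by norm_num)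
  intro S p h hS
  rcases le_total S (757 / 1000) with hS2 | hS2
  · exact seg h (77 / 100) _ _ (697 / 1000) (757 / 1000) (by norm_num) (by norm_num) (by norm_num) (by norm_num)
      (by norm_num) (by norm_num) hS hS2
  clear hS
  have hS := hS2
  clear hS2
  rcases le_total S (389 / 500) with hS2 | hS2
  · exact seg h (73 / 100) _ _ (757 / 1000) (389 / 500) (by norm_num) (by norm_num) (by norm_num) (by norm_num)
      (by norm_num) (by norm_num) hS hS2
  clear hS
  have hS := hS2
  clear hS2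
  rcases le_total S (419 / 500) with hS2 | hS2
  · exact seg h (69 / 100) _ _ (389 / 500) (419 / 500) (by norm_num) (by norm_num) (by norm_num) (by norm_num)
      (by norm_num) (by norm_num) hS hS2
  clear hS
  have hS := hS2
  clear hS2
  exact seg h (3 / 5) _ _ (419 / 500) 1 (by norm_num) (by norm_num) (by norm_num) (by norm_num)
      (by norm_num) (by norm_num) hS (h.le1)

lemma vP1 : ∀ S p : ℝ, Fct S p → 5 / 4 - 42 * (9 / 100) ^ 2 ≤ S ^ 2 →
    (126 / 125) * S ^ 2 + ((2099 / 5000) - (126 / 125) * (24 / 25)) ≤ p := by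
  intro S p h hx
  have hS : (953 / 1000) ≤ S := by
    have h0 := h.nn
    by_contra hcon
    push Not at hcon
    nlinarith
  rcases le_total S (39 / 40) with hS2 | hS2
  · exact seg h (1 / 4) _ _ (953 / 1000) (39 / 40) (by norm_num) (by norm_num) (by norm_num) (by norm_num)
      (by norm_num) (by norm_num) hS hS2
  clear hS
  have hS := hS2
  clear hS2
  exact seg h (1 / 5) _ _ (39 / 40) 1 (by norm_num) (by norm_num) (by norm_num) (by norm_num)
      (by norm_num) (by norm_num) hS (h.le1)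

lemma vK2 : Valid (141 / 400) (21 / 200) := by
  apply valid_of (u := (139 / 200)) (by norm_num) (by norm_num) (by norm_num) (by norm_num)
  intro S p h hS
  rcases le_total S (371 / 500) with hS2 | hS2
  · exact seg h (79 / 100) _ _ (139 / 200) (371 / 500) (by norm_num) (by norm_num) (by norm_num) (by norm_num)
      (by norm_num) (by norm_num) hS hS2
  clear hS
  have hS := hS2
  clear hS2
  rcases le_total S (3 / 4) with hS2 | hS2
  · exact seg h (77 / 100) _ _ (371 / 500) (3 / 4) (by norm_num) (by norm_num) (by norm_num) (by norm_num)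
      (by norm_num) (by norm_num) hS hS2
  clear hS
  have hS := hS2
  clear hS2
  rcases le_total S (763 / 1000) with hS2 | hS2
  · exact seg h (3 / 4) _ _ (3 / 4) (763 / 1000) (by norm_num) (by norm_num) (by norm_num) (by norm_num)
      (by norm_num) (by norm_num) hS hS2
  clear hS
  have hS := hS2
  clear hS2
  rcases le_total S (791 / 1000) with hS2 | hS2
  · exact seg h (73 / 100) _ _ (763 / 1000) (791 / 1000) (by norm_num) (by norm_num) (by norm_num) (by norm_num)
      (by norm_num) (by norm_num) hS hS2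
  clear hS
  have hS := hS2
  clear hS2
  rcases le_total S (929 / 1000) with hS2 | hS2
  · exact seg h (33 / 50) _ _ (791 / 1000) (929 / 1000) (by norm_num) (by norm_num) (by norm_num) (by norm_num)
      (by norm_num) (by norm_num) hS hS2
  clear hS
  have hS := hS2
  clear hS2
  exact seg h (63 / 100) _ _ (929 / 1000) 1 (by norm_num) (by norm_num) (by norm_num) (by norm_num)
      (by norm_num) (by norm_num) hS (h.le1)

lemma vP2 : ∀ S p : ℝ, Fct S p → 5 / 4 - 42 * (21 / 200) ^ 2 ≤ S ^ 2 →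
    (627 / 1000) * S ^ 2 + ((3679 / 10000) - (627 / 1000) * (893 / 1000)) ≤ p := by
  intro S p h hx
  have hS : (887 / 1000) ≤ S := by
    have h0 := h.nn
    by_contra hcon
    push Not at hcon
    nlinarith
  rcases le_total S (19 / 20) with hS2 | hS2
  · exact seg h (7 / 20) _ _ (887 / 1000) (19 / 20) (by norm_num) (by norm_num) (by norm_num) (by norm_num)
      (by norm_num) (by norm_num) hS hS2
  clear hS
  have hS := hS2
  clear hS2
  exact seg h (3 / 10) _ _ (19 / 20) 1 (by norm_num) (by norm_num) (by norm_num) (by norm_num)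
      (by norm_num) (by norm_num) hS (h.le1)

lemma vK3 : Valid (869 / 2500) (59 / 500) := by
  apply valid_of (u := (693 / 1000)) (by norm_num) (by norm_num) (by norm_num) (by norm_num)
  intro S p h hS
  rcases le_total S (731 / 1000) with hS2 | hS2
  · exact seg h (81 / 100) _ _ (693 / 1000) (731 / 1000) (by norm_num) (by norm_num) (by norm_num) (by norm_num)
      (by norm_num) (by norm_num) hS hS2
  clear hS
  have hS := hS2
  clear hS2
  rcases le_total S (741 / 1000) with hS2 | hS2
  · exact seg h (79 / 100) _ _ (731 / 1000) (741 / 1000) (by norm_num) (by norm_num) (by norm_num) (by norm_num)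
      (by norm_num) (by norm_num) hS hS2
  clear hS
  have hS := hS2
  clear hS2
  rcases le_total S (757 / 1000) with hS2 | hS2
  · exact seg h (77 / 100) _ _ (741 / 1000) (757 / 1000) (by norm_num) (by norm_num) (by norm_num) (by norm_num)
      (by norm_num) (by norm_num) hS hS2
  clear hS
  have hS := hS2
  clear hS2
  rcases le_total S (409 / 500) with hS2 | hS2
  · exact seg h (73 / 100) _ _ (757 / 1000) (409 / 500) (by norm_num) (by norm_num) (by norm_num) (by norm_num)
      (by norm_num) (by norm_num) hS hS2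
  clear hS
  have hS := hS2
  clear hS2
  exact seg h (63 / 100) _ _ (409 / 500) 1 (by norm_num) (by norm_num) (by norm_num) (by norm_num)
      (by norm_num) (by norm_num) hS (h.le1)

lemma vP3 : ∀ S p : ℝ, Fct S p → 5 / 4 - 42 * (59 / 500) ^ 2 ≤ S ^ 2 →
    (511 / 1000) * S ^ 2 + ((1671 / 5000) - (511 / 1000) * (833 / 1000)) ≤ p := by
  intro S p h hx
  have hS : (163 / 200) ≤ S := by
    have h0 := h.nn
    by_contra hcon
    push Not at hcon
    nlinarith
  rcases le_total S (9 / 10) with hS2 | hS2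
  · exact seg h (1 / 2) _ _ (163 / 200) (9 / 10) (by norm_num) (by norm_num) (by norm_num) (by norm_num)
      (by norm_num) (by norm_num) hS hS2
  clear hS
  have hS := hS2
  clear hS2
  rcases le_total S (183 / 200) with hS2 | hS2
  · exact seg h (9 / 20) _ _ (9 / 10) (183 / 200) (by norm_num) (by norm_num) (by norm_num) (by norm_num)
      (by norm_num) (by norm_num) hS hS2
  clear hS
  have hS := hS2
  clear hS2
  exact seg h (2 / 5) _ _ (183 / 200) 1 (by norm_num) (by norm_num) (by norm_num) (by norm_num)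
      (by norm_num) (by norm_num) hS (h.le1)

lemma vK4 : Valid (1719 / 5000) (16 / 125) := by
  apply valid_of (u := (173 / 250)) (by norm_num) (by norm_num) (by norm_num) (by norm_num)
  intro S p h hS
  rcases le_total S (18 / 25) with hS2 | hS2
  · exact seg h (83 / 100) _ _ (173 / 250) (18 / 25) (by norm_num) (by norm_num) (by norm_num) (by norm_num)
      (by norm_num) (by norm_num) hS hS2
  clear hS
  have hS := hS2
  clear hS2
  rcases le_total S (749 / 1000) with hS2 | hS2
  · exact seg h (79 / 100) _ _ (18 / 25) (749 / 1000) (by norm_num) (by norm_num) (by norm_num) (by norm_num)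
      (by norm_num) (by norm_num) hS hS2
  clear hS
  have hS := hS2
  clear hS2
  rcases le_total S (403 / 500) with hS2 | hS2
  · exact seg h (3 / 4) _ _ (749 / 1000) (403 / 500) (by norm_num) (by norm_num) (by norm_num) (by norm_num)
      (by norm_num) (by norm_num) hS hS2
  clear hS
  have hS := hS2
  clear hS2
  exact seg h (63 / 100) _ _ (403 / 500) 1 (by norm_num) (by norm_num) (by norm_num) (by norm_num)
      (by norm_num) (by norm_num) hS (h.le1)

lemma vP4 : ∀ S p : ℝ, Fct S p → 5 / 4 - 42 * (16 / 125) ^ 2 ≤ S ^ 2 →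
    (227 / 500) * S ^ 2 + ((1547 / 5000) - (227 / 500) * (781 / 1000)) ≤ p := by
  intro S p h hx
  have hS : (749 / 1000) ≤ S := by
    have h0 := h.nn
    by_contra hcon
    push Not at hcon
    nlinarith
  rcases le_total S (753 / 1000) with hS2 | hS2
  · exact segc h _ _ (749 / 1000) (753 / 1000) (by norm_num) (by norm_num) (by norm_num) (by norm_num) hS hS2
  clear hS
  have hS := hS2
  clear hS2
  rcases le_total S (873 / 1000) with hS2 | hS2
  · exact seg h (11 / 20) _ _ (753 / 1000) (873 / 1000) (by norm_num) (by norm_num) (by norm_num) (by norm_num)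
      (by norm_num) (by norm_num) hS hS2
  clear hS
  have hS := hS2
  clear hS2
  rcases le_total S (112 / 125) with hS2 | hS2
  · exact seg h (1 / 2) _ _ (873 / 1000) (112 / 125) (by norm_num) (by norm_num) (by norm_num) (by norm_num)
      (by norm_num) (by norm_num) hS hS2
  clear hS
  have hS := hS2
  clear hS2
  exact seg h (9 / 20) _ _ (112 / 125) 1 (by norm_num) (by norm_num) (by norm_num) (by norm_num)
      (by norm_num) (by norm_num) hS (h.le1)

lemma vK5 : Valid (213 / 625) (17 / 125) := by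
  apply valid_of (u := (691 / 1000)) (by norm_num) (by norm_num) (by norm_num) (by norm_num)
  intro S p h hS
  rcases le_total S (353 / 500) with hS2 | hS2
  · exact seg h (17 / 20) _ _ (691 / 1000) (353 / 500) (by norm_num) (by norm_num) (by norm_num) (by norm_num)
      (by norm_num) (by norm_num) hS hS2
  clear hS
  have hS := hS2
  clear hS2
  rcases le_total S (717 / 1000) with hS2 | hS2
  · exact seg h (83 / 100) _ _ (353 / 500) (717 / 1000) (by norm_num) (by norm_num) (by norm_num) (by norm_num)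
      (by norm_num) (by norm_num) hS hS2
  clear hS
  have hS := hS2
  clear hS2
  rcases le_total S (367 / 500) with hS2 | hS2
  · exact seg h (81 / 100) _ _ (717 / 1000) (367 / 500) (by norm_num) (by norm_num) (by norm_num) (by norm_num)
      (by norm_num) (by norm_num) hS hS2
  clear hS
  have hS := hS2
  clear hS2
  rcases le_total S (789 / 1000) with hS2 | hS2
  · exact seg h (77 / 100) _ _ (367 / 500) (789 / 1000) (by norm_num) (by norm_num) (by norm_num) (by norm_num)
      (by norm_num) (by norm_num) hS hS2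
  clear hS
  have hS := hS2
  clear hS2
  exact seg h (33 / 50) _ _ (789 / 1000) 1 (by norm_num) (by norm_num) (by norm_num) (by norm_num)
      (by norm_num) (by norm_num) hS (h.le1)

lemma vP5 : ∀ S p : ℝ, Fct S p → 5 / 4 - 42 * (17 / 125) ^ 2 ≤ S ^ 2 →
    (107 / 250) * S ^ 2 + ((737 / 2500) - (107 / 250) * (187 / 250)) ≤ p := by
  intro S p h hx
  have hS : (687 / 1000) ≤ S := by
    have h0 := h.nn
    by_contra hcon
    push Not at hcon
    nlinarith
  rcases le_total S (739 / 1000) with hS2 | hS2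
  · exact segc h _ _ (687 / 1000) (739 / 1000) (by norm_num) (by norm_num) (by norm_num) (by norm_num) hS hS2
  clear hS
  have hS := hS2
  clear hS2
  rcases le_total S (213 / 250) with hS2 | hS2
  · exact seg h (3 / 5) _ _ (739 / 1000) (213 / 250) (by norm_num) (by norm_num) (by norm_num) (by norm_num)
      (by norm_num) (by norm_num) hS hS2
  clear hS
  have hS := hS2
  clear hS2
  rcases le_total S (873 / 1000) with hS2 | hS2
  · exact seg h (11 / 20) _ _ (213 / 250) (873 / 1000) (by norm_num) (by norm_num) (by norm_num) (by norm_num)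
      (by norm_num) (by norm_num) hS hS2
  clear hS
  have hS := hS2
  clear hS2
  rcases le_total S (993 / 1000) with hS2 | hS2
  · exact seg h (1 / 2) _ _ (873 / 1000) (993 / 1000) (by norm_num) (by norm_num) (by norm_num) (by norm_num)
      (by norm_num) (by norm_num) hS hS2
  clear hS
  have hS := hS2
  clear hS2
  exact seg h (9 / 20) _ _ (993 / 1000) 1 (by norm_num) (by norm_num) (by norm_num) (by norm_num)
      (by norm_num) (by norm_num) hS (h.le1)

lemma vK6 : Valid (3377 / 10000) (18 / 125) := by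
  apply valid_of (u := (691 / 1000)) (by norm_num) (by norm_num) (by norm_num) (by norm_num)
  intro S p h hS
  rcases le_total S (88 / 125) with hS2 | hS2
  · exact seg h (17 / 20) _ _ (691 / 1000) (88 / 125) (by norm_num) (by norm_num) (by norm_num) (by norm_num)
      (by norm_num) (by norm_num) hS hS2
  clear hS
  have hS := hS2
  clear hS2
  rcases le_total S (723 / 1000) with hS2 | hS2
  · exact seg h (83 / 100) _ _ (88 / 125) (723 / 1000) (by norm_num) (by norm_num) (by norm_num) (by norm_num)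
      (by norm_num) (by norm_num) hS hS2
  clear hS
  have hS := hS2
  clear hS2
  rcases le_total S (97 / 125) with hS2 | hS2
  · exact seg h (79 / 100) _ _ (723 / 1000) (97 / 125) (by norm_num) (by norm_num) (by norm_num) (by norm_num)
      (by norm_num) (by norm_num) hS hS2
  clear hS
  have hS := hS2
  clear hS2
  exact seg h (33 / 50) _ _ (97 / 125) 1 (by norm_num) (by norm_num) (by norm_num) (by norm_num)
      (by norm_num) (by norm_num) hS (h.le1)

lemma vP6 : ∀ S p : ℝ, Fct S p → 5 / 4 - 42 * (18 / 125) ^ 2 ≤ S ^ 2 →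
    (52 / 125) * S ^ 2 + ((359 / 1250) - (52 / 125) * (73 / 100)) ≤ p := by
  intro S p h hx
  have hS : (123 / 200) ≤ S := by
    have h0 := h.nn
    by_contra hcon
    push Not at hcon
    nlinarith
  rcases le_total S (183 / 250) with hS2 | hS2
  · exact segc h _ _ (123 / 200) (183 / 250) (by norm_num) (by norm_num) (by norm_num) (by norm_num) hS hS2
  clear hS
  have hS := hS2
  clear hS2
  rcases le_total S (839 / 1000) with hS2 | hS2
  · exact seg h (63 / 100) _ _ (183 / 250) (839 / 1000) (by norm_num) (by norm_num) (by norm_num) (by norm_num)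
      (by norm_num) (by norm_num) hS hS2
  clear hS
  have hS := hS2
  clear hS2
  rcases le_total S (849 / 1000) with hS2 | hS2
  · exact seg h (3 / 5) _ _ (839 / 1000) (849 / 1000) (by norm_num) (by norm_num) (by norm_num) (by norm_num)
      (by norm_num) (by norm_num) hS hS2
  clear hS
  have hS := hS2
  clear hS2
  rcases le_total S (449 / 500) with hS2 | hS2
  · exact seg h (11 / 20) _ _ (849 / 1000) (449 / 500) (by norm_num) (by norm_num) (by norm_num) (by norm_num)
      (by norm_num) (by norm_num) hS hS2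
  clear hS
  have hS := hS2
  clear hS2
  exact seg h (1 / 2) _ _ (449 / 500) 1 (by norm_num) (by norm_num) (by norm_num) (by norm_num)
      (by norm_num) (by norm_num) hS (h.le1)

lemma vK7 : Valid (669 / 2000) (19 / 125) := by
  apply valid_of (u := (691 / 1000)) (by norm_num) (by norm_num) (by norm_num) (by norm_num)
  intro S p h hS
  rcases le_total S (143 / 200) with hS2 | hS2
  · exact seg h (17 / 20) _ _ (691 / 1000) (143 / 200) (by norm_num) (by norm_num) (by norm_num) (by norm_num)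
      (by norm_num) (by norm_num) hS hS2
  clear hS
  have hS := hS2
  clear hS2
  rcases le_total S (159 / 200) with hS2 | hS2
  · exact seg h (79 / 100) _ _ (143 / 200) (159 / 200) (by norm_num) (by norm_num) (by norm_num) (by norm_num)
      (by norm_num) (by norm_num) hS hS2
  clear hS
  have hS := hS2
  clear hS2
  exact seg h (33 / 50) _ _ (159 / 200) 1 (by norm_num) (by norm_num) (by norm_num) (by norm_num)
      (by norm_num) (by norm_num) hS (h.le1)

lemma vP7 : ∀ S p : ℝ, Fct S p → 5 / 4 - 42 * (19 / 125) ^ 2 ≤ S ^ 2 →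
    (39 / 100) * S ^ 2 + ((67 / 250) - (39 / 100) * (341 / 500)) ≤ p := by
  intro S p h hx
  have hS : (66 / 125) ≤ S := by
    have h0 := h.nn
    by_contra hcon
    push Not at hcon
    nlinarith
  rcases le_total S (179 / 250) with hS2 | hS2
  · exact segc h _ _ (66 / 125) (179 / 250) (by norm_num) (by norm_num) (by norm_num) (by norm_num) hS hS2
  clear hS
  have hS := hS2
  clear hS2
  rcases le_total S (403 / 500) with hS2 | hS2
  · exact seg h (69 / 100) _ _ (179 / 250) (403 / 500) (by norm_num) (by norm_num) (by norm_num) (by norm_num)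
      (by norm_num) (by norm_num) hS hS2
  clear hS
  have hS := hS2
  clear hS2
  rcases le_total S (207 / 250) with hS2 | hS2
  · exact seg h (63 / 100) _ _ (403 / 500) (207 / 250) (by norm_num) (by norm_num) (by norm_num) (by norm_num)
      (by norm_num) (by norm_num) hS hS2
  clear hS
  have hS := hS2
  clear hS2
  rcases le_total S (877 / 1000) with hS2 | hS2
  · exact seg h (3 / 5) _ _ (207 / 250) (877 / 1000) (by norm_num) (by norm_num) (by norm_num) (by norm_num)
      (by norm_num) (by norm_num) hS hS2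
  clear hS
  have hS := hS2
  clear hS2
  exact seg h (11 / 20) _ _ (877 / 1000) 1 (by norm_num) (by norm_num) (by norm_num) (by norm_num)
      (by norm_num) (by norm_num) hS (h.le1)

lemma vK8 : Valid (3307 / 10000) (809 / 5000) := by
  apply valid_of (u := (691 / 1000)) (by norm_num) (by norm_num) (by norm_num) (by norm_num)
  intro S p h hS
  rcases le_total S (91 / 125) with hS2 | hS2
  · exact seg h (17 / 20) _ _ (691 / 1000) (91 / 125) (by norm_num) (by norm_num) (by norm_num) (by norm_num)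
      (by norm_num) (by norm_num) hS hS2
  clear hS
  have hS := hS2
  clear hS2
  rcases le_total S (441 / 500) with hS2 | hS2
  · exact seg h (3 / 4) _ _ (91 / 125) (441 / 500) (by norm_num) (by norm_num) (by norm_num) (by norm_num)
      (by norm_num) (by norm_num) hS hS2
  clear hS
  have hS := hS2
  clear hS2
  exact seg h (33 / 50) _ _ (441 / 500) 1 (by norm_num) (by norm_num) (by norm_num) (by norm_num)
      (by norm_num) (by norm_num) hS (h.le1)

lemma vP8 : ∀ S p : ℝ, Fct S p → 5 / 4 - 42 * (809 / 5000) ^ 2 ≤ S ^ 2 →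
    (371 / 1000) * S ^ 2 + ((2497 / 10000) - (371 / 1000) * (317 / 500)) ≤ p := by
  intro S p h hx
  have hS : (387 / 1000) ≤ S := by
    have h0 := h.nn
    by_contra hcon
    push Not at hcon
    nlinarith
  rcases le_total S (88 / 125) with hS2 | hS2
  · exact segc h _ _ (387 / 1000) (88 / 125) (by norm_num) (by norm_num) (by norm_num) (by norm_num) hS hS2
  clear hS
  have hS := hS2
  clear hS2
  rcases le_total S (391 / 500) with hS2 | hS2
  · exact seg h (73 / 100) _ _ (88 / 125) (391 / 500) (by norm_num) (by norm_num) (by norm_num) (by norm_num)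
      (by norm_num) (by norm_num) hS hS2
  clear hS
  have hS := hS2
  clear hS2
  rcases le_total S (4 / 5) with hS2 | hS2
  · exact seg h (69 / 100) _ _ (391 / 500) (4 / 5) (by norm_num) (by norm_num) (by norm_num) (by norm_num)
      (by norm_num) (by norm_num) hS hS2
  clear hS
  have hS := hS2
  clear hS2
  rcases le_total S (209 / 250) with hS2 | hS2
  · exact seg h (33 / 50) _ _ (4 / 5) (209 / 250) (by norm_num) (by norm_num) (by norm_num) (by norm_num)
      (by norm_num) (by norm_num) hS hS2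
  clear hS
  have hS := hS2
  clear hS2
  exact seg h (11 / 20) _ _ (209 / 250) 1 (by norm_num) (by norm_num) (by norm_num) (by norm_num)
      (by norm_num) (by norm_num) hS (h.le1)

lemma vK9 : Valid (1647 / 5000) (33 / 200) := by
  apply valid_of (u := (691 / 1000)) (by norm_num) (by norm_num) (by norm_num) (by norm_num)
  intro S p h hS
  rcases le_total S (92 / 125) with hS2 | hS2
  · exact seg h (17 / 20) _ _ (691 / 1000) (92 / 125) (by norm_num) (by norm_num) (by norm_num) (by norm_num)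
      (by norm_num) (by norm_num) hS hS2
  clear hS
  have hS := hS2
  clear hS2
  rcases le_total S (463 / 500) with hS2 | hS2
  · exact seg h (73 / 100) _ _ (92 / 125) (463 / 500) (by norm_num) (by norm_num) (by norm_num) (by norm_num)
      (by norm_num) (by norm_num) hS hS2
  clear hS
  have hS := hS2
  clear hS2
  exact seg h (69 / 100) _ _ (463 / 500) 1 (by norm_num) (by norm_num) (by norm_num) (by norm_num)
      (by norm_num) (by norm_num) hS (h.le1)

lemma vK10 : Valid (131 / 400) (17 / 100) := by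
  apply valid_of (u := (691 / 1000)) (by norm_num) (by norm_num) (by norm_num) (by norm_num)
  intro S p h hS
  rcases le_total S (743 / 1000) with hS2 | hS2
  · exact seg h (17 / 20) _ _ (691 / 1000) (743 / 1000) (by norm_num) (by norm_num) (by norm_num) (by norm_num)
      (by norm_num) (by norm_num) hS hS2
  clear hS
  have hS := hS2
  clear hS2
  rcases le_total S (977 / 1000) with hS2 | hS2
  · exact seg h (71 / 100) _ _ (743 / 1000) (977 / 1000) (by norm_num) (by norm_num) (by norm_num) (by norm_num)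
      (by norm_num) (by norm_num) hS hS2
  clear hS
  have hS := hS2
  clear hS2
  exact seg h (69 / 100) _ _ (977 / 1000) 1 (by norm_num) (by norm_num) (by norm_num) (by norm_num)
      (by norm_num) (by norm_num) hS (h.le1)

lemma vK11 : Valid (3249 / 10000) (177 / 1000) := by
  apply valid_of (u := (691 / 1000)) (by norm_num) (by norm_num) (by norm_num) (by norm_num)
  intro S p h hS
  rcases le_total S (753 / 1000) with hS2 | hS2
  · exact seg h (17 / 20) _ _ (691 / 1000) (753 / 1000) (by norm_num) (by norm_num) (by norm_num) (by norm_num)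
      (by norm_num) (by norm_num) hS hS2
  clear hS
  have hS := hS2
  clear hS2
  exact seg h (69 / 100) _ _ (753 / 1000) 1 (by norm_num) (by norm_num) (by norm_num) (by norm_num)
      (by norm_num) (by norm_num) hS (h.le1)

lemma vK12 : Valid (401 / 1250) (47 / 250) := by
  apply valid_of (u := (691 / 1000)) (by norm_num) (by norm_num) (by norm_num) (by norm_num)
  intro S p h hS
  rcases le_total S (193 / 250) with hS2 | hS2
  · exact seg h (17 / 20) _ _ (691 / 1000) (193 / 250) (by norm_num) (by norm_num) (by norm_num) (by norm_num)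
      (by norm_num) (by norm_num) hS hS2
  clear hS
  have hS := hS2
  clear hS2
  exact seg h (71 / 100) _ _ (193 / 250) 1 (by norm_num) (by norm_num) (by norm_num) (by norm_num)
      (by norm_num) (by norm_num) hS (h.le1)

lemma vK13 : Valid (3151 / 10000) (51 / 250) := by
  apply valid_of (u := (691 / 1000)) (by norm_num) (by norm_num) (by norm_num) (by norm_num)
  intro S p h hS
  rcases le_total S (399 / 500) with hS2 | hS2
  · exact seg h (17 / 20) _ _ (691 / 1000) (399 / 500) (by norm_num) (by norm_num) (by norm_num) (by norm_num)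
      (by norm_num) (by norm_num) hS hS2
  clear hS
  have hS := hS2
  clear hS2
  exact seg h (73 / 100) _ _ (399 / 500) 1 (by norm_num) (by norm_num) (by norm_num) (by norm_num)
      (by norm_num) (by norm_num) hS (h.le1)

lemma vK14 : Valid (3057 / 10000) (463 / 2000) := by
  apply valid_of (u := (691 / 1000)) (by norm_num) (by norm_num) (by norm_num) (by norm_num)
  intro S p h hS
  rcases le_total S (211 / 250) with hS2 | hS2
  · exact seg h (17 / 20) _ _ (691 / 1000) (211 / 250) (by norm_num) (by norm_num) (by norm_num) (by norm_num)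
      (by norm_num) (by norm_num) hS hS2
  clear hS
  have hS := hS2
  clear hS2
  exact seg h (3 / 4) _ _ (211 / 250) 1 (by norm_num) (by norm_num) (by norm_num) (by norm_num)
      (by norm_num) (by norm_num) hS (h.le1)

theorem norm_case {k : ℕ} {S p : Fin k → ℝ} {i₀ j₀ : Fin k} {a b : ℝ}
    (h : Setup k S p i₀ j₀ a b) : 1 < ∑ i, p i := by
  have hb := h.hb
  have hx : S i₀ ^ 2 ≤ 1 ∧ S j₀ ^ 2 ≤ 1 := by
    constructor
    · have h1 := (h.fct i₀).nn; have h2 := (h.fct i₀).le1; nlinarith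
    · have h1 := (h.fct j₀).nn; have h2 := (h.fct j₀).le1; nlinarith
  have hlo : 771 / 10000 ≤ b := by
    have h0 := h.b0
    by_contra hcon
    push Not at hcon
    nlinarith [hx.1, hx.2]
  have hhi : b ≤ 2315 / 10000 := by
    have h0 := h.b0
    by_contra hcon
    push Not at hcon
    nlinarith [sq_nonneg (S i₀), sq_nonneg (S j₀)]
  rcases le_total b (9 / 100) with hq | hlo
  · exact pieceA h (b₁ := (771 / 10000)) (b₂ := (9 / 100)) (κ := (179 / 500)) (φ₀ := (2099 / 5000)) (φ₁ := (126 / 125)) (x₀ := (24 / 25)) (by linarith) (by linarith)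
      (by norm_num) (by norm_num) vK1 vP1 (by norm_num) (by norm_num) (by norm_num)
  rcases le_total b (21 / 200) with hq | hlo
  · exact pieceA h (b₁ := (9 / 100)) (b₂ := (21 / 200)) (κ := (141 / 400)) (φ₀ := (3679 / 10000)) (φ₁ := (627 / 1000)) (x₀ := (893 / 1000)) (by linarith) (by linarith)
      (by norm_num) (by norm_num) vK2 vP2 (by norm_num) (by norm_num) (by norm_num)
  rcases le_total b (59 / 500) with hq | hlo
  · exact pieceA h (b₁ := (21 / 200)) (b₂ := (59 / 500)) (κ := (869 / 2500)) (φ₀ := (1671 / 5000)) (φ₁ := (511 / 1000)) (x₀ := (833 / 1000)) (by linarith) (by linarith)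
      (by norm_num) (by norm_num) vK3 vP3 (by norm_num) (by norm_num) (by norm_num)
  rcases le_total b (16 / 125) with hq | hlo
  · exact pieceA h (b₁ := (59 / 500)) (b₂ := (16 / 125)) (κ := (1719 / 5000)) (φ₀ := (1547 / 5000)) (φ₁ := (227 / 500)) (x₀ := (781 / 1000)) (by linarith) (by linarith)
      (by norm_num) (by norm_num) vK4 vP4 (by norm_num) (by norm_num) (by norm_num)
  rcases le_total b (17 / 125) with hq | hlo
  · exact pieceA h (b₁ := (16 / 125)) (b₂ := (17 / 125)) (κ := (213 / 625)) (φ₀ := (737 / 2500)) (φ₁ := (107 / 250)) (x₀ := (187 / 250)) (by linarith) (by linarith)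
      (by norm_num) (by norm_num) vK5 vP5 (by norm_num) (by norm_num) (by norm_num)
  rcases le_total b (18 / 125) with hq | hlo
  · exact pieceA h (b₁ := (17 / 125)) (b₂ := (18 / 125)) (κ := (3377 / 10000)) (φ₀ := (359 / 1250)) (φ₁ := (52 / 125)) (x₀ := (73 / 100)) (by linarith) (by linarith)
      (by norm_num) (by norm_num) vK6 vP6 (by norm_num) (by norm_num) (by norm_num)
  rcases le_total b (19 / 125) with hq | hlo
  · exact pieceA h (b₁ := (18 / 125)) (b₂ := (19 / 125)) (κ := (669 / 2000)) (φ₀ := (67 / 250)) (φ₁ := (39 / 100)) (x₀ := (341 / 500)) (by linarith) (by linarith)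
      (by norm_num) (by norm_num) vK7 vP7 (by norm_num) (by norm_num) (by norm_num)
  rcases le_total b (809 / 5000) with hq | hlo
  · exact pieceA h (b₁ := (19 / 125)) (b₂ := (809 / 5000)) (κ := (3307 / 10000)) (φ₀ := (2497 / 10000)) (φ₁ := (371 / 1000)) (x₀ := (317 / 500)) (by linarith) (by linarith)
      (by norm_num) (by norm_num) vK8 vP8 (by norm_num) (by norm_num) (by norm_num)
  rcases le_total b (33 / 200) with hq | hlo
  · exact pieceB h (b₁ := (809 / 5000)) (b₂ := (33 / 200)) (κ := (1647 / 5000)) (by linarith) (by linarith) (by norm_num)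
      (by norm_num) vK9 (by norm_num) (by norm_num) (by norm_num)
  rcases le_total b (17 / 100) with hq | hlo
  · exact pieceB h (b₁ := (33 / 200)) (b₂ := (17 / 100)) (κ := (131 / 400)) (by linarith) (by linarith) (by norm_num)
      (by norm_num) vK10 (by norm_num) (by norm_num) (by norm_num)
  rcases le_total b (177 / 1000) with hq | hlo
  · exact pieceB h (b₁ := (17 / 100)) (b₂ := (177 / 1000)) (κ := (3249 / 10000)) (by linarith) (by linarith) (by norm_num)
      (by norm_num) vK11 (by norm_num) (by norm_num) (by norm_num)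
  rcases le_total b (47 / 250) with hq | hlo
  · exact pieceB h (b₁ := (177 / 1000)) (b₂ := (47 / 250)) (κ := (401 / 1250)) (by linarith) (by linarith) (by norm_num)
      (by norm_num) vK12 (by norm_num) (by norm_num) (by norm_num)
  rcases le_total b (51 / 250) with hq | hlo
  · exact pieceB h (b₁ := (47 / 250)) (b₂ := (51 / 250)) (κ := (3151 / 10000)) (by linarith) (by linarith) (by norm_num)
      (by norm_num) vK13 (by norm_num) (by norm_num) (by norm_num)
  exact pieceB h (b₁ := (51 / 250)) (b₂ := (463 / 2000)) (κ := (3057 / 10000)) (by linarith) (by linarith) (by norm_num)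
      (by norm_num) vK14 (by norm_num) (by norm_num) (by norm_num)

end P226.N7

namespace P226

open N7

theorem num7 {k : ℕ} (hk : 7 ≤ k) (S p : Fin k → ℝ) (hS0 : ∀ i, 0 ≤ S i) (hp : ∑ i, p i = 1)
    (hdel : ∀ i, S i ≤ Real.sqrt (4 * Real.pi) * p i)
    (hcap : ∀ i, ∀ t : ℝ, 0 ≤ t → t ≤ 1 → S i ≤ 1 + t ^ 2 / 2 - t ^ 4 / 24 + t ^ 6 / 240 -
      Real.sqrt (2 * Real.pi) * t * (1 / 2 - p i))
    (i₀ j₀ : Fin k) (hij : i₀ ≠ j₀)
    (h3 : ∀ l, ∑ i, S i ^ 2 - S i₀ ^ 2 - S j₀ ^ 2 ≤ k * (k - 1) * S l ^ 2) :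
    ∑ i, S i ^ 2 ≤ 9 / 4 := by
  by_contra hcon
  push Not at hcon
  set V := ∑ i, S i ^ 2 with hV
  have hkr : (7 : ℝ) ≤ k := by exact_mod_cast hk
  have hVpos : 0 < V := by linarith
  set θ := Real.sqrt (9 / 4 / V) with hθ
  have hθ0 : 0 ≤ θ := Real.sqrt_nonneg _
  have hθsq : θ ^ 2 = 9 / 4 / V := Real.sq_sqrt (by positivity)
  have hθ1 : θ ≤ 1 := by
    apply Real.sqrt_le_one.2 _ |> fun h => h
    rw [div_le_one hVpos]; exact hcon.le
  have hSle : ∀ i, S i ≤ 1 := by
    intro i
    have := hcap i 0 le_rfl zero_le_one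
    norm_num at this
    exact this
  have hs4 : Real.sqrt (4 * Real.pi) ≤ 100000 / 28209 := by
    apply Real.sqrt_le_iff.2
    constructor
    · norm_num
    · have := Real.pi_lt_d4
      norm_num
      linarith
  have hs2 : 250662 / 100000 ≤ Real.sqrt (2 * Real.pi) := by
    apply Real.le_sqrt_of_sq_le
    have := Real.pi_gt_d6
    norm_num
    linarith
  have hp0 : ∀ i, 0 ≤ p i := by
    intro i
    have h1 := hdel i
    have h2 := hS0 i
    have h4 : 0 < Real.sqrt (4 * Real.pi) := Real.sqrt_pos.2 (by positivity)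
    by_contra hneg
    push Not at hneg
    have := mul_neg_of_pos_of_neg h4 hneg
    linarith
  have hfct : ∀ i, Fct (θ * S i) (p i) := by
    intro i
    have hle : θ * S i ≤ S i := by nlinarith [hS0 i]
    refine ⟨mul_nonneg hθ0 (hS0 i), hle.trans (hSle i), ?_, ?_⟩
    · have h1 : 28209 / 100000 * (θ * S i) ≤ 28209 / 100000 * S i := by linarith
      have h2 : S i ≤ 100000 / 28209 * p i :=
        (hdel i).trans (mul_le_mul_of_nonneg_right hs4 (hp0 i))
      linarith
    · intro t ht0 ht1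
      have h1 := hcap i t ht0 ht1
      rcases le_total (p i) (1 / 2) with hpi | hpi
      · have h2 : 250662 / 100000 * t * (1 / 2 - p i) ≤
            Real.sqrt (2 * Real.pi) * t * (1 / 2 - p i) := by
          apply mul_le_mul_of_nonneg_right _ (by linarith)
          exact mul_le_mul_of_nonneg_right hs2 ht0
        linarith
      · have h2 : 250662 / 100000 * t * (1 / 2 - p i) ≤ 0 :=
          mul_nonpos_of_nonneg_of_nonpos (by positivity) (by linarith)
        have h3 : t ^ 4 ≤ t ^ 2 := pow_le_pow_of_le_one ht0 ht1 (by norm_num)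
        have h4 : 0 ≤ t ^ 6 := by positivity
        have h5 := hSle i
        nlinarith [sq_nonneg t]
  have hsum : ∑ i, (θ * S i) ^ 2 = 9 / 4 := by
    have : ∀ i, (θ * S i) ^ 2 = θ ^ 2 * S i ^ 2 := fun i => by ring
    simp_rw [this]
    rw [← Finset.mul_sum, ← hV, hθsq]
    field_simp
  have hkk : 0 < (k : ℝ) * (k - 1) := by nlinarith
  set W := 9 / 4 - (θ * S i₀) ^ 2 - (θ * S j₀) ^ 2 with hW
  have hW3 : ∀ l, W ≤ k * (k - 1) * (θ * S l) ^ 2 := by
    intro l
    have h1 := mul_le_mul_of_nonneg_left (h3 l) (sq_nonneg θ)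
    have h2 : θ ^ 2 * (V - S i₀ ^ 2 - S j₀ ^ 2) = W := by
      rw [hW, hθsq]
      have : 9 / 4 / V * V = 9 / 4 := by field_simp
      nlinarith [hθsq]
    rw [h2] at h1
    refine h1.trans (le_of_eq ?_)
    ring
  have hW0 : 0 ≤ W := by
    have e1 := Finset.add_sum_erase Finset.univ (fun l => (θ * S l) ^ 2) (Finset.mem_univ i₀)
    have e2 := Finset.add_sum_erase (Finset.univ.erase i₀) (fun l => (θ * S l) ^ 2)
      (Finset.mem_erase.2 ⟨hij.symm, Finset.mem_univ j₀⟩)
    have e3 : 0 ≤ ∑ l ∈ (Finset.univ.erase i₀).erase j₀, (θ * S l) ^ 2 :=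
      Finset.sum_nonneg fun l _ => sq_nonneg _
    rw [hW, ← hsum]
    linarith
  have hsetup : Setup k (fun i => θ * S i) p i₀ j₀ (Real.sqrt (W / (k * (k - 1))))
      (Real.sqrt (W / 42)) := by
    refine ⟨hk, hfct, hij, hsum, Real.sqrt_nonneg _, Real.sqrt_nonneg _, ?_, ?_, ?_⟩
    · rw [Real.sq_sqrt (by positivity)]
      simp only [hW]
      ring
    · rw [Real.sq_sqrt (by positivity), Real.sq_sqrt (by positivity),
        mul_div_cancel₀ _ (by norm_num : (42 : ℝ) ≠ 0)]
      exact mul_div_cancel₀ _ hkk.ne'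
    · intro l
      apply Real.sqrt_le_iff.2
      refine ⟨mul_nonneg hθ0 (hS0 l), ?_⟩
      rw [div_le_iff₀ hkk]
      have := hW3 l
      linarith
  have := norm_case hsetup
  linarith

end P226
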