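import Mathlib

/-!
Definitions for the statement of the Gaussian propeller theorem.
-/

open MeasureTheory

namespace Vale.Agent.P226S

/-- The (unnormalised) Gaussian first moment `z(S) = ∫_S x dγ_d(x)`, where `γ_d` has density
`(2π)^{-d/2} e^{-|x|²/2}`. -/
noncomputable def gaussMoment {d : ℕ} (S : Set (EuclideanSpace ℝ (Fin d))) :
    EuclideanSpace ℝ (Fin d) :=
  ∫ x in S, ((2 * Real.pi) ^ (-(d : ℝ) / 2) * Real.exp (-‖x‖ ^ 2 / 2)) • x

/-- A measurable partition of `ℝ^d` into `k` (possibly empty) cells, up to null sets. -/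
structure IsPartition {d k : ℕ} (A : Fin k → Set (EuclideanSpace ℝ (Fin d))) : Prop where
  measurable : ∀ i, MeasurableSet (A i)
  disjoint : ∀ i j, i ≠ j → volume (A i ∩ A j) = 0
  cover : volume (⋃ i, A i)ᶜ = 0

/-- `F(A) = ∑_i |z(A_i)|²`. -/
noncomputable def functional {d k : ℕ} (A : Fin k → Set (EuclideanSpace ℝ (Fin d))) : ℝ :=
  ∑ i, ‖gaussMoment (A i)‖ ^ 2

/-- `M(d,k)`, the supremum of `F` over all measurable partitions of `ℝ^d` into `k` cells. -/
noncomputable def M (d k : ℕ) : ℝ :=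
  sSup {r : ℝ | ∃ A : Fin k → Set (EuclideanSpace ℝ (Fin d)), IsPartition A ∧ functional A = r}

end Vale.Agent.P226S
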