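import Vale.Agent.P226.Basic
import Vale.Agent.P226.GaussTools
import Vale.Agent.P226.Statement

/-!
From `PK` to a.e. partitions with the explicit density (helper5).
-/

namespace P226

open MeasureTheory ProbabilityTheory Set Vale.Agent.P226S
open scoped RealInnerProductSpace

lemma gdens_eq {d : ℕ} (x : EuclideanSpace ℝ (Fin d)) :
    gdens x = (2 * Real.pi) ^ (-(d : ℝ) / 2) * Real.exp (-‖x‖ ^ 2 / 2) := by
  unfold gdens
  congr 1
  rw [finrank_euclideanSpace_fin, Real.sqrt_eq_rpow, ← Real.rpow_neg (by positivity),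
    ← Real.rpow_natCast, ← Real.rpow_mul (by positivity)]
  congr 1
  ring

lemma gaussMoment_eq {d : ℕ} (S : Set (EuclideanSpace ℝ (Fin d))) (hS : MeasurableSet S) :
    gaussMoment S = ∫ x in S, x ∂(stdGaussian (EuclideanSpace ℝ (Fin d))) := by
  unfold gaussMoment
  rw [stdGaussian_eq, restrict_withDensity hS,
    integral_withDensity_eq_integral_toReal_smul (by unfold gdens; fun_prop) (by simp)]
  refine integral_congr_ae (Filter.Eventually.of_forall fun x => ?_)
  simp only
  rw [ENNReal.toReal_ofReal (gdens_pos x).le, gdens_eq]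

lemma gaussMoment_congr {d : ℕ} {S T : Set (EuclideanSpace ℝ (Fin d))} (h : S =ᵐ[volume] T) :
    gaussMoment S = gaussMoment T := by
  unfold gaussMoment
  exact setIntegral_congr_set h

/-- the inequality for a.e. disjoint families (no covering hypothesis). -/
theorem family_le (hPK : ∀ k, PK k) {d k : ℕ} (A : Fin k → Set (EuclideanSpace ℝ (Fin d)))
    (hA : ∀ i, MeasurableSet (A i)) (hd : ∀ i j, i ≠ j → volume (A i ∩ A j) = 0) :
    functional A ≤ 9 / (8 * Real.pi) := by
  -- disjointification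
  set B : Fin k → Set (EuclideanSpace ℝ (Fin d)) := fun i => A i \ ⋃ j, ⋃ (_ : j < i), A j with hB
  have hBm : ∀ i, MeasurableSet (B i) := fun i =>
    (hA i).diff (MeasurableSet.iUnion fun j => MeasurableSet.iUnion fun _ => hA j)
  have hBA : ∀ i, B i =ᵐ[volume] A i := by
    intro i
    have h1 : volume (A i ∩ ⋃ j, ⋃ (_ : j < i), A j) = 0 := by
      rw [inter_iUnion, measure_iUnion_null_iff]
      intro j
      rw [inter_iUnion, measure_iUnion_null_iff]
      intro hj
      exact hd i j hj.ne'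
    have h2 : A i \ B i ⊆ A i ∩ ⋃ j, ⋃ (_ : j < i), A j := by
      intro x hx
      refine ⟨hx.1, ?_⟩
      by_contra h3
      exact hx.2 ⟨hx.1, h3⟩
    have h3 : volume (A i \ B i) = 0 := measure_mono_null h2 h1
    have h4 : B i ≤ᵐ[volume] A i := Filter.Eventually.of_forall fun x hx => hx.1
    have h5 : A i ≤ᵐ[volume] B i := ae_le_set.2 h3
    exact h4.antisymm h5
  have hBd : Pairwise (Function.onFun Disjoint B) := by
    have key : ∀ i j : Fin k, i < j → Disjoint (B i) (B j) := by
      intro i j hij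
      rw [Set.disjoint_left]
      intro x hx hx'
      exact hx'.2 (mem_iUnion₂.2 ⟨i, hij, hx.1⟩)
    intro i j hij
    rcases lt_or_gt_of_ne hij with h | h
    · exact key i j h
    · exact (key j i h).symm
  -- add the complement as a further cell
  set C : Fin (k + 1) → Set (EuclideanSpace ℝ (Fin d)) := Fin.cons (⋃ i, B i)ᶜ B with hC
  have hCm : ∀ i, MeasurableSet (C i) := by
    intro i
    refine Fin.cases ?_ (fun j => ?_) i
    · exact (MeasurableSet.iUnion hBm).compl
    · exact hBm j
  have hCd : Pairwise (Function.onFun Disjoint C) := by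
    intro i j
    refine Fin.cases ?_ (fun i' => ?_) i
    · refine Fin.cases (fun h => (h rfl).elim) (fun j' _ => ?_) j
      show Disjoint (⋃ i, B i)ᶜ (B j')
      exact disjoint_compl_left.mono_right (subset_iUnion B j')
    · refine Fin.cases (fun _ => ?_) (fun j' h => ?_) j
      · show Disjoint (B i') (⋃ i, B i)ᶜ
        exact (disjoint_compl_left.mono_right (subset_iUnion B i')).symm
      · exact hBd (fun h' => h (congrArg Fin.succ h'))
  have hCU : ⋃ i, C i = univ := by
    rw [eq_univ_iff_forall]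
    intro x
    by_cases hx : x ∈ ⋃ i, B i
    · obtain ⟨i, hi⟩ := mem_iUnion.1 hx
      exact mem_iUnion.2 ⟨i.succ, hi⟩
    · exact mem_iUnion.2 ⟨0, hx⟩
  have h1 := partition_of_PK (hPK (k + 1)) C hCm hCd hCU
  rw [Fin.sum_univ_succ] at h1
  have h2 : functional A = ∑ i, ‖∫ x in B i, x ∂(stdGaussian (EuclideanSpace ℝ (Fin d)))‖ ^ 2 := by
    unfold functional
    refine Finset.sum_congr rfl fun i _ => ?_
    rw [← gaussMoment_congr (hBA i), gaussMoment_eq _ (hBm i)]
  rw [h2]
  have h3 : (0:ℝ) ≤ ‖∫ x in C 0, x ∂(stdGaussian (EuclideanSpace ℝ (Fin d)))‖ ^ 2 := by positivity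
  have h4 : ∑ i : Fin k, ‖∫ x in C i.succ, x ∂(stdGaussian (EuclideanSpace ℝ (Fin d)))‖ ^ 2 =
      ∑ i, ‖∫ x in B i, x ∂(stdGaussian (EuclideanSpace ℝ (Fin d)))‖ ^ 2 := rfl
  rw [h4] at h1
  unfold CC at h1
  linarith

end P226
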