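import Vale.Agent.P226.Three

/-!
PROP (helper23): the propeller attains `9 / (8 π)` for `d ≥ 2`, `k ≥ 3`.
-/

namespace P226

open MeasureTheory ProbabilityTheory Set
open scoped RealInnerProductSpace

section

variable {E : Type*} [NormedAddCommGroup E] [InnerProductSpace ℝ E] [FiniteDimensional ℝ E]
  [MeasurableSpace E] [BorelSpace E]

lemma two_Psi {k : ℕ} (w : Fin k → E) :
    2 * Psi w = ∫ x, (gmax w x + gmax w (-x)) ∂(stdGaussian E) := by
  have hmap : (stdGaussian E).map (fun x => -x) = stdGaussian E :=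
    stdGaussian_map (LinearIsometryEquiv.neg ℝ (E := E))
  have hint : Integrable (fun x => gmax w (-x)) (stdGaussian E) := by
    have h := integrable_gmax w
    rw [← hmap] at h
    rw [integrable_map_measure ((measurable_gmax w).aestronglyMeasurable) (by fun_prop)] at h
    exact h
  rw [integral_add (integrable_gmax w) hint, integral_neg_gauss (fun x => gmax w x)]
  rw [Psi]; ring

lemma max_three_aux (a b c : ℝ) : max (max a b) c + max (max (-a) (-b)) (-c) =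
    (|a - b| + |b - c| + |a - c|) / 2 := by
  rcases le_total a b with h1 | h1 <;> rcases le_total b c with h2 | h2 <;>
    rcases le_total a c with h3 | h3 <;>
    simp only [abs_of_nonneg, abs_of_nonpos, sub_nonneg, sub_nonpos, h1, h2, h3,
      max_eq_left, max_eq_right, neg_le_neg_iff] <;>
    linarith

theorem Psi_three (w : Fin 3 → E) : Psi w =
    (‖w 0 - w 1‖ + ‖w 1 - w 2‖ + ‖w 0 - w 2‖) / (2 * Real.sqrt (2 * Real.pi)) := by
  have h : ∀ x : E, gmax w x + gmax w (-x) =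
      (|⟪x, w 0 - w 1⟫| + |⟪x, w 1 - w 2⟫| + |⟪x, w 0 - w 2⟫|) / 2 := by
    intro x
    rw [gmax_three, gmax_three, inner_sub_right, inner_sub_right, inner_sub_right,
      inner_neg_left, inner_neg_left, inner_neg_left, max_three_aux]
  have h2 := two_Psi w
  simp_rw [h] at h2
  have i1 := (integrable_inner_gauss (w 0 - w 1)).abs
  have i2 := (integrable_inner_gauss (w 1 - w 2)).abs
  have i3 := (integrable_inner_gauss (w 0 - w 2)).abs
  have i12 : Integrable (fun x => |⟪x, w 0 - w 1⟫| + |⟪x, w 1 - w 2⟫|) (stdGaussian E) := i1.add i2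
  rw [integral_div, integral_add i12 i3, integral_add i1 i2, integral_abs_inner_gauss,
    integral_abs_inner_gauss, integral_abs_inner_gauss] at h2
  have hs := sqrt_two_pi_pos
  field_simp at h2 ⊢
  linarith

/-- the three cells of the partition defined by three vectors, ties broken. -/
def tri (w : Fin 3 → E) : Fin 3 → Set E :=
  ![{x | ⟪x, w 1⟫ ≤ ⟪x, w 0⟫ ∧ ⟪x, w 2⟫ ≤ ⟪x, w 0⟫},
    {x | ⟪x, w 0⟫ < ⟪x, w 1⟫ ∧ ⟪x, w 2⟫ ≤ ⟪x, w 1⟫},
    {x | ⟪x, w 0⟫ < ⟪x, w 2⟫ ∧ ⟪x, w 1⟫ < ⟪x, w 2⟫}]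

lemma measurableSet_tri (w : Fin 3 → E) (i : Fin 3) : MeasurableSet (tri w i) := by
  have hm : ∀ j, Measurable (fun x : E => ⟪x, w j⟫) := fun j => by fun_prop
  fin_cases i
  · exact (measurableSet_le (hm 1) (hm 0)).inter (measurableSet_le (hm 2) (hm 0))
  · exact (measurableSet_lt (hm 0) (hm 1)).inter (measurableSet_le (hm 2) (hm 1))
  · exact (measurableSet_lt (hm 0) (hm 2)).inter (measurableSet_lt (hm 1) (hm 2))

omit [FiniteDimensional ℝ E] [MeasurableSpace E] [BorelSpace E] in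
lemma disjoint_tri (w : Fin 3 → E) : Pairwise (Function.onFun Disjoint (tri w)) := by
  intro i j hij
  rw [Function.onFun, Set.disjoint_left]
  intro x hx hx'
  fin_cases i <;> fin_cases j <;> simp [tri] at hij hx hx' <;> linarith [hx.1, hx.2, hx'.1, hx'.2]

omit [FiniteDimensional ℝ E] [MeasurableSpace E] [BorelSpace E] in
lemma iUnion_tri (w : Fin 3 → E) : ⋃ i, tri w i = univ := by
  rw [eq_univ_iff_forall]
  intro x
  rw [mem_iUnion]
  by_cases h0 : ⟪x, w 1⟫ ≤ ⟪x, w 0⟫ ∧ ⟪x, w 2⟫ ≤ ⟪x, w 0⟫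
  · exact ⟨0, h0⟩
  by_cases h1 : ⟪x, w 0⟫ < ⟪x, w 1⟫ ∧ ⟪x, w 2⟫ ≤ ⟪x, w 1⟫
  · exact ⟨1, h1⟩
  refine ⟨2, ?_⟩
  change ⟪x, w 0⟫ < ⟪x, w 2⟫ ∧ ⟪x, w 1⟫ < ⟪x, w 2⟫
  rw [not_and_or, not_le, not_le] at h0
  rw [not_and_or, not_lt, not_le] at h1
  rcases h0 with h0 | h0 <;> rcases h1 with h1 | h1 <;> constructor <;> linarith

omit [FiniteDimensional ℝ E] [MeasurableSpace E] [BorelSpace E] in
lemma gmax_tri (w : Fin 3 → E) (i : Fin 3) (x : E) (hx : x ∈ tri w i) :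
    gmax w x = ⟪x, w i⟫ := by
  rw [gmax_three]
  fin_cases i
  · simp only [tri] at hx
    obtain ⟨h1, h2⟩ := hx
    change max (max ⟪x, w 0⟫ ⟪x, w 1⟫) ⟪x, w 2⟫ = ⟪x, w 0⟫
    rw [max_eq_left h1, max_eq_left h2]
  · obtain ⟨h1, h2⟩ := hx
    change max (max ⟪x, w 0⟫ ⟪x, w 1⟫) ⟪x, w 2⟫ = ⟪x, w 1⟫
    rw [max_eq_right h1.le, max_eq_left h2]
  · obtain ⟨h1, h2⟩ := hx
    change max (max ⟪x, w 0⟫ ⟪x, w 1⟫) ⟪x, w 2⟫ = ⟪x, w 2⟫
    rw [max_eq_right (max_le h1.le h2.le)]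

lemma Psi_tri (w : Fin 3 → E) :
    Psi w = ∑ i, ⟪∫ x in tri w i, x ∂(stdGaussian E), w i⟫ := by
  have e2 : ∀ i, ⟪∫ x in tri w i, x ∂(stdGaussian E), w i⟫ =
      ∫ x in tri w i, gmax w x ∂(stdGaussian E) := by
    intro i
    have h1 : ∫ x in tri w i, ⟪x, w i⟫ ∂(stdGaussian E) =
        ⟪∫ x in tri w i, x ∂(stdGaussian E), w i⟫ := by
      have := integral_inner (𝕜 := ℝ) (μ := (stdGaussian E).restrict (tri w i)) (f := fun x => x)
        (integrable_id_std.restrict) (w i)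
      simp_rw [real_inner_comm] at this ⊢
      exact this
    rw [← h1]
    refine setIntegral_congr_fun (measurableSet_tri w i) fun x hx => (gmax_tri w i x hx).symm
  simp_rw [e2]
  rw [← integral_iUnion_fintype (measurableSet_tri w) (disjoint_tri w)
    (fun i => (integrable_gmax w).integrableOn), iUnion_tri, Measure.restrict_univ, Psi]

end

/-- three unit vectors with pairwise distance `√3` give a partition with value `9/(8π)`. -/
theorem tri_value {d : ℕ} (w : Fin 3 → EuclideanSpace ℝ (Fin d)) (h1 : ∀ i, ‖w i‖ = 1)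
    (h01 : ‖w 0 - w 1‖ = Real.sqrt 3) (h12 : ‖w 1 - w 2‖ = Real.sqrt 3)
    (h02 : ‖w 0 - w 2‖ = Real.sqrt 3) :
    ∑ i, ‖∫ x in tri w i, x ∂(stdGaussian (EuclideanSpace ℝ (Fin d)))‖ ^ 2 = CC := by
  apply le_antisymm
  · exact partition_of_PK PK_three (tri w) (measurableSet_tri w) (disjoint_tri w) (iUnion_tri w)
  · have hP := Psi_tri w
    rw [Psi_three, h01, h12, h02] at hP
    set z : Fin 3 → EuclideanSpace ℝ (Fin d) :=
      fun i => ∫ x in tri w i, x ∂(stdGaussian (EuclideanSpace ℝ (Fin d))) with hz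
    have h2 : ∑ i, ⟪z i, w i⟫ ≤ ∑ i, ‖z i‖ := by
      refine Finset.sum_le_sum fun i _ => ?_
      have := real_inner_le_norm (z i) (w i)
      rw [h1 i, mul_one] at this
      exact this
    have h3 : (∑ i, ‖z i‖) ^ 2 ≤ 3 * ∑ i, ‖z i‖ ^ 2 := by
      rw [Fin.sum_univ_three, Fin.sum_univ_three]
      nlinarith [sq_nonneg (‖z 0‖ - ‖z 1‖), sq_nonneg (‖z 1‖ - ‖z 2‖), sq_nonneg (‖z 0‖ - ‖z 2‖)]
    have h4 : (Real.sqrt 3 + Real.sqrt 3 + Real.sqrt 3) / (2 * Real.sqrt (2 * Real.pi)) ≤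
        ∑ i, ‖z i‖ := hP.le.trans h2
    have h5 := pow_le_pow_left₀ (by positivity) h4 2
    rw [div_pow, mul_pow, Real.sq_sqrt (by positivity)] at h5
    have h6 : (Real.sqrt 3 + Real.sqrt 3 + Real.sqrt 3) ^ 2 = 27 := by
      have := Real.sq_sqrt (show (0:ℝ) ≤ 3 by norm_num)
      nlinarith
    rw [h6] at h5
    have h7 : CC = 27 / (2 ^ 2 * (2 * Real.pi)) / 3 := by
      rw [CC]; field_simp; norm_num
    rw [h7, div_le_iff₀ (by norm_num)]
    linarith

/-- the propeller vectors. -/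
lemma exists_propeller {d : ℕ} (hd : 2 ≤ d) : ∃ w : Fin 3 → EuclideanSpace ℝ (Fin d),
    (∀ i, ‖w i‖ = 1) ∧ ‖w 0 - w 1‖ = Real.sqrt 3 ∧ ‖w 1 - w 2‖ = Real.sqrt 3 ∧
    ‖w 0 - w 2‖ = Real.sqrt 3 := by
  let u : EuclideanSpace ℝ (Fin d) := EuclideanSpace.single ⟨0, by omega⟩ 1
  let v : EuclideanSpace ℝ (Fin d) := EuclideanSpace.single ⟨1, by omega⟩ 1
  have hu : ‖u‖ = 1 := by simp [u]
  have hv : ‖v‖ = 1 := by simp [v]
  have huv : ⟪u, v⟫ = 0 := by
    simp [u, v, EuclideanSpace.inner_single_left]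
  have hvu : ⟪v, u⟫ = 0 := by rw [real_inner_comm]; exact huv
  have h3 := Real.sq_sqrt (show (0:ℝ) ≤ 3 by norm_num)
  have hN : ∀ a b : ℝ, ‖a • u + b • v‖ ^ 2 = a ^ 2 + b ^ 2 := by
    intro a b
    rw [norm_add_sq_real, norm_smul, norm_smul, inner_smul_left, inner_smul_right, huv, hu, hv]
    simp
  have hS : ∀ a b c : ℝ, 0 ≤ c → a ^ 2 + b ^ 2 = c ^ 2 → ‖a • u + b • v‖ = c := by
    intro a b c hc h
    have := hN a b
    rw [h] at this
    exact (pow_left_inj₀ (norm_nonneg _) hc two_ne_zero).1 this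
  refine ⟨![(1:ℝ) • u + (0:ℝ) • v, (-1/2 : ℝ) • u + (Real.sqrt 3 / 2) • v,
    (-1/2 : ℝ) • u + (-(Real.sqrt 3 / 2)) • v], ?_, ?_, ?_, ?_⟩
  · intro i
    fin_cases i
    · exact hS _ _ _ zero_le_one (by norm_num)
    · exact hS _ _ _ zero_le_one (by nlinarith)
    · exact hS _ _ _ zero_le_one (by nlinarith)
  · have : ![(1:ℝ) • u + (0:ℝ) • v, (-1/2 : ℝ) • u + (Real.sqrt 3 / 2) • v,
      (-1/2 : ℝ) • u + (-(Real.sqrt 3 / 2)) • v] 0 - ![(1:ℝ) • u + (0:ℝ) • v,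
      (-1/2 : ℝ) • u + (Real.sqrt 3 / 2) • v, (-1/2 : ℝ) • u + (-(Real.sqrt 3 / 2)) • v] 1 =
      (3/2 : ℝ) • u + (-(Real.sqrt 3 / 2)) • v := by
      simp only [Matrix.cons_val_zero, Matrix.cons_val_one]
      module
    rw [this]
    exact hS _ _ _ (Real.sqrt_nonneg _) (by nlinarith)
  · have : ![(1:ℝ) • u + (0:ℝ) • v, (-1/2 : ℝ) • u + (Real.sqrt 3 / 2) • v,
      (-1/2 : ℝ) • u + (-(Real.sqrt 3 / 2)) • v] 1 - ![(1:ℝ) • u + (0:ℝ) • v,
      (-1/2 : ℝ) • u + (Real.sqrt 3 / 2) • v, (-1/2 : ℝ) • u + (-(Real.sqrt 3 / 2)) • v] 2 =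
      (0 : ℝ) • u + (Real.sqrt 3) • v := by
      simp only [Matrix.cons_val_one, Matrix.cons_val]
      module
    rw [this]
    exact hS _ _ _ (Real.sqrt_nonneg _) (by nlinarith)
  · have : ![(1:ℝ) • u + (0:ℝ) • v, (-1/2 : ℝ) • u + (Real.sqrt 3 / 2) • v,
      (-1/2 : ℝ) • u + (-(Real.sqrt 3 / 2)) • v] 0 - ![(1:ℝ) • u + (0:ℝ) • v,
      (-1/2 : ℝ) • u + (Real.sqrt 3 / 2) • v, (-1/2 : ℝ) • u + (-(Real.sqrt 3 / 2)) • v] 2 =
      (3/2 : ℝ) • u + (Real.sqrt 3 / 2) • v := by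
      simp only [Matrix.cons_val_zero, Matrix.cons_val]
      module
    rw [this]
    exact hS _ _ _ (Real.sqrt_nonneg _) (by nlinarith)

/-- for `d ≥ 2`, `k ≥ 3` the value `9 / (8 π)` is attained by a measurable partition. -/
theorem propeller_attains {d k : ℕ} (hd : 2 ≤ d) (hk : 3 ≤ k) :
    ∃ A : Fin k → Set (EuclideanSpace ℝ (Fin d)), (∀ i, MeasurableSet (A i)) ∧
      Pairwise (Function.onFun Disjoint A) ∧ ⋃ i, A i = univ ∧
      ∑ i, ‖∫ x in A i, x ∂(stdGaussian (EuclideanSpace ℝ (Fin d)))‖ ^ 2 = 9 / (8 * Real.pi) := by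
  obtain ⟨w, h1, h01, h12, h02⟩ := exists_propeller hd
  have hv := tri_value w h1 h01 h12 h02
  obtain ⟨m, rfl⟩ := Nat.exists_eq_add_of_le hk
  refine ⟨Fin.append (tri w) (fun _ : Fin m => ∅), ?_, ?_, ?_, ?_⟩
  · intro i
    refine Fin.addCases (fun j => ?_) (fun j => ?_) i
    · rw [Fin.append_left]; exact measurableSet_tri w j
    · rw [Fin.append_right]; exact MeasurableSet.empty
  · intro i j
    refine Fin.addCases (fun i' => ?_) (fun i' => ?_) i
    · refine Fin.addCases (fun j' => ?_) (fun j' => ?_) j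
      · intro hij
        rw [Function.onFun, Fin.append_left, Fin.append_left]
        exact disjoint_tri w (fun h => hij (by rw [h]))
      · intro hij
        rw [Function.onFun, Fin.append_right]
        exact disjoint_bot_right
    · intro hij
      rw [Function.onFun, Fin.append_right]
      exact disjoint_bot_left
  · rw [eq_univ_iff_forall]
    intro x
    have hx : x ∈ ⋃ i, tri w i := by rw [iUnion_tri]; trivial
    obtain ⟨i, hi⟩ := mem_iUnion.1 hx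
    refine mem_iUnion.2 ⟨Fin.castAdd m i, ?_⟩
    rw [Fin.append_left]; exact hi
  · rw [Fin.sum_univ_add]
    simp_rw [Fin.append_left, Fin.append_right]
    rw [hv, CC]
    simp

end P226
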