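import Vale.Agent.P226.Maximiser
import Vale.Agent.P226.LinAlg
import Vale.Agent.P226.Kappa

/-!
Second variation, part a: dual vector, cells, the functional `Lam`, homogeneity and positivity.
-/

namespace P226

open MeasureTheory ProbabilityTheory Set
open scoped RealInnerProductSpace Topology

variable {E : Type*} [NormedAddCommGroup E] [InnerProductSpace ℝ E]

section geometry

variable {k : ℕ} {w : Fin k → E}

lemma mem_cell_iff {l : Fin k} {x : E} :
    x ∈ cell w l ↔ ∀ j, j ≠ l → 0 < ⟪x, w l - w j⟫ := by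
  unfold cell
  simp only [mem_ofPred_eq, inner_sub_right, sub_pos]

lemma isOpen_cell (w : Fin k → E) (l : Fin k) : IsOpen (cell w l) := by
  have : cell w l = ⋂ j : Fin k, {x : E | j ≠ l → ⟪x, w j⟫ < ⟪x, w l⟫} := by
    ext x; simp [cell]
  rw [this]
  refine isOpen_iInter_of_finite fun j => ?_
  by_cases hj : j = l
  · simp [hj]
  · simp only [ne_eq, hj, not_false_eq_true, true_implies]
    exact isOpen_lt (by fun_prop) (by fun_prop)

/-- the dual vector. -/
lemma exists_dual [FiniteDimensional ℝ E] (hE : Module.finrank ℝ E + 1 = k)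
    (hneg : ∀ i l, i ≠ l → ⟪w i, w l⟫ < 0) (hsum : ∑ i, w i = 0) (l : Fin k) :
    ∃ v : E, ∀ j, j ≠ l → ⟪w l - w j, v⟫ = 1 := by
  classical
  let b : {j : Fin k // j ≠ l} → E := fun j => w l - w j
  have hli : LinearIndependent ℝ b := by
    rw [Fintype.linearIndependent_iff]
    intro g hg
    set G := ∑ i, g i with hG
    set c : Fin k → ℝ := fun j => if h : j ≠ l then - g ⟨j, h⟩ else G with hc
    have hc0 : ∑ j, c j • w j = 0 := by
      rw [← Finset.add_sum_erase _ _ (Finset.mem_univ l)]
      have e1 : ∑ j ∈ Finset.univ.erase l, c j • w j = ∑ j : {j : Fin k // j ≠ l}, -(g j • w j) := by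
        rw [Finset.sum_subtype (p := fun j => j ≠ l) (Finset.univ.erase l) (fun j => by simp)]
        refine Finset.sum_congr rfl fun j _ => ?_
        have : c j = -g j := by simp [hc, j.2]
        rw [this, neg_smul]
      have e2 : c l = G := by simp [hc]
      rw [e1, e2, Finset.sum_neg_distrib]
      have e3 : ∑ i, g i • b i = G • w l - ∑ i, g i • w i := by
        simp only [b, smul_sub]
        rw [Finset.sum_sub_distrib, ← Finset.sum_smul]
      rw [hg] at e3
      rw [← sub_eq_add_neg, ← e3]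
    have hconst := relation_const w hneg hsum c hc0
    have hall : ∀ j : {j : Fin k // j ≠ l}, g j = -G := by
      intro j
      have h1 := hconst j l
      have h2 : c j = -g j := by simp [hc, j.2]
      have h3 : c l = G := by simp [hc]
      rw [h2, h3] at h1
      linarith
    have hG2 : G = (Fintype.card {j : Fin k // j ≠ l}) * (-G) := by
      have : G = ∑ i : {j : Fin k // j ≠ l}, -G := by
        rw [hG]; exact Finset.sum_congr rfl fun j _ => hall j
      rw [Finset.sum_const, Finset.card_univ, nsmul_eq_mul] at this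
      exact this
    have hG0 : G = 0 := by
      have h4 : (0:ℝ) ≤ (Fintype.card {j : Fin k // j ≠ l} : ℝ) := Nat.cast_nonneg _
      have h5 : (1 + (Fintype.card {j : Fin k // j ≠ l} : ℝ)) * G = 0 := by linarith
      rcases mul_eq_zero.1 h5 with h6 | h6
      · linarith
      · exact h6
    intro j
    rw [hall j, hG0, neg_zero]
  have hcard : Fintype.card {j : Fin k // j ≠ l} = Module.finrank ℝ E := by
    rw [Fintype.card_subtype_compl, Fintype.card_fin, Fintype.card_subtype_eq]
    omega
  have hspan : Submodule.span ℝ (Set.range b) = ⊤ := hli.span_eq_top_of_card_eq_finrank' hcard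
  let T : E →ₗ[ℝ] ({j : Fin k // j ≠ l} → ℝ) :=
    LinearMap.pi fun j => (innerSL ℝ (b j) : E →L[ℝ] ℝ).toLinearMap
  have hT : ∀ x j, T x j = ⟪b j, x⟫ := fun x j => rfl
  have hinj : Function.Injective T := by
    rw [injective_iff_map_eq_zero]
    intro x hx
    have h1 : ∀ y ∈ Submodule.span ℝ (Set.range b), ⟪y, x⟫ = 0 := by
      intro y hy
      induction hy using Submodule.span_induction with
      | mem y hy => obtain ⟨j, rfl⟩ := hy; rw [← hT, hx]; rfl
      | zero => simp
      | add y z _ _ hy hz => rw [inner_add_left, hy, hz, add_zero]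
      | smul a y _ hy => rw [inner_smul_left, hy, mul_zero]
    have h2 := h1 x (by rw [hspan]; trivial)
    exact inner_self_eq_zero.1 h2
  have hfr : Module.finrank ℝ E = Module.finrank ℝ ({j : Fin k // j ≠ l} → ℝ) := by
    rw [Module.finrank_fintype_fun_eq_card, hcard]
  have hsurj : Function.Surjective T :=
    (LinearMap.injective_iff_surjective_of_finrank_eq_finrank hfr).1 hinj
  obtain ⟨v, hv⟩ := hsurj (fun _ => 1)
  refine ⟨v, fun j hj => ?_⟩
  have := congrFun hv ⟨j, hj⟩
  rw [hT] at this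
  exact this

lemma inner_dual (hsum : ∑ i, w i = 0) {l : Fin k} {v : E}
    (hv : ∀ j, j ≠ l → ⟪w l - w j, v⟫ = 1) : (k:ℝ) * ⟪w l, v⟫ = k - 1 := by
  classical
  have h1 : ∑ j, ⟪w l - w j, v⟫ = k * ⟪w l, v⟫ := by
    simp_rw [inner_sub_left]
    rw [Finset.sum_sub_distrib, ← sum_inner Finset.univ w v, hsum, inner_zero_left, sub_zero,
      Finset.sum_const, Finset.card_univ, Fintype.card_fin, nsmul_eq_mul]
  rw [← h1, ← Finset.add_sum_erase _ _ (Finset.mem_univ l), sub_self, inner_zero_left, zero_add,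
    Finset.sum_congr rfl fun j hj => hv j (Finset.mem_erase.1 hj).1, Finset.sum_const,
    Finset.card_erase_of_mem (Finset.mem_univ l), Finset.card_univ, Fintype.card_fin,
    nsmul_eq_mul, mul_one]
  have : 1 ≤ k := Nat.one_le_iff_ne_zero.2 (by rintro rfl; exact l.elim0)
  rw [Nat.cast_sub this, Nat.cast_one]

/-- the cell is stable under adding nonnegative multiples of the dual vector. -/
lemma mem_cell_of_shift {l : Fin k} {v : E}
    (hv : ∀ j, j ≠ l → ⟪w l - w j, v⟫ = 1) {x : E} {t : ℝ} (ht : 0 ≤ t)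
    (hx : x - t • v ∈ cell w l) : x ∈ cell w l := by
  rw [mem_cell_iff] at hx ⊢
  intro j hj
  have h1 := hx j hj
  have h2 := hv j hj
  rw [real_inner_comm] at h2
  rw [inner_sub_left, inner_smul_left, conj_trivial, h2] at h1
  linarith

lemma smul_mem_cell {l : Fin k} {x : E} {t : ℝ} (ht : 0 < t) :
    t • x ∈ cell w l ↔ x ∈ cell w l := by
  rw [mem_cell_iff, mem_cell_iff]
  simp only [inner_smul_left, conj_trivial]
  constructor
  · intro h j hj
    exact (mul_pos_iff_of_pos_left ht).1 (h j hj)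
  · intro h j hj
    exact mul_pos ht (h j hj)

/-- the quadratic form `k (k-1) X_l^2 - ∑ X_i^2` is nonnegative on the cell. -/
lemma quad_nonneg_cell (hsum : ∑ i, w i = 0) {l : Fin k} {x : E} (hx : x ∈ cell w l) :
    ∑ i, ⟪x, w i⟫ ^ 2 ≤ k * (k - 1) * ⟪x, w l⟫ ^ 2 := by
  classical
  set m := ⟪x, w l⟫ with hm
  have hle : ∀ i, ⟪x, w i⟫ ≤ m := by
    intro i
    by_cases hi : i = l
    · rw [hi]
    · exact (hx i hi).le
  have hs : ∑ i, ⟪x, w i⟫ = 0 := by rw [← inner_sum, hsum, inner_zero_right]
  have hge : ∀ i, -((k:ℝ) - 1) * m ≤ ⟪x, w i⟫ := by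
    intro i
    have h1 : ∑ j ∈ Finset.univ.erase i, ⟪x, w j⟫ ≤ ∑ j ∈ (Finset.univ.erase i : Finset (Fin k)), m :=
      Finset.sum_le_sum fun j _ => hle j
    rw [Finset.sum_const, Finset.card_erase_of_mem (Finset.mem_univ i), Finset.card_univ,
      Fintype.card_fin, nsmul_eq_mul] at h1
    have h2 := Finset.add_sum_erase Finset.univ (fun j => ⟪x, w j⟫) (Finset.mem_univ i)
    rw [hs] at h2
    have : 1 ≤ k := Nat.one_le_iff_ne_zero.2 (by rintro rfl; exact l.elim0)
    rw [Nat.cast_sub this, Nat.cast_one] at h1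
    linarith
  have hterm : ∀ i ∈ Finset.univ, ⟪x, w i⟫ ^ 2 ≤ ((k:ℝ) - 1) * m ^ 2 - ((k:ℝ) - 2) * m * ⟪x, w i⟫ := by
    intro i _
    nlinarith [mul_nonneg (sub_nonneg.2 (hle i)) (sub_nonneg.2 (hge i))]
  have h3 := Finset.sum_le_sum hterm
  rw [Finset.sum_sub_distrib, Finset.sum_const, ← Finset.mul_sum, hs, Finset.card_univ,
    Fintype.card_fin, nsmul_eq_mul, mul_zero, sub_zero] at h3
  linarith

end geometry

end P226
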