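import Vale.Agent.P226.SVa

/-!
Second variation, part b: the functional `Lam`, homogeneity and positivity.
-/

namespace P226

open MeasureTheory ProbabilityTheory Set
open scoped RealInnerProductSpace Topology

variable {E : Type*} [NormedAddCommGroup E] [InnerProductSpace ℝ E] [FiniteDimensional ℝ E]
  [MeasurableSpace E] [BorelSpace E]

/-- the functional `Λ(⟨·,u⟩^2)`. -/
noncomputable def Lam (A : Set E) (v u : E) : ℝ :=
  ∫ y, A.indicator (fun y => ⟪y, u⟫ ^ 2 * ⟪y, v⟫ - 2 * ⟪v, u⟫ * ⟪y, u⟫) y ∂(stdGaussian E)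

lemma abs_indicator_le (A : Set E) (f : E → ℝ) (x : E) : |A.indicator f x| ≤ |f x| := by
  by_cases h : x ∈ A
  · rw [indicator_of_mem h]
  · rw [indicator_of_notMem h, abs_zero]; exact abs_nonneg _

lemma abs_inner_le_growth (x u : E) : |⟪x, u⟫| ≤ ‖u‖ * (1 + ‖x‖ ^ 2) := by
  have h1 := abs_real_inner_le_norm x u
  have h2 : ‖x‖ ≤ 1 + ‖x‖ ^ 2 := by nlinarith [sq_nonneg (‖x‖ - 1), norm_nonneg x]
  nlinarith [norm_nonneg u, norm_nonneg x]

lemma abs_inner_mul_le_growth (x u v : E) : |⟪x, u⟫ * ⟪x, v⟫| ≤ ‖u‖ * ‖v‖ * (1 + ‖x‖ ^ 2) := by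
  rw [abs_mul]
  have h1 := abs_real_inner_le_norm x u
  have h2 := abs_real_inner_le_norm x v
  calc |⟪x, u⟫| * |⟪x, v⟫| ≤ (‖x‖ * ‖u‖) * (‖x‖ * ‖v‖) := by gcongr
    _ = ‖u‖ * ‖v‖ * ‖x‖ ^ 2 := by ring
    _ ≤ ‖u‖ * ‖v‖ * (1 + ‖x‖ ^ 2) := by
        gcongr; linarith

lemma integrable_ind1 {A : Set E} (hA : MeasurableSet A) (u : E) :
    Integrable (A.indicator (fun y => ⟪y, u⟫)) (stdGaussian E) := by
  refine integrable_of_growth _ (Measurable.indicator (by fun_prop) hA).aestronglyMeasurable ‖u‖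
    fun x => (abs_indicator_le _ _ _).trans ((abs_inner_le_growth x u).trans ?_)
  have h1 : (1:ℝ) ≤ 1 + ‖x‖ ^ 2 := by nlinarith [sq_nonneg ‖x‖]
  have h2 : (1 + ‖x‖ ^ 2) ≤ (1 + ‖x‖ ^ 2) ^ 2 := by nlinarith
  exact mul_le_mul_of_nonneg_left h2 (norm_nonneg _)

lemma integrable_ind3 {A : Set E} (hA : MeasurableSet A) (a b c : E) :
    Integrable (A.indicator (fun y => ⟪y, a⟫ * ⟪y, b⟫ * ⟪y, c⟫)) (stdGaussian E) := by
  refine integrable_of_growth _ (Measurable.indicator (by fun_prop) hA).aestronglyMeasurable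
    (‖a‖ * ‖b‖ * ‖c‖) fun x => (abs_indicator_le _ _ _).trans ?_
  rw [abs_mul]
  calc |⟪x, a⟫ * ⟪x, b⟫| * |⟪x, c⟫|
      ≤ (‖a‖ * ‖b‖ * (1 + ‖x‖ ^ 2)) * (‖c‖ * (1 + ‖x‖ ^ 2)) := by
        gcongr
        · exact abs_inner_mul_le_growth x a b
        · exact abs_inner_le_growth x c
    _ = ‖a‖ * ‖b‖ * ‖c‖ * (1 + ‖x‖ ^ 2) ^ 2 := by ring

lemma Lam_eq {A : Set E} (hA : MeasurableSet A) (v u : E) :
    Lam A v u = ∫ y, A.indicator (fun y => ⟪y, u⟫ * ⟪y, u⟫ * ⟪y, v⟫) y ∂(stdGaussian E) -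
      2 * ⟪v, u⟫ * ∫ y, A.indicator (fun y => ⟪y, u⟫) y ∂(stdGaussian E) := by
  unfold Lam
  rw [← integral_const_mul, ← integral_sub (integrable_ind3 hA u u v)
    ((integrable_ind1 hA u).const_mul _)]
  refine integral_congr_ae (Filter.Eventually.of_forall fun y => ?_)
  by_cases h : y ∈ A
  · simp only [indicator_of_mem h]; ring
  · simp [indicator_of_notMem h]

/-- homogeneity of the Gaussian measure. -/
theorem homog (h : E → ℝ) (hm : AEStronglyMeasurable h (stdGaussian E)) (K : ℝ)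
    (hK : ∀ x, |h x| ≤ K * (1 + ‖x‖ ^ 2)) (hh : ∀ (t : ℝ) (x : E), 0 < t → h (t • x) = t * h x) :
    ∫ x, h x * ‖x‖ ^ 2 ∂(stdGaussian E) =
      (Module.finrank ℝ E + 1) * ∫ x, h x ∂(stdGaussian E) := by
  set N := Module.finrank ℝ E with hN
  have hK0 : 0 ≤ K := by
    have := (abs_nonneg _).trans (hK 0)
    simpa using this
  have hder := hasDerivAt_kappa h (fun x : E => ‖x‖ ^ 2) (fun _ => 0) hm
    (by fun_prop) (by fun_prop) (K + 1)
    (fun x => (hK x).trans (by nlinarith [sq_nonneg ‖x‖]))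
    (fun x => by
      rw [abs_of_nonneg (by positivity)]
      nlinarith [mul_nonneg hK0 (sq_nonneg ‖x‖)])
    (fun _ => le_rfl) (fun x => by positivity)
  set κ : ℝ → ℝ := fun s => ∫ x, h x * Real.exp (s * ‖x‖ ^ 2 - s ^ 2 / 2 * 0) ∂(stdGaussian E)
    with hκ
  have hκ0 : κ 0 = ∫ x, h x ∂(stdGaussian E) := by simp [hκ]
  have hlam : HasDerivAt (fun s : ℝ => Real.sqrt (1 - 2 * s) ^ (N + 1)) (-(N + 1 : ℝ)) 0 := by
    have h1 : HasDerivAt (fun s : ℝ => 1 - 2 * s) (-2) 0 := by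
      have := ((hasDerivAt_id (0:ℝ)).const_mul 2).const_sub 1
      refine this.congr_deriv ?_
      norm_num
    have h2 := h1.sqrt (by norm_num)
    have h3 := h2.pow (N + 1)
    refine h3.congr_deriv ?_
    simp
  have hprod := hlam.mul hder
  have hconst : (fun s : ℝ => Real.sqrt (1 - 2 * s) ^ (N + 1) * κ s) =ᶠ[𝓝 0]
      fun _ => ∫ x, h x ∂(stdGaussian E) := by
    have hnear : ∀ᶠ s : ℝ in 𝓝 0, s < 1 / 2 := eventually_lt_nhds (by norm_num)
    filter_upwards [hnear] with s hs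
    have hpos : 0 < 1 - 2 * s := by linarith
    set t := Real.sqrt (1 - 2 * s) with ht
    have ht0 : 0 < t := Real.sqrt_pos.2 hpos
    have ht2 : t ^ 2 = 1 - 2 * s := Real.sq_sqrt hpos.le
    have hdet : LinearMap.det (t • (LinearMap.id : E →ₗ[ℝ] E)) = t ^ N := by
      rw [LinearMap.det_smul, LinearMap.det_id, mul_one]
    have := gauss_linear (t • (LinearMap.id : E →ₗ[ℝ] E)) (by rw [hdet]; positivity) h
    rw [this, hdet, abs_of_pos (by positivity), pow_succ, mul_assoc]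
    congr 1
    rw [hκ, ← integral_const_mul]
    refine integral_congr_ae (Filter.Eventually.of_forall fun x => ?_)
    simp only [LinearMap.smul_apply, LinearMap.id_apply]
    rw [hh t x ht0, norm_smul, Real.norm_of_nonneg ht0.le, mul_pow, ht2]
    rw [mul_assoc]
    congr 3
    ring
  have h0 := hprod.congr_of_eventuallyEq hconst.symm
  have h1 := h0.unique (hasDerivAt_const (0:ℝ) (∫ x, h x ∂(stdGaussian E)))
  simp only [mul_zero, sub_zero, Real.sqrt_one, one_pow, one_mul] at h1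
  rw [show (κ 0) = ∫ x, h x ∂(stdGaussian E) from hκ0] at h1
  linarith

lemma integrable_tilt (f : E → ℝ) (hf : AEStronglyMeasurable f (stdGaussian E)) (K : ℝ)
    (hK : ∀ x, |f x| ≤ K * (1 + ‖x‖ ^ 2)) (s : ℝ) (v : E) :
    Integrable (fun y => f y * Real.exp (s * ⟪y, v⟫ - s ^ 2 / 2 * ‖v‖ ^ 2)) (stdGaussian E) := by
  obtain ⟨C, hC, hint⟩ := IsGaussian.exists_integrable_exp_sq (stdGaussian E)
  have hK0 : 0 ≤ K := by
    have := (abs_nonneg _).trans (hK 0)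
    simpa using this
  have h2 : Integrable (fun x : E => (K * (2 / C) * Real.exp (C / 2 + s ^ 2 * ‖v‖ ^ 2 / C)) *
      Real.exp (C * ‖x‖ ^ 2)) (stdGaussian E) := hint.const_mul _
  refine h2.mono' (hf.mul (by fun_prop)) (Filter.Eventually.of_forall fun x => ?_)
  rw [Real.norm_eq_abs, abs_mul, Real.abs_exp]
  have h3 : 1 + ‖x‖ ^ 2 ≤ 2 / C * Real.exp (C / 2 * (1 + ‖x‖ ^ 2)) := by
    have := Real.add_one_le_exp (C / 2 * (1 + ‖x‖ ^ 2))
    rw [div_mul_eq_mul_div, le_div_iff₀ hC]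
    nlinarith
  have h4 : s * ⟪x, v⟫ - s ^ 2 / 2 * ‖v‖ ^ 2 ≤ C / 2 * ‖x‖ ^ 2 + s ^ 2 * ‖v‖ ^ 2 / C := by
    have h5 : s * ⟪x, v⟫ ≤ |s| * ‖v‖ * ‖x‖ := by
      calc s * ⟪x, v⟫ ≤ |s * ⟪x, v⟫| := le_abs_self _
        _ = |s| * |⟪x, v⟫| := abs_mul _ _
        _ ≤ |s| * (‖x‖ * ‖v‖) := by gcongr; exact abs_real_inner_le_norm x v
        _ = _ := by ring
    have h6 : |s| * ‖v‖ * ‖x‖ ≤ C / 2 * ‖x‖ ^ 2 + s ^ 2 * ‖v‖ ^ 2 / C := by
      have h7 : s ^ 2 * ‖v‖ ^ 2 / C = (|s| * ‖v‖) ^ 2 / C := by rw [mul_pow, sq_abs]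
      rw [h7]
      have h8 : C * (C / 2 * ‖x‖ ^ 2 + (|s| * ‖v‖) ^ 2 / C - |s| * ‖v‖ * ‖x‖) =
          (C * ‖x‖ - |s| * ‖v‖) ^ 2 / 2 + (|s| * ‖v‖) ^ 2 / 2 := by
        field_simp
        ring
      have h9 : 0 ≤ C * (C / 2 * ‖x‖ ^ 2 + (|s| * ‖v‖) ^ 2 / C - |s| * ‖v‖ * ‖x‖) := by
        rw [h8]; positivity
      have := nonneg_of_mul_nonneg_right h9 hC
      linarith
    have : 0 ≤ s ^ 2 / 2 * ‖v‖ ^ 2 := by positivity
    linarith
  calc |f x| * Real.exp (s * ⟪x, v⟫ - s ^ 2 / 2 * ‖v‖ ^ 2)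
      ≤ (K * (2 / C * Real.exp (C / 2 * (1 + ‖x‖ ^ 2)))) *
        Real.exp (C / 2 * ‖x‖ ^ 2 + s ^ 2 * ‖v‖ ^ 2 / C) := by
        gcongr
        exact (hK x).trans (mul_le_mul_of_nonneg_left h3 hK0)
    _ = K * (2 / C) * (Real.exp (C / 2 * (1 + ‖x‖ ^ 2)) *
        Real.exp (C / 2 * ‖x‖ ^ 2 + s ^ 2 * ‖v‖ ^ 2 / C)) := by ring
    _ = _ := by
        rw [← Real.exp_add, mul_assoc (K * (2 / C)), ← Real.exp_add]
        congr 2; ring

lemma growth_ind_sq (A : Set E) (u : E) (x : E) :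
    |A.indicator (fun y => ⟪y, u⟫ ^ 2) x| ≤ (‖u‖ * ‖u‖) * (1 + ‖x‖ ^ 2) := by
  refine (abs_indicator_le _ _ _).trans ?_
  rw [sq]
  exact abs_inner_mul_le_growth x u u

lemma growth_ind_one (A : Set E) (x : E) :
    |A.indicator (fun _ => (1:ℝ)) x| ≤ 1 * (1 + ‖x‖ ^ 2) := by
  refine (abs_indicator_le _ _ _).trans ?_
  rw [abs_one]
  nlinarith [sq_nonneg ‖x‖]

lemma growth_ind_lin (A : Set E) (u : E) (x : E) :
    |A.indicator (fun y => ⟪y, u⟫) x| ≤ ‖u‖ * (1 + ‖x‖ ^ 2) :=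
  (abs_indicator_le _ _ _).trans (abs_inner_le_growth x u)

/-- derivative of a tilted integral in a linear direction. -/
lemma hasDerivAt_tilt (f : E → ℝ) (hf : AEStronglyMeasurable f (stdGaussian E)) (K : ℝ)
    (hK : ∀ x, |f x| ≤ K * (1 + ‖x‖ ^ 2)) (v : E) :
    HasDerivAt (fun s : ℝ => ∫ y, f y * Real.exp (s * ⟪y, v⟫ - s ^ 2 / 2 * ‖v‖ ^ 2)
      ∂(stdGaussian E)) (∫ y, f y * ⟪y, v⟫ ∂(stdGaussian E)) 0 := by
  have hK0 : 0 ≤ K := by
    have := (abs_nonneg _).trans (hK 0)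
    simpa using this
  refine hasDerivAt_kappa f (fun y => ⟪y, v⟫) (fun _ => ‖v‖ ^ 2) hf (by fun_prop) (by fun_prop)
    (K + ‖v‖ + ‖v‖ ^ 2) (fun x => (hK x).trans ?_) (fun x => (abs_inner_le_growth x v).trans ?_)
    (fun _ => by positivity) (fun x => ?_)
  · have : 0 ≤ (‖v‖ + ‖v‖ ^ 2) * (1 + ‖x‖ ^ 2) := by positivity
    nlinarith
  · have : 0 ≤ (K + ‖v‖ ^ 2) * (1 + ‖x‖ ^ 2) := by positivity
    nlinarith
  · have : 0 ≤ (K + ‖v‖) * (1 + ‖x‖ ^ 2) + ‖v‖ ^ 2 * ‖x‖ ^ 2 := by positivity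
    nlinarith

/-- derivative of the shifted integral. -/
lemma hasDerivAt_shift {A : Set E} (hA : MeasurableSet A) (v u : E) :
    HasDerivAt (fun t : ℝ => ∫ x, A.indicator (fun _ => (1:ℝ)) (x + (-t) • v) * ⟪x, u⟫ ^ 2
      ∂(stdGaussian E)) (-(Lam A v u)) 0 := by
  have hm0 : AEStronglyMeasurable (A.indicator (fun y : E => ⟪y, u⟫ ^ 2)) (stdGaussian E) :=
    (Measurable.indicator (by fun_prop) hA).aestronglyMeasurable
  have hm1 : AEStronglyMeasurable (A.indicator (fun y : E => ⟪y, u⟫)) (stdGaussian E) :=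
    (Measurable.indicator (by fun_prop) hA).aestronglyMeasurable
  have hm2 : AEStronglyMeasurable (A.indicator (fun _ : E => (1:ℝ))) (stdGaussian E) :=
    (Measurable.indicator (by fun_prop) hA).aestronglyMeasurable
  set κ0 : ℝ → ℝ := fun s => ∫ y, A.indicator (fun y => ⟪y, u⟫ ^ 2) y *
    Real.exp (s * ⟪y, v⟫ - s ^ 2 / 2 * ‖v‖ ^ 2) ∂(stdGaussian E) with hκ0
  set κ1 : ℝ → ℝ := fun s => ∫ y, A.indicator (fun y => ⟪y, u⟫) y *
    Real.exp (s * ⟪y, v⟫ - s ^ 2 / 2 * ‖v‖ ^ 2) ∂(stdGaussian E) with hκ1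
  set κ2 : ℝ → ℝ := fun s => ∫ y, A.indicator (fun _ => (1:ℝ)) y *
    Real.exp (s * ⟪y, v⟫ - s ^ 2 / 2 * ‖v‖ ^ 2) ∂(stdGaussian E) with hκ2
  have hd0 : HasDerivAt κ0 _ 0 := hasDerivAt_tilt _ hm0 _ (growth_ind_sq A u) v
  have hd1 : HasDerivAt κ1 _ 0 := hasDerivAt_tilt _ hm1 _ (growth_ind_lin A u) v
  have hd2 : HasDerivAt κ2 _ 0 := hasDerivAt_tilt _ hm2 _ (growth_ind_one A) v
  have hcm : ∀ t : ℝ, ∫ x, A.indicator (fun _ => (1:ℝ)) (x + (-t) • v) * ⟪x, u⟫ ^ 2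
      ∂(stdGaussian E) = κ0 (-t) + 2 * ⟪v, u⟫ * (t * κ1 (-t)) + ⟪v, u⟫ ^ 2 * (t ^ 2 * κ2 (-t)) := by
    intro t
    have h1 := cameron_martin ((-t) • v) (fun y : E => A.indicator (fun _ => (1:ℝ)) y *
      ⟪y + t • v, u⟫ ^ 2)
    have h2 : ∀ x : E, x + (-t) • v + t • v = x := by
      intro x; rw [neg_smul]; abel
    simp only [h2] at h1
    rw [h1, hκ0, hκ1, hκ2]
    simp only
    rw [← integral_const_mul, ← integral_const_mul, ← integral_const_mul, ← integral_const_mul,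
      ← integral_add, ← integral_add]
    · refine integral_congr_ae (Filter.Eventually.of_forall fun y => ?_)
      have e1 : ⟪y, (-t) • v⟫ - ‖(-t) • v‖ ^ 2 / 2 = -t * ⟪y, v⟫ - (-t) ^ 2 / 2 * ‖v‖ ^ 2 := by
        rw [inner_smul_right, norm_smul, mul_pow, Real.norm_eq_abs, sq_abs]; ring
      by_cases h : y ∈ A
      · simp only [indicator_of_mem h, e1, inner_add_left, inner_smul_left, conj_trivial]
        ring
      · simp [indicator_of_notMem h]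
    · exact (integrable_tilt _ hm0 _ (growth_ind_sq A u) (-t) v).add
        (((integrable_tilt _ hm1 _ (growth_ind_lin A u) (-t) v).const_mul _).const_mul _)
    · exact ((integrable_tilt _ hm2 _ (growth_ind_one A) (-t) v).const_mul _).const_mul _
    · exact integrable_tilt _ hm0 _ (growth_ind_sq A u) (-t) v
    · exact ((integrable_tilt _ hm1 _ (growth_ind_lin A u) (-t) v).const_mul _).const_mul _
  have hneg : HasDerivAt (fun t : ℝ => -t) (-1) 0 := hasDerivAt_neg' 0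
  have hcomp : ∀ (κ : ℝ → ℝ) (d : ℝ), HasDerivAt κ d 0 →
      HasDerivAt (fun t => κ (-t)) (d * (-1)) 0 := by
    intro κ d hd
    have hd' : HasDerivAt κ d (-0) := by rw [neg_zero]; exact hd
    exact HasDerivAt.comp (0:ℝ) hd' hneg
  have hn0 := hcomp _ _ hd0
  have hn1 := hcomp _ _ hd1
  have hn2 := hcomp _ _ hd2
  have hfin := (hn0.add (((hasDerivAt_id (0:ℝ)).mul hn1).const_mul (2 * ⟪v, u⟫))).add
    ((((hasDerivAt_pow 2 (0:ℝ))).mul hn2).const_mul (⟪v, u⟫ ^ 2))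
  have hfun : (fun t : ℝ => ∫ x, A.indicator (fun _ => (1:ℝ)) (x + (-t) • v) * ⟪x, u⟫ ^ 2
      ∂(stdGaussian E)) = fun t => κ0 (-t) + 2 * ⟪v, u⟫ * (t * κ1 (-t)) +
        ⟪v, u⟫ ^ 2 * (t ^ 2 * κ2 (-t)) := funext hcm
  rw [hfun]
  refine hfin.congr_deriv ?_
  rw [Lam_eq hA]
  have e1 : κ1 0 = ∫ y, A.indicator (fun y => ⟪y, u⟫) y ∂(stdGaussian E) := by simp [hκ1]
  have e2 : ∫ y, A.indicator (fun y => ⟪y, u⟫ ^ 2) y * ⟪y, v⟫ ∂(stdGaussian E) =
      ∫ y, A.indicator (fun y => ⟪y, u⟫ * ⟪y, u⟫ * ⟪y, v⟫) y ∂(stdGaussian E) := by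
    refine integral_congr_ae (Filter.Eventually.of_forall fun y => ?_)
    by_cases h : y ∈ A
    · simp only [indicator_of_mem h]; ring
    · simp [indicator_of_notMem h]
  simp only [id, neg_zero, e1, e2]
  norm_num
  ring

/-- positivity of `Λ`. -/
theorem Lam_pos {A : Set E} (hA : MeasurableSet A) {v : E}
    (hshift : ∀ (x : E) (t : ℝ), 0 ≤ t → x - t • v ∈ A → x ∈ A) {ι : Type*} [Fintype ι]
    (c : ι → ℝ) (u : ι → E) (hq : ∀ x ∈ A, 0 ≤ ∑ i, c i * ⟪x, u i⟫ ^ 2) :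
    0 ≤ ∑ i, c i * Lam A v (u i) := by
  set I : ℝ → ℝ := fun t => ∑ i, c i * ∫ x, A.indicator (fun _ => (1:ℝ)) (x + (-t) • v) *
    ⟪x, u i⟫ ^ 2 ∂(stdGaussian E) with hI
  have hder : HasDerivAt I (∑ i, c i * (-(Lam A v (u i)))) 0 := by
    have h := HasDerivAt.fun_sum (u := Finset.univ) (x := (0:ℝ))
      (A := fun (i : ι) (t : ℝ) => c i * ∫ x, A.indicator (fun _ => (1:ℝ)) (x + (-t) • v) *
        ⟪x, u i⟫ ^ 2 ∂(stdGaussian E)) (A' := fun i => c i * (-(Lam A v (u i))))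
      (fun i _ => (hasDerivAt_shift hA v (u i)).const_mul (c i))
    exact h
  have hint : ∀ (t : ℝ) (i : ι), Integrable (fun x => A.indicator (fun _ => (1:ℝ)) (x + (-t) • v) *
      ⟪x, u i⟫ ^ 2) (stdGaussian E) := by
    intro t i
    have hms : MeasurableSet ((fun x : E => x + (-t) • v) ⁻¹' A) :=
      (by fun_prop : Measurable fun x : E => x + (-t) • v) hA
    have hfe : (fun x => A.indicator (fun _ => (1:ℝ)) (x + (-t) • v) * ⟪x, u i⟫ ^ 2) =
        ((fun x : E => x + (-t) • v) ⁻¹' A).indicator (fun x => ⟪x, u i⟫ ^ 2) := by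
      ext x
      by_cases h : x + (-t) • v ∈ A
      · rw [indicator_of_mem h, indicator_of_mem (s := (fun x : E => x + (-t) • v) ⁻¹' A) h, one_mul]
      · rw [indicator_of_notMem h,
          indicator_of_notMem (s := (fun x : E => x + (-t) • v) ⁻¹' A) h, zero_mul]
    rw [hfe]
    refine integrable_of_growth _ (Measurable.indicator (by fun_prop) hms).aestronglyMeasurable
      (‖u i‖ * ‖u i‖) fun x => (growth_ind_sq _ (u i) x).trans ?_
    have h1 : (1:ℝ) ≤ 1 + ‖x‖ ^ 2 := by nlinarith [sq_nonneg ‖x‖]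
    have h2 : (1 + ‖x‖ ^ 2) ≤ (1 + ‖x‖ ^ 2) ^ 2 := by nlinarith
    exact mul_le_mul_of_nonneg_left h2 (by positivity)
  have hIeq : ∀ t, I t = ∫ x, A.indicator (fun _ => (1:ℝ)) (x + (-t) • v) *
      (∑ i, c i * ⟪x, u i⟫ ^ 2) ∂(stdGaussian E) := by
    intro t
    rw [hI]
    simp only
    simp_rw [← integral_const_mul]
    rw [← integral_finsetSum _ fun i _ => (hint t i).const_mul (c i)]
    refine integral_congr_ae (Filter.Eventually.of_forall fun x => ?_)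
    simp only [Finset.mul_sum]
    exact Finset.sum_congr rfl fun i _ => by ring
  have hinteg : ∀ t : ℝ, Integrable (fun x => A.indicator (fun _ => (1:ℝ)) (x + (-t) • v) *
      (∑ i, c i * ⟪x, u i⟫ ^ 2)) (stdGaussian E) := by
    intro t
    have : (fun x => A.indicator (fun _ => (1:ℝ)) (x + (-t) • v) *
      (∑ i, c i * ⟪x, u i⟫ ^ 2)) = fun x => ∑ i, c i * (A.indicator (fun _ => (1:ℝ))
        (x + (-t) • v) * ⟪x, u i⟫ ^ 2) := by
      ext x
      rw [Finset.mul_sum]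
      exact Finset.sum_congr rfl fun i _ => by ring
    rw [this]
    exact integrable_finsetSum _ fun i _ => (hint t i).const_mul (c i)
  have hmono : ∀ t, 0 ≤ t → I t ≤ I 0 := by
    intro t ht
    rw [hIeq, hIeq]
    refine integral_mono (hinteg t) (hinteg 0) fun x => ?_
    simp only [neg_zero, zero_smul, add_zero]
    by_cases h : x + (-t) • v ∈ A
    · have hx : x ∈ A := by
        refine hshift x t ht ?_
        rwa [neg_smul, ← sub_eq_add_neg] at h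
      rw [indicator_of_mem h, indicator_of_mem hx]
    · rw [indicator_of_notMem h, zero_mul]
      by_cases hx : x ∈ A
      · rw [indicator_of_mem hx, one_mul]; exact hq x hx
      · rw [indicator_of_notMem hx, zero_mul]
  have hle : (∑ i, c i * (-(Lam A v (u i)))) ≤ 0 := by
    have hs := (hasDerivAt_iff_tendsto_slope.1 hder)
    have hs2 : Filter.Tendsto (slope I 0) (𝓝[>] 0) (𝓝 (∑ i, c i * (-(Lam A v (u i))))) :=
      hs.mono_left (nhdsWithin_mono _ fun x (hx : 0 < x) => ne_of_gt hx)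
    refine le_of_tendsto hs2 ?_
    filter_upwards [self_mem_nhdsWithin] with t ht
    rw [slope_def_field]
    exact div_nonpos_of_nonpos_of_nonneg (by linarith [hmono t (le_of_lt ht)])
      (by simpa using le_of_lt ht)
  have : ∑ i, c i * (-(Lam A v (u i))) = -∑ i, c i * Lam A v (u i) := by
    rw [← Finset.sum_neg_distrib]
    exact Finset.sum_congr rfl fun i _ => by ring
  rw [this] at hle
  linarith

end P226
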