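import Vale.Agent.P226.SVb

/-!
Second variation, part c: the second order optimality `Lam u ≤ (1 - 1/k) |u|^2`.
-/

namespace P226

open MeasureTheory ProbabilityTheory Set
open scoped RealInnerProductSpace Topology

variable {E : Type*} [NormedAddCommGroup E] [InnerProductSpace ℝ E] [FiniteDimensional ℝ E]
  [MeasurableSpace E] [BorelSpace E]

/-- perturbed family. -/
noncomputable def pert {k : ℕ} (w : Fin k → E) (l : Fin k) (u : E) (ε : ℝ) : Fin k → E :=
  fun i => w i + (if i = l then ε else 0) • u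

lemma pert_zero {k : ℕ} (w : Fin k → E) (l : Fin k) (u : E) : pert w l u 0 = w := by
  ext i; simp [pert]

/-- the upper bound from maximality. -/
lemma Psi_pert_le {k : ℕ} {w : Fin k → E} (hw : Crit w) (l : Fin k) (u : E) (ε : ℝ) :
    Psi (pert w l u ε) ≤ Psi w + ε * ⟪w l, u⟫ + ε ^ 2 / 2 * ((1 - 1 / (k:ℝ)) * ‖u‖ ^ 2) := by
  have hk : 0 < k := l.pos
  have hk' : (0:ℝ) < k := by exact_mod_cast hk
  have h1 := Psi_sub_const hk (pert w l u ε) ((ε / k) • u)
  have h2 := hw.max (fun i => pert w l u ε i - (ε / k) • u)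
  rw [h1] at h2
  set c : Fin k → ℝ := fun i => (if i = l then ε else 0) - ε / k with hc
  have h3 : ∀ i, pert w l u ε i - (ε / k) • u = w i + c i • u := by
    intro i
    simp only [pert, hc, sub_smul]
    abel
  have hsum : ∑ i, ‖pert w l u ε i - (ε / k) • u‖ ^ 2 =
      ∑ i, ‖w i‖ ^ 2 + 2 * (ε * ⟪w l, u⟫) + ε ^ 2 * (1 - 1 / (k:ℝ)) * ‖u‖ ^ 2 := by
    simp_rw [h3, norm_add_sq_real, inner_smul_right, norm_smul, mul_pow, Real.norm_eq_abs, sq_abs]
    rw [Finset.sum_add_distrib, Finset.sum_add_distrib, ← Finset.mul_sum, ← Finset.sum_mul]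
    have h4 : ∑ i, c i * ⟪w i, u⟫ = ε * ⟪w l, u⟫ := by
      simp only [hc, sub_mul, ite_mul, zero_mul]
      rw [Finset.sum_sub_distrib, Finset.sum_ite_eq' Finset.univ l, if_pos (Finset.mem_univ _),
        ← Finset.mul_sum, ← sum_inner Finset.univ w u, hw.sum_zero, inner_zero_left, mul_zero,
        sub_zero]
    have h5 : ∑ i, c i ^ 2 = ε ^ 2 * (1 - 1 / (k:ℝ)) := by
      have h6 : ∀ i, c i ^ 2 = (if i = l then ε ^ 2 - 2 * ε * (ε / k) else 0) + (ε / k) ^ 2 := by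
        intro i
        simp only [hc]
        split_ifs <;> ring
      simp_rw [h6]
      rw [Finset.sum_add_distrib, Finset.sum_ite_eq' Finset.univ l, if_pos (Finset.mem_univ _),
        Finset.sum_const, Finset.card_univ, Fintype.card_fin, nsmul_eq_mul]
      field_simp
      ring
    rw [h4, h5]
  rw [hsum] at h2
  rw [hw.psi]
  linarith

/-- the region where the perturbed vector wins. -/
def Bset {k : ℕ} (w : Fin k → E) (l : Fin k) (u : E) (ε : ℝ) : Set E :=
  {x | ∀ j, j ≠ l → ⟪x, w j⟫ < ⟪x, w l⟫ + ε * ⟪x, u⟫}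

lemma measurableSet_Bset {k : ℕ} (w : Fin k → E) (l : Fin k) (u : E) (ε : ℝ) :
    MeasurableSet (Bset w l u ε) := by
  have : Bset w l u ε = ⋂ j : Fin k, {x : E | j ≠ l → ⟪x, w j⟫ < ⟪x, w l⟫ + ε * ⟪x, u⟫} := by
    ext x; simp [Bset]
  rw [this]
  refine MeasurableSet.iInter fun j => ?_
  by_cases hj : j = l
  · simp [hj]
  · simp only [ne_eq, hj, not_false_eq_true, true_implies]
    exact measurableSet_lt (by fun_prop) (by fun_prop)

noncomputable def hfun {k : ℕ} (w : Fin k → E) (l : Fin k) (u : E) (ε : ℝ) : ℝ :=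
  ∫ x, (Bset w l u ε).indicator (fun x => ⟪x, u⟫) x ∂(stdGaussian E)

/-- subgradient inequality. -/
lemma Psi_pert_ge {k : ℕ} (w : Fin k → E) (l : Fin k) (u : E) (ε ε' : ℝ) :
    Psi (pert w l u ε) + (ε' - ε) * hfun w l u ε ≤ Psi (pert w l u ε') := by
  have hk : 0 < k := l.pos
  unfold Psi hfun
  rw [← integral_const_mul, ← integral_add (integrable_gmax _)
    ((integrable_ind1 (measurableSet_Bset w l u ε) u).const_mul _)]
  refine integral_mono ((integrable_gmax _).add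
    ((integrable_ind1 (measurableSet_Bset w l u ε) u).const_mul _)) (integrable_gmax _) fun x => ?_
  simp only
  have hne : ∀ (η : ℝ) (j : Fin k), j ≠ l → ⟪x, pert w l u η j⟫ = ⟪x, w j⟫ := by
    intro η j hj; simp [pert, hj]
  have hl : ∀ (η : ℝ), ⟪x, pert w l u η l⟫ = ⟪x, w l⟫ + η * ⟪x, u⟫ := by
    intro η; simp [pert, inner_add_right, inner_smul_right]
  by_cases hx : x ∈ Bset w l u ε
  · rw [indicator_of_mem hx]
    have h1 : gmax (pert w l u ε) x ≤ ⟪x, w l⟫ + ε * ⟪x, u⟫ := by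
      refine gmax_le hk _ _ _ fun j => ?_
      by_cases hj : j = l
      · rw [hj, hl]
      · rw [hne ε j hj]; exact (hx j hj).le
    have h2 := inner_le_gmax (pert w l u ε') x l
    rw [hl] at h2
    linarith
  · rw [indicator_of_notMem hx, mul_zero, add_zero]
    have hx2 : ∃ j, j ≠ l ∧ ⟪x, w l⟫ + ε * ⟪x, u⟫ ≤ ⟪x, w j⟫ := by
      simp only [Bset, mem_ofPred_eq, not_forall, not_lt] at hx
      obtain ⟨j, hj, h⟩ := hx
      exact ⟨j, hj, h⟩
    obtain ⟨j0, hj0, hx2⟩ := hx2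
    refine gmax_le hk _ _ _ fun j => ?_
    by_cases hj : j = l
    · rw [hj, hl]
      refine hx2.trans ?_
      have h2 := inner_le_gmax (pert w l u ε') x j0
      rwa [hne ε' j0 hj0] at h2
    · rw [hne ε j hj]
      have h2 := inner_le_gmax (pert w l u ε') x j
      rwa [hne ε' j hj] at h2

/-- formula for `hfun` by a shear. -/
lemma hfun_eq {k : ℕ} (w : Fin k → E) (l : Fin k) {v : E}
    (hv : ∀ j, j ≠ l → ⟪w l - w j, v⟫ = 1) (u : E) (ε : ℝ) (hε : 0 < 1 + ε * ⟪u, v⟫) :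
    hfun w l u ε = ((1 + ε * ⟪u, v⟫)⁻¹) ^ 2 * ∫ y, (cell w l).indicator (fun y => ⟪y, u⟫) y *
      Real.exp ((ε / (1 + ε * ⟪u, v⟫)) * (⟪y, u⟫ * ⟪y, v⟫) -
        (ε / (1 + ε * ⟪u, v⟫)) ^ 2 / 2 * (⟪y, u⟫ ^ 2 * ‖v‖ ^ 2)) ∂(stdGaussian E) := by
  set a := ⟪u, v⟫ with ha
  set s := ε / (1 + ε * a) with hs
  have hsa : 1 - s * a = (1 + ε * a)⁻¹ := by
    rw [hs]; field_simp; ring
  have hsa0 : 0 < 1 - s * a := by rw [hsa]; positivity
  have hεs : ε * (1 - s * a) = s := by rw [hsa, hs]; ring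
  let f : Module.Dual ℝ E :=
    { toFun := fun x => -s * ⟪x, u⟫
      map_add' := fun x y => by rw [inner_add_left]; ring
      map_smul' := fun c x => by
        rw [inner_smul_left, conj_trivial, RingHom.id_apply, smul_eq_mul]; ring }
  have hf : ∀ x : E, f x = -s * ⟪x, u⟫ := fun x => rfl
  set S : E →ₗ[ℝ] E := LinearMap.transvection f v with hS
  have hSx : ∀ x : E, S x = x + (-s * ⟪x, u⟫) • v := by
    intro x; rw [hS, LinearMap.transvection.apply, hf]
  have hdet : LinearMap.det S = 1 - s * a := by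
    rw [hS, LinearMap.transvection.det, hf, real_inner_comm]
    ring
  have hcv := gauss_linear S (by rw [hdet]; exact hsa0.ne')
    ((Bset w l u ε).indicator (fun x => ⟪x, u⟫))
  unfold hfun
  rw [hcv, hdet, abs_of_pos hsa0, hsa, sq, mul_assoc]
  congr 1
  rw [← integral_const_mul]
  refine integral_congr_ae (Filter.Eventually.of_forall fun y => ?_)
  simp only
  have hSu : ⟪S y, u⟫ = (1 - s * a) * ⟪y, u⟫ := by
    rw [hSx, inner_add_left, inner_smul_left, conj_trivial, real_inner_comm u v, ← ha]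
    ring
  have hmem : S y ∈ Bset w l u ε ↔ y ∈ cell w l := by
    rw [mem_cell_iff]
    unfold Bset
    simp only [mem_ofPred_eq]
    refine forall_congr' fun j => imp_congr_right fun hj => ?_
    have h1 : ⟪S y, w l⟫ - ⟪S y, w j⟫ = ⟪y, w l - w j⟫ - s * ⟪y, u⟫ := by
      rw [← inner_sub_right, hSx, inner_add_left, inner_smul_left, conj_trivial,
        real_inner_comm (w l - w j) v, hv j hj]
      ring
    rw [hSu]
    have h2 : ε * ((1 - s * a) * ⟪y, u⟫) = s * ⟪y, u⟫ := by rw [← mul_assoc, hεs]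
    rw [h2]
    constructor
    · intro h; linarith
    · intro h; linarith
  have hnorm : (‖y‖ ^ 2 - ‖S y‖ ^ 2) / 2 = s * (⟪y, u⟫ * ⟪y, v⟫) -
      s ^ 2 / 2 * (⟪y, u⟫ ^ 2 * ‖v‖ ^ 2) := by
    rw [hSx, norm_add_sq_real, inner_smul_right, norm_smul, mul_pow, Real.norm_eq_abs, sq_abs]
    ring
  rw [hnorm]
  by_cases hy : y ∈ cell w l
  · rw [indicator_of_mem (hmem.2 hy), indicator_of_mem hy, hSu, hsa]
    ring
  · rw [indicator_of_notMem (fun h => hy (hmem.1 h)), indicator_of_notMem hy]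
    ring

lemma hasDerivAt_hfun {k : ℕ} (w : Fin k → E) (l : Fin k) {v : E}
    (hv : ∀ j, j ≠ l → ⟪w l - w j, v⟫ = 1) (u : E) :
    HasDerivAt (hfun w l u) (Lam (cell w l) v u) 0 := by
  have hA : MeasurableSet (cell w l) := (isOpen_cell w l).measurableSet
  set a := ⟪u, v⟫ with ha
  set κ : ℝ → ℝ := fun s => ∫ y, (cell w l).indicator (fun y => ⟪y, u⟫) y *
      Real.exp (s * (⟪y, u⟫ * ⟪y, v⟫) - s ^ 2 / 2 * (⟪y, u⟫ ^ 2 * ‖v‖ ^ 2)) ∂(stdGaussian E)
    with hκ
  have hm1 : AEStronglyMeasurable ((cell w l).indicator (fun y : E => ⟪y, u⟫)) (stdGaussian E) :=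
    (Measurable.indicator (by fun_prop) hA).aestronglyMeasurable
  have hdκ : HasDerivAt κ (∫ y, (cell w l).indicator (fun y => ⟪y, u⟫) y * (⟪y, u⟫ * ⟪y, v⟫)
      ∂(stdGaussian E)) 0 := by
    refine hasDerivAt_kappa _ (fun y => ⟪y, u⟫ * ⟪y, v⟫) (fun y => ⟪y, u⟫ ^ 2 * ‖v‖ ^ 2) hm1
      (by fun_prop) (by fun_prop) (‖u‖ + ‖u‖ * ‖v‖ + ‖u‖ ^ 2 * ‖v‖ ^ 2)
      (fun x => (growth_ind_lin _ u x).trans ?_) (fun x => (abs_inner_mul_le_growth x u v).trans ?_)
      (fun x => by positivity) (fun x => ?_)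
    · have : 0 ≤ (‖u‖ * ‖v‖ + ‖u‖ ^ 2 * ‖v‖ ^ 2) * (1 + ‖x‖ ^ 2) := by positivity
      nlinarith
    · have : 0 ≤ (‖u‖ + ‖u‖ ^ 2 * ‖v‖ ^ 2) * (1 + ‖x‖ ^ 2) := by positivity
      nlinarith
    · have h1 : ⟪x, u⟫ ^ 2 ≤ ‖u‖ ^ 2 * (1 + ‖x‖ ^ 2) := by
        have := abs_inner_mul_le_growth x u u
        rw [← sq, abs_of_nonneg (sq_nonneg _), ← sq] at this
        exact this
      have h2 : ⟪x, u⟫ ^ 2 * ‖v‖ ^ 2 ≤ ‖u‖ ^ 2 * (1 + ‖x‖ ^ 2) * ‖v‖ ^ 2 := by gcongr
      have : 0 ≤ (‖u‖ + ‖u‖ * ‖v‖) * (1 + ‖x‖ ^ 2) := by positivity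
      nlinarith
  have hden : HasDerivAt (fun ε : ℝ => 1 + ε * a) a 0 := by
    have := ((hasDerivAt_id (0:ℝ)).mul_const a).const_add 1
    refine this.congr_deriv ?_
    simp
  have hs : HasDerivAt (fun ε : ℝ => ε / (1 + ε * a)) 1 0 := by
    have := (hasDerivAt_id (0:ℝ)).div hden (by simp)
    refine this.congr_deriv ?_
    simp
  have hs0 : (fun ε : ℝ => ε / (1 + ε * a)) 0 = 0 := by simp
  have hκs : HasDerivAt (fun ε : ℝ => κ (ε / (1 + ε * a)))
      ((∫ y, (cell w l).indicator (fun y => ⟪y, u⟫) y * (⟪y, u⟫ * ⟪y, v⟫)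
      ∂(stdGaussian E)) * 1) 0 := by
    have hd' : HasDerivAt κ (∫ y, (cell w l).indicator (fun y => ⟪y, u⟫) y * (⟪y, u⟫ * ⟪y, v⟫)
      ∂(stdGaussian E)) ((fun ε : ℝ => ε / (1 + ε * a)) 0) := by rw [hs0]; exact hdκ
    exact HasDerivAt.comp (0:ℝ) hd' hs
  have hinv : HasDerivAt (fun ε : ℝ => ((1 + ε * a)⁻¹) ^ 2) (-2 * a) 0 := by
    have := (hden.inv (by simp)).pow 2
    refine this.congr_deriv ?_
    simp
  have hprod := hinv.mul hκs
  have hnear : ∀ᶠ ε : ℝ in 𝓝 0, 0 < 1 + ε * a := by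
    have hc : ContinuousAt (fun ε : ℝ => 1 + ε * a) 0 := hden.continuousAt
    exact hc.eventually (lt_mem_nhds (by simp))
  have heq : hfun w l u =ᶠ[𝓝 0] fun ε => ((1 + ε * a)⁻¹) ^ 2 * κ (ε / (1 + ε * a)) := by
    filter_upwards [hnear] with ε hε
    exact hfun_eq w l hv u ε hε
  refine (hprod.congr_of_eventuallyEq heq).congr_deriv ?_
  rw [Lam_eq hA]
  have e1 : κ 0 = ∫ y, (cell w l).indicator (fun y => ⟪y, u⟫) y ∂(stdGaussian E) := by simp [hκ]
  have e2 : ∫ y, (cell w l).indicator (fun y => ⟪y, u⟫) y * (⟪y, u⟫ * ⟪y, v⟫) ∂(stdGaussian E) =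
      ∫ y, (cell w l).indicator (fun y => ⟪y, u⟫ * ⟪y, u⟫ * ⟪y, v⟫) y ∂(stdGaussian E) := by
    refine integral_congr_ae (Filter.Eventually.of_forall fun y => ?_)
    by_cases h : y ∈ cell w l
    · simp only [indicator_of_mem h]; ring
    · simp [indicator_of_notMem h]
  rw [e2, real_inner_comm u v, ← ha]
  simp only [zero_mul, add_zero, zero_div, e1]
  norm_num
  ring

/-- second order optimality. -/
theorem Lam_le {k : ℕ} {w : Fin k → E} (hw : Crit w) (l : Fin k) {v : E}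
    (hv : ∀ j, j ≠ l → ⟪w l - w j, v⟫ = 1) (u : E) :
    Lam (cell w l) v u ≤ (1 - 1 / (k:ℝ)) * ‖u‖ ^ 2 := by
  set M := (1 - 1 / (k:ℝ)) * ‖u‖ ^ 2 with hM
  have hk' : (1:ℝ) ≤ k := by exact_mod_cast l.pos
  have hM0 : 0 ≤ M := by
    have : 1 / (k:ℝ) ≤ 1 := by rw [div_le_one (by linarith)]; exact hk'
    have h2 : 0 ≤ 1 - 1 / (k:ℝ) := by linarith
    positivity
  by_contra hcon
  push Not at hcon
  set L := Lam (cell w l) v u with hL
  set δ := (L - M) / 2 with hδ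
  have hδ0 : 0 < δ := by rw [hδ]; linarith
  have hLδ : M < L - δ := by rw [hδ]; linarith
  obtain ⟨n, hn⟩ := exists_nat_gt ((L - δ) / (L - δ - M))
  have hnpos : 0 < n := by
    have h1 : 0 < (L - δ) / (L - δ - M) := div_pos (by linarith) (by linarith)
    have : (0:ℝ) < n := h1.trans hn
    exact_mod_cast this
  have hnpos' : (0:ℝ) < n := by exact_mod_cast hnpos
  have hn2 : n * M < (n - 1) * (L - δ) := by
    rw [div_lt_iff₀ (by linarith)] at hn
    linarith
  have hder := hasDerivAt_hfun w l hv u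
  have hlittle := hder.isLittleO
  rw [Asymptotics.isLittleO_iff] at hlittle
  have hev := hlittle hδ0
  rw [Metric.eventually_nhds_iff] at hev
  obtain ⟨r, hr, hev⟩ := hev
  have hlow : ∀ ε, 0 ≤ ε → ε < r → hfun w l u 0 + ε * (L - δ) ≤ hfun w l u ε := by
    intro ε h0 h1
    have h2 := hev (y := ε) (by rw [dist_zero_right, Real.norm_of_nonneg h0]; exact h1)
    simp only [sub_zero, smul_eq_mul, Real.norm_eq_abs, abs_of_nonneg h0] at h2
    have h3 := (abs_le.1 h2).1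
    linarith
  set η := r / (2 * n) with hη
  have hη0 : 0 < η := by positivity
  have hηn : η * n = r / 2 := by rw [hη]; field_simp
  have hind : ∀ j : ℕ, j ≤ n → Psi w + j * η * hfun w l u 0 +
      η ^ 2 * (L - δ) * (j * (j - 1) / 2) ≤ Psi (pert w l u (j * η)) := by
    intro j
    induction j with
    | zero => intro _; simp [pert_zero]
    | succ j ih =>
      intro hj
      have h1 := ih (by omega)
      have h2 := Psi_pert_ge w l u (j * η) ((j + 1 : ℕ) * η)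
      have hjn : (j:ℝ) * η < r := by
        have : (j:ℝ) ≤ n := by exact_mod_cast (by omega : j ≤ n)
        nlinarith
      have h3 := hlow (j * η) (by positivity) hjn
      have h4 : (((j + 1 : ℕ) : ℝ) * η - j * η) = η := by push_cast; ring
      rw [h4] at h2
      have h5 : η * (hfun w l u 0 + j * η * (L - δ)) ≤ η * hfun w l u (j * η) :=
        mul_le_mul_of_nonneg_left h3 hη0.le
      have h6 : (((j + 1 : ℕ) : ℝ)) = j + 1 := by push_cast; ring
      rw [h6] at h2 ⊢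
      nlinarith
  have h1 := hind n le_rfl
  have h2 := Psi_pert_le hw l u (n * η)
  have h3 : hfun w l u 0 = ⟪w l, u⟫ := by
    have hB : Bset w l u 0 = cell w l := by
      ext x; simp [Bset, cell]
    unfold hfun
    rw [hB, integral_indicator (isOpen_cell w l).measurableSet]
    conv_rhs => rw [hw.moment l]
    rw [← real_inner_comm, ← integral_inner (𝕜 := ℝ)]
    · refine integral_congr_ae (Filter.Eventually.of_forall fun x => ?_)
      exact real_inner_comm _ _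
    · exact integrable_id_std.integrableOn
  rw [h3] at h1
  have h4 : η ^ 2 * (L - δ) * (n * (n - 1) / 2) ≤ (n * η) ^ 2 / 2 * M := by linarith
  have h5 : (n * η ^ 2 / 2) * (n * M) < (n * η ^ 2 / 2) * ((n - 1) * (L - δ)) :=
    mul_lt_mul_of_pos_left hn2 (by positivity)
  nlinarith

end P226
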